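import Vale.Agent.P209.Pair

/-! Operations on packings.

`Packs.scale`: conjugate by the dilation `z ↦ √t • z` (a homeomorphism; it maps `ball n r` onto
`ball n (t * r)` and interiors to interiors); the two factors `√t` and `1 / √t` cancel in the derivative.
`Packs.merge`: for `i ∈ G` use `F ∘ f i` on `U i ∩ f i ⁻¹' V`, where `(V, F)` embeds the ball of size `ρ`. -/

namespace Vale.Agent.P209

open Set

variable {n : ℕ} {ι κ : Type}

theorem mem_interior_ball {R : ℝ} {z : E n} (h : ∑ j, mom z j < R) : z ∈ interior (ball n R) := by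
  have ho : IsOpen {z : E n | Real.pi * ∑ j, ‖z j‖ ^ 2 < R} :=
    isOpen_lt (by fun_prop) continuous_const
  refine interior_maximal (t := {z : E n | Real.pi * ∑ j, ‖z j‖ ^ 2 < R})
    (fun w hw => le_of_lt (mem_ofPred_eq ▸ hw)) ho ?_
  simpa only [mom, mem_ofPred_eq, Finset.mul_sum] using h

theorem api_ball {c R : ℝ} (hc : 0 < c) (z : E n) :
    c • z ∈ ball n (c ^ 2 * R) ↔ z ∈ ball n R := by
  have e : Real.pi * ∑ j, ‖(c • z) j‖ ^ 2 = c ^ 2 * (Real.pi * ∑ j, ‖z j‖ ^ 2) := by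
    simp only [Pi.smul_apply, norm_smul, mul_pow, Real.norm_eq_abs, sq_abs, ← Finset.mul_sum]
    ring
  simp only [ball, mem_ofPred_eq]
  rw [e]
  exact mul_le_mul_iff_right₀ (by positivity)

theorem api_int {c R : ℝ} (hc : 0 < c) {z : E n} (h : z ∈ interior (ball n R)) :
    c • z ∈ interior (ball n (c ^ 2 * R)) := by
  have ho : IsOpen ((fun w : E n => c⁻¹ • w) ⁻¹' interior (ball n R)) :=
    isOpen_interior.preimage (by fun_prop)
  refine interior_maximal (fun w hw => ?_) ho ?_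
  · have h1 := (api_ball hc _).2 (interior_subset hw)
    rwa [smul_inv_smul₀ hc.ne'] at h1
  · simpa only [mem_preimage, inv_smul_smul₀ hc.ne'] using h

theorem api_omega (c : ℝ) (v w : E n) : omega (c • v) (c • w) = c ^ 2 * omega v w := by
  simp only [omega, Pi.smul_apply, Complex.smul_re, Complex.smul_im, smul_eq_mul, Finset.mul_sum]
  exact Finset.sum_congr rfl fun _ _ => by ring

theorem api_conj {U : Set (E n)} {f : E n → E n} (hf : Sy U f) {c : ℝ} (hc : 0 < c) :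
    Sy ((fun w : E n => c⁻¹ • w) ⁻¹' U) fun w => c • f (c⁻¹ • w) := by
  refine ⟨hf.isOpen.preimage (by fun_prop),
    (hf.smooth.comp (contDiff_id.const_smul c⁻¹).contDiffOn fun _ hw => hw).const_smul c,
    fun z hz v w => ?_⟩
  have h1 : HasFDerivAt f (fderiv ℝ f (c⁻¹ • z)) (c⁻¹ • z) :=
    ((hf.smooth.contDiffAt (hf.isOpen.mem_nhds hz)).differentiableAt (by simp)).hasFDerivAt
  have h2 := (h1.comp z ((hasFDerivAt_id z).const_smul c⁻¹)).const_smul c
  have h3 : ∀ u, fderiv ℝ (fun w => c • f (c⁻¹ • w)) z u = fderiv ℝ f (c⁻¹ • z) u := fun u => by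
    have h4 : fderiv ℝ (fun w => c • f (c⁻¹ • w)) z = _ := h2.fderiv
    rw [h4]
    simp [smul_inv_smul₀ hc.ne']
  rw [h3, h3]
  exact hf.symp _ hz v w

theorem Packs.scale {r : ι → ℝ} {R t : ℝ} (h : Packs n r R) (ht : 0 < t) :
    Packs n (fun i => t * r i) (t * R) := by
  obtain ⟨U, f, h1, h2⟩ := h
  obtain ⟨c, hc, rfl⟩ : ∃ c : ℝ, 0 < c ∧ t = c ^ 2 :=
    ⟨√t, Real.sqrt_pos.2 ht, (Real.sq_sqrt ht.le).symm⟩
  have hb : ∀ (ρ : ℝ) (z : E n), z ∈ ball n (c ^ 2 * ρ) → c⁻¹ • z ∈ ball n ρ := fun ρ z hz =>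
    (api_ball hc _).1 (by rwa [smul_inv_smul₀ hc.ne'])
  refine ⟨fun i => (fun w : E n => c⁻¹ • w) ⁻¹' U i, fun i w => c • f i (c⁻¹ • w),
    fun i => ⟨fun z hz => (h1 i).1 (hb _ z hz), (api_conj (h1 i).2.1.sy hc).emb
      fun z hz w hw e => ?_, ?_⟩, fun i j hij => ?_⟩
  · exact smul_right_injective _ (inv_ne_zero hc.ne')
      ((h1 i).2.1.injOn hz hw (smul_right_injective _ hc.ne' e))
  · rintro _ ⟨z, hz, rfl⟩
    exact api_int hc ((h1 i).2.2 ⟨_, hb _ z hz, rfl⟩)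
  · refine disjoint_left.2 ?_
    rintro _ ⟨z, hz, rfl⟩ ⟨w, hw, e⟩
    exact disjoint_left.1 (h2 hij) ⟨_, hb _ z hz, rfl⟩
      ⟨_, hb _ w hw, smul_right_injective _ hc.ne' e⟩

theorem Packs.comp_inj {r : ι → ℝ} {R : ℝ} (h : Packs n r R) {e : κ → ι}
    (he : Function.Injective e) : Packs n (fun k => r (e k)) R := by
  obtain ⟨U, f, h1, h2⟩ := h
  exact ⟨fun k => U (e k), fun k => f (e k), fun k => h1 (e k), fun k l hkl => h2 (he.ne hkl)⟩

theorem Packs.merge {r : ι → ℝ} {R ρ : ℝ} (G : Finset ι) (h1 : Packs n (fun i : G => r i) ρ)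
    (h2 : Packs n (fun o : Option {i // i ∉ G} => o.elim ρ fun i => r i) R) : Packs n r R := by
  classical
  obtain ⟨U, f, a1, a2⟩ := h1
  obtain ⟨V, F, b1, b2⟩ := h2
  obtain ⟨c1, c2, c3⟩ := b1 none
  have hin : ∀ i : G, (F none ∘ f i) '' ball n (r i) ⊆ F none '' ball n ρ := fun i => by
    rintro _ ⟨z, hz, rfl⟩
    exact ⟨_, interior_subset ((a1 i).2.2 ⟨z, hz, rfl⟩), rfl⟩
  have hV : ∀ i : G, ∀ z ∈ ball n (r i), f i z ∈ V none := fun i z hz =>
    c1 (interior_subset ((a1 i).2.2 ⟨z, hz, rfl⟩))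
  refine ⟨fun i => if h : i ∈ G then U ⟨i, h⟩ ∩ f ⟨i, h⟩ ⁻¹' V none else V (some ⟨i, h⟩),
    fun i => if h : i ∈ G then F none ∘ f ⟨i, h⟩ else F (some ⟨i, h⟩), fun i => ?_,
    fun i j hij => ?_⟩
  · by_cases h : i ∈ G
    · simp only [dif_pos h]
      obtain ⟨d1, d2, -⟩ := a1 ⟨i, h⟩
      have ho : IsOpen (U ⟨i, h⟩ ∩ f ⟨i, h⟩ ⁻¹' V none) :=
        d2.smooth.continuousOn.isOpen_inter_preimage d2.isOpen c2.isOpen
      refine ⟨fun z hz => ⟨d1 hz, hV ⟨i, h⟩ z hz⟩,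
        ((d2.sy.mono ho inter_subset_left).comp c2.sy fun z hz => hz.2).emb
          fun z hz w hw e => d2.injOn hz.1 hw.1 (c2.injOn hz.2 hw.2 e), (hin ⟨i, h⟩).trans c3⟩
    · simp only [dif_neg h]
      exact b1 (some ⟨i, h⟩)
  · by_cases h : i ∈ G <;> by_cases h' : j ∈ G
    · simp only [dif_pos h, dif_pos h']
      refine disjoint_left.2 ?_
      rintro _ ⟨z, hz, rfl⟩ ⟨w, hw, e⟩
      have hne : (⟨i, h⟩ : G) ≠ ⟨j, h'⟩ := fun e' => hij (congrArg Subtype.val e')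
      exact disjoint_left.1 (a2 hne) ⟨z, hz, rfl⟩
        ⟨w, hw, c2.injOn (hV ⟨j, h'⟩ w hw) (hV ⟨i, h⟩ z hz) e⟩
    · simp only [dif_pos h, dif_neg h']
      have k := @b2 none (some ⟨j, h'⟩) (Option.some_ne_none _).symm
      exact k.mono_left (hin ⟨i, h⟩)
    · simp only [dif_neg h, dif_pos h']
      have k := @b2 (some ⟨i, h⟩) none (Option.some_ne_none _)
      exact k.mono_right (hin ⟨j, h'⟩)
    · simp only [dif_neg h, dif_neg h']
      have hne : (some ⟨i, h⟩ : Option {i // i ∉ G}) ≠ some ⟨j, h'⟩ := fun e' =>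
        hij (congrArg Subtype.val (Option.some_injective _ e'))
      exact b2 hne

end Vale.Agent.P209
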