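import Vale.Agent.P209.Lat

/-! Existence of reserves.

`G = ⌈4 Λ n / r⌉₊`, so `1 / G ≤ r / (4 Λ n)` and `G + 1 ≤ g / r`, `g = 4 Λ n + 2`; `2 (r / c0) G + 1 ≤ W = 2 g / c0 + 1`.
Copies: `μ j p = ⌈(n - j) τ' (2 Λ / r) ^ (n - j)⌉₊` with `τ' = τ` for `rb`, `τ' = τ r` for `lf`, `rf`. For `j + 1 < n` the number
under the ceiling is `≥ τ / r ≥ 1`, so `μ j p ≤ D τ' / r ^ (n - j)` with `D = 2 n (2 Λ) ^ n`. Labels:
`κ = Σ j : Fin (n - 1), Σ p : Fin 3, (Fin j → Fin (G + 1)) × Fin (μ j p)`, of size `≤ 3 n D g ^ n τ / r ^ n`. Take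
`Γ = 3 n D (g W) ^ n + 1`. `exists_label` for the set of big balls; `lev`, `role`, `ζ` are read off the label
(`ζ i l = site l / G` for `l < j`, else `0`); without label `lev = 0`, `role = lo`, `ζ = 0`. Lower counts: the copies over
the site of `grid_near` inject by `e`. Upper counts: the filter is contained in the image under `e` of a product,
`sites_card`. For `obs` sum over the levels `l > j` and the three roles: `μ W ^ (j + 1) (G + 1) ^ (l - j - 1) r ^ (n - 1 - j)`. -/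

namespace Vale.Agent.P209

open Finset

theorem asge_transfer {ι κ : Type} [Fintype ι] [Fintype κ] {n : ℕ} {Λ c0 τ Γ r : ℝ} (hΛ : 0 < Λ)
    (hr : 0 < r) (rr : ι → ℝ) {lev : κ → ℕ} {role : κ → Role} {ζ : κ → ℕ → ℝ}
    (hc : Fintype.card κ ≤ (univ.filter fun i => r / Λ ≤ rr i).card)
    (H : Asg n Λ c0 τ Γ r (fun _ => r / Λ) lev role ζ) :
    ∃ (lev : ι → ℕ) (role : ι → Role) (ζ : ι → ℕ → ℝ), Asg n Λ c0 τ Γ r rr lev role ζ := by
  classical
  obtain ⟨e, lab, he, hl⟩ := exists_label _ hc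
  have l1 : ∀ k, lab (e k) = some k := fun k => (hl _ _).2 rfl
  have inj : Function.Injective e := fun k k' h => by
    have := (hl _ _).2 h
    rw [l1] at this
    exact (Option.some.inj this).symm
  have up : ∀ (Q : ι → Prop) [DecidablePred Q] (Q' : κ → Prop) [DecidablePred Q'],
      (∀ i, lab i = none → ¬ Q i) → (∀ k, Q (e k) → Q' k) →
      ((univ.filter Q).card : ℝ) ≤ (univ.filter Q').card := fun Q _ Q' _ h1 h2 => by
    refine Nat.cast_le.2 ((card_le_card fun i hi => ?_).trans (card_image_le (f := e)))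
    have hi' := (mem_filter.1 hi).2
    rcases h : lab i with _ | k
    · exact absurd hi' (h1 i h)
    · obtain rfl := (hl _ _).1 h
      exact mem_image.2 ⟨k, mem_filter.2 ⟨mem_univ _, h2 k hi'⟩, rfl⟩
  refine ⟨fun i => (lab i).elim 0 lev, fun i => (lab i).elim .lo role,
    fun i => (lab i).elim (fun _ => 0) ζ, fun i => ?_, fun i l => ?_, fun j hj p hp u hu => ?_,
    fun j hj p hp u => ?_, fun j hj u => ?_⟩
  · rcases h : lab i with _ | k
    · simp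
    · exact H.nob k
  · rcases h : lab i with _ | k
    · simp
    · exact H.z01 k l
  · refine (H.lo j hj p hp u hu).trans (mul_le_mul_of_nonneg_right (Nat.cast_le.2 ?_) (by positivity))
    refine card_le_card_of_injOn e (fun k hk => ?_) inj.injOn
    have hk' := (mem_filter.1 (mem_coe.1 hk)).2
    refine mem_coe.2 (mem_filter.2 ⟨mem_univ _, ?_⟩)
    rw [l1]
    exact ⟨hk'.1, hk'.2.1, (mem_filter.1 (he k)).2, hk'.2.2.2⟩
  · refine le_trans (mul_le_mul_of_nonneg_right (up _ _ (fun i hi h => ?_) fun k h => ?_)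
      (by positivity)) (H.hi j hj p hp u)
    · rw [hi] at h
      have h2 : Role.lo = p := h.2.1
      subst h2
      simp at hp
    · rw [l1] at h
      exact h
  · refine le_trans (mul_le_mul_of_nonneg_right (up _ _ (fun i hi h => ?_) fun k h => ?_)
      (by positivity)) (H.obs j hj u)
    · rw [hi] at h
      exact Nat.not_lt_zero _ h.1
    · rw [l1] at h
      exact h

/-- The three roles. -/
def asgeRo : Fin 3 → Role := ![.lf, .rf, .rb]

/-- The site of a label. -/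
noncomputable def asgeSite (G : ℕ) {j : ℕ} (s : Fin j → Fin (G + 1)) (l : ℕ) : ℝ :=
  if h : l < j then ((s ⟨l, h⟩ : ℕ) : ℝ) / G else 0

/-- The labels. -/
abbrev AsgeK (n G : ℕ) (μ : ℕ → Fin 3 → ℕ) : Type :=
  Σ a : Fin (n - 1) × Fin 3, (Fin a.1 → Fin (G + 1)) × Fin (μ a.1 a.2)

theorem asge_ro_inj : Function.Injective asgeRo := by decide

theorem asge_ro_ne (b : Fin 3) : asgeRo b ≠ .ob := by revert b; decide

theorem asge_ro_surj {p : Role} (hp : p = Role.lf ∨ p = Role.rf ∨ p = Role.rb) :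
    ∃ b, asgeRo b = p := by
  rcases hp with rfl | rfl | rfl
  exacts [⟨0, rfl⟩, ⟨1, rfl⟩, ⟨2, rfl⟩]

theorem asge_site01 (G : ℕ) {j : ℕ} (s : Fin j → Fin (G + 1)) (l : ℕ) :
    0 ≤ asgeSite G s l ∧ asgeSite G s l ≤ 1 := by
  unfold asgeSite
  split_ifs with h
  · exact ⟨by positivity, div_le_one_of_le₀ (Nat.cast_le.2 (Nat.le_of_lt_succ (s ⟨l, h⟩).isLt))
      (Nat.cast_nonneg _)⟩
  · exact ⟨le_rfl, zero_le_one⟩

theorem asge_count {n G : ℕ} {μ : ℕ → Fin 3 → ℕ} (Q : AsgeK n G μ → Prop) [DecidablePred Q]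
    (R : (a : Fin (n - 1) × Fin 3) → (Fin a.1 → Fin (G + 1)) → Prop) [∀ a, DecidablePred (R a)]
    (h : ∀ k, Q k ↔ R k.1 k.2.1) :
    ((univ.filter Q).card : ℝ) = ∑ a, ((univ.filter (R a)).card : ℝ) * μ a.1 a.2 := by
  simp only [card_filter, h, Nat.cast_sum, Fintype.sum_sigma]
  refine sum_congr rfl fun a _ => ?_
  rw [Fintype.sum_prod_type, sum_mul]
  refine sum_congr rfl fun s _ => ?_
  by_cases hR : R a s <;> simp [hR]

theorem asge_sites {G : ℕ} (hG : 0 < G) (u : ℕ → ℝ) {w : ℝ} (hw : 0 ≤ w) {l m : ℕ} (hm : m ≤ l)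
    (R : (Fin l → Fin (G + 1)) → Prop) [DecidablePred R]
    (h : ∀ s, R s → ∀ i, i < m → |u i - asgeSite G s i| ≤ w) :
    ((univ.filter R).card : ℝ) ≤ (2 * w * G + 1) ^ m * ((G : ℝ) + 1) ^ (l - m) := by
  refine le_trans (Nat.cast_le.2 (card_le_card fun s hs => ?_)) (sites_card hG u hw hm)
  refine mem_filter.2 ⟨mem_univ _, fun j hj => ?_⟩
  have := h s (mem_filter.1 hs).2 j hj
  rwa [asgeSite, dif_pos j.isLt] at this

theorem asge_mu {n k : ℕ} {Λ τ r t : ℝ} (hΛ : 1 ≤ Λ) (hr : 0 < r) (hτ : r ≤ τ) (h1 : τ ≤ 1)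
    (ht : τ * r ≤ t) (h2 : 2 ≤ k) (hk : k ≤ n) :
    (k : ℝ) * t ≤ ⌈(k : ℝ) * t * (2 * Λ / r) ^ k⌉₊ * (r / (2 * Λ)) ^ k ∧
      (⌈(k : ℝ) * t * (2 * Λ / r) ^ k⌉₊ : ℝ) * r ^ k ≤ 2 * n * (2 * Λ) ^ n * t := by
  have ht0 : 0 < t := lt_of_lt_of_le (mul_pos (hr.trans_le hτ) hr) ht
  have hΛ0 : 0 < Λ := by linarith
  have k2 : (2 : ℝ) ≤ k := by exact_mod_cast h2
  have kn : (k : ℝ) ≤ n := by exact_mod_cast hk
  constructor
  · refine le_trans (le_of_eq ?_) (mul_le_mul_of_nonneg_right (Nat.le_ceil _) (by positivity))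
    rw [mul_assoc ((k : ℝ) * t), ← mul_pow, show 2 * Λ / r * (r / (2 * Λ)) = 1 by field_simp,
      one_pow, mul_one]
  · have a1 : r ^ k ≤ t := (pow_le_pow_of_le_one hr.le (hτ.trans h1) h2).trans (by nlinarith)
    have a2 : 1 ≤ (2 * Λ) ^ k := one_le_pow₀ (by linarith)
    have a3 : (2 * Λ) ^ k ≤ (2 * Λ) ^ n := pow_le_pow_right₀ (by linarith) hk
    have a4 : (⌈(k : ℝ) * t * (2 * Λ / r) ^ k⌉₊ : ℝ) ≤ k * t * (2 * Λ / r) ^ k + 1 :=
      (Nat.ceil_lt_add_one (by positivity)).le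
    have a5 : ((k : ℝ) * t * (2 * Λ / r) ^ k + 1) * r ^ k = k * (2 * Λ) ^ k * t + r ^ k := by
      rw [div_pow]
      field_simp
    have a6 : (k : ℝ) * (2 * Λ) ^ k ≤ n * (2 * Λ) ^ n :=
      mul_le_mul kn a3 (by positivity) (by positivity)
    have a7 : (1 : ℝ) ≤ n * (2 * Λ) ^ n := by nlinarith
    have a8 := mul_le_mul_of_nonneg_right a6 ht0.le
    have a9 := mul_le_mul_of_nonneg_right a7 ht0.le
    have a10 := mul_le_mul_of_nonneg_right a4 (pow_pos hr k).le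
    linarith

theorem asge_grid {n : ℕ} {Λ r : ℝ} (hΛ : 1 ≤ Λ) (hr : 0 < r) (h1 : r ≤ 1) :
    ((⌈4 * Λ * n / r⌉₊ : ℝ) + 1) * r ≤ 4 * Λ * n + 2 ∧
      (0 < n → 0 < ⌈4 * Λ * n / r⌉₊ ∧ 1 / (⌈4 * Λ * n / r⌉₊ : ℝ) ≤ r / (4 * Λ * n)) := by
  have hΛ0 : 0 < Λ := by linarith
  constructor
  · have a1 : (⌈4 * Λ * n / r⌉₊ : ℝ) ≤ 4 * Λ * n / r + 1 := (Nat.ceil_lt_add_one (by positivity)).le
    have a2 := mul_le_mul_of_nonneg_right a1 hr.le
    rw [add_mul, div_mul_cancel₀ _ hr.ne'] at a2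
    linarith
  · intro hn
    have a0 : 0 < 4 * Λ * n / r := by positivity
    refine ⟨Nat.ceil_pos.2 a0, ?_⟩
    exact (one_div_le_one_div_of_le a0 (Nat.le_ceil _)).trans_eq (one_div_div _ _)

theorem asge_sum {n : ℕ} {f : Fin (n - 1) × Fin 3 → ℝ} {x : ℝ} (hx : 0 ≤ x) (h : ∀ a, f a ≤ x) :
    ∑ a, f a ≤ 3 * n * x := by
  refine (sum_le_card_nsmul _ _ _ fun a _ => h a).trans ?_
  rw [card_univ, Fintype.card_prod, Fintype.card_fin, Fintype.card_fin, nsmul_eq_mul]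
  have : (((n - 1) * 3 : ℕ) : ℝ) ≤ 3 * n := by exact_mod_cast (by omega : (n - 1) * 3 ≤ 3 * n)
  exact mul_le_mul_of_nonneg_right this hx

theorem asge_model {n G : ℕ} {μ : ℕ → Fin 3 → ℕ} {Λ c0 τ r g W D : ℝ} (hΛ : 0 < Λ) (hc0 : 0 < c0)
    (hr : 0 < r) (hτ : r ≤ τ) (h1 : τ ≤ 1) (hg : 1 ≤ g) (hW : 1 ≤ W) (hD : 0 ≤ D)
    (g1 : ((G : ℝ) + 1) * r ≤ g) (g2 : 0 < n → 0 < G ∧ 1 / (G : ℝ) ≤ r / (4 * Λ * n))
    (g3 : 2 * (r / c0) * G + 1 ≤ W)
    (m1 : ∀ j b, j + 1 < n → ((n - j : ℕ) : ℝ) * (if asgeRo b = Role.rb then τ else τ * r) ≤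
      μ j b * (r / (2 * Λ)) ^ (n - j))
    (m2 : ∀ j b, j + 1 < n → (μ j b : ℝ) * r ^ (n - j) ≤
      D * if asgeRo b = Role.rb then τ else τ * r) :
    (Fintype.card (AsgeK n G μ) : ℝ) * r ^ n ≤ τ * (3 * n * D * (g * W) ^ n + 1) ∧
      Asg n Λ c0 τ (3 * n * D * (g * W) ^ n + 1) r (fun _ : AsgeK n G μ => r / Λ)
        (fun k => k.1.1) (fun k => asgeRo k.1.2) fun k => asgeSite G k.2.1 := by
  have hτ0 : 0 < τ := hr.trans_le hτ
  have hlt : ∀ a : Fin (n - 1) × Fin 3, (a.1 : ℕ) + 1 < n := fun a => by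
    have := a.1.isLt
    omega
  have m3 : ∀ j b, j + 1 < n → (μ j b : ℝ) * r ^ (n - j) ≤ D * τ := fun j b hj => by
    refine (m2 j b hj).trans (mul_le_mul_of_nonneg_left ?_ hD)
    split_ifs
    · exact le_rfl
    · exact mul_le_of_le_one_right hτ0.le (hτ.trans h1)
  have pw : ∀ a b : ℕ, a ≤ n → b ≤ n → W ^ a * g ^ b ≤ (g * W) ^ n := fun a b ha hb => by
    rw [mul_pow, mul_comm]
    exact mul_le_mul (pow_le_pow_right₀ hg hb) (pow_le_pow_right₀ hW ha) (by positivity)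
      (by positivity)
  have term : ∀ (x : ℝ) (m l : ℕ) b, l + 1 < n → m ≤ l →
      x ≤ (2 * (r / c0) * G + 1) ^ m * ((G : ℝ) + 1) ^ (l - m) →
      x * μ l b * r ^ (n - m) ≤ (g * W) ^ n * (μ l b * r ^ (n - l)) := fun x m l b hl hm hx => by
    have e : r ^ (n - m) = r ^ (l - m) * r ^ (n - l) := by
      rw [← pow_add]
      congr 1
      omega
    have a1 : (2 * (r / c0) * G + 1) ^ m ≤ W ^ m := pow_le_pow_left₀ (by positivity) g3 m
    have a2 : ((G : ℝ) + 1) ^ (l - m) * r ^ (l - m) ≤ g ^ (l - m) := by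
      rw [← mul_pow]
      exact pow_le_pow_left₀ (by positivity) g1 _
    have a3 : x * r ^ (l - m) ≤ (g * W) ^ n :=
      calc x * r ^ (l - m)
          ≤ (2 * (r / c0) * G + 1) ^ m * ((G : ℝ) + 1) ^ (l - m) * r ^ (l - m) :=
            mul_le_mul_of_nonneg_right hx (by positivity)
        _ ≤ W ^ m * g ^ (l - m) := by
            rw [mul_assoc]
            exact mul_le_mul a1 a2 (by positivity) (by positivity)
        _ ≤ (g * W) ^ n := pw _ _ (by omega) (by omega)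
    calc x * μ l b * r ^ (n - m) = x * r ^ (l - m) * (μ l b * r ^ (n - l)) := by rw [e]; ring
      _ ≤ _ := mul_le_mul_of_nonneg_right a3 (by positivity)
  have fin : ∀ f : Fin (n - 1) × Fin 3 → ℝ, (∀ a, f a ≤ (g * W) ^ n * (D * τ)) →
      ∑ a, f a ≤ τ * (3 * n * D * (g * W) ^ n + 1) := fun f hf => by
    have := asge_sum (by positivity) hf
    linarith
  refine ⟨?_, fun k => asge_ro_ne _, fun k l => asge_site01 _ _ _, fun j hj p hp u hu => ?_,
    fun j hj p hp u => ?_, fun j hj u => ?_⟩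
  · rw [← card_univ, ← filter_true univ, asge_count _ (fun _ _ => True) fun _ => Iff.rfl, sum_mul]
    refine fin _ fun a => ?_
    refine (term _ 0 a.1 a.2 (hlt a) (Nat.zero_le _) ?_).trans
      (mul_le_mul_of_nonneg_left (m3 _ _ (hlt a)) (by positivity))
    simp
  · obtain ⟨b, rfl⟩ := asge_ro_surj hp
    obtain ⟨hG, hG'⟩ := g2 (by omega)
    refine (m1 j b hj).trans (mul_le_mul_of_nonneg_right ?_ (by positivity))
    rw [asge_count _ (fun a s => (a.1 : ℕ) = j ∧ asgeRo a.2 = asgeRo b ∧ r / Λ ≤ r / Λ ∧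
      ∀ l ∈ range j, |u l - asgeSite G s l| ≤ r / (4 * Λ * n)) fun _ => Iff.rfl]
    refine le_trans ?_ (single_le_sum (f := fun a : Fin (n - 1) × Fin 3 => _)
      (fun a _ => by positivity) (mem_univ (⟨j, by omega⟩, b)))
    refine le_mul_of_one_le_left (Nat.cast_nonneg _) (Nat.one_le_cast.2 (card_pos.2 ?_))
    choose s hs using fun l : Fin j => grid_near hG (hu l).1 (hu l).2
    refine ⟨s, mem_filter.2 ⟨mem_univ _, rfl, rfl, le_rfl, fun l hl => ?_⟩⟩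
    rw [asgeSite, dif_pos (mem_range.1 hl)]
    exact (hs ⟨l, mem_range.1 hl⟩).trans hG'
  · obtain ⟨b, rfl⟩ := asge_ro_surj hp
    obtain ⟨hG, -⟩ := g2 (by omega)
    rw [asge_count _ (fun a s => (a.1 : ℕ) = j ∧ asgeRo a.2 = asgeRo b ∧
      ∀ l ∈ range j, |u l - asgeSite G s l| ≤ r / c0) fun _ => Iff.rfl,
      sum_eq_single (⟨j, by omega⟩, b) (fun a _ ha => ?_) fun h => absurd (mem_univ _) h]
    · refine (term _ j j b hj le_rfl (asge_sites hG u (by positivity) le_rfl _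
        fun s hs i hi => hs.2.2 i (mem_range.2 hi))).trans
        ((mul_le_mul_of_nonneg_left (m2 _ _ hj) (by positivity)).trans ?_)
      have a1 : (1 : ℝ) ≤ n := by exact_mod_cast (by omega : 1 ≤ n)
      have a2 : (g * W) ^ n * D ≤ 3 * n * D * (g * W) ^ n + 1 := by
        have : 0 ≤ D * (g * W) ^ n := by positivity
        nlinarith
      split_ifs
      · nlinarith
      · have := mul_pos hτ0 hr
        nlinarith
    · rw [filter_false_of_mem fun s _ hs => ha (Prod.ext (Fin.ext hs.1) (asge_ro_inj hs.2.1)),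
        card_empty, Nat.cast_zero, zero_mul]
  · obtain ⟨hG, -⟩ := g2 (by omega)
    rw [asge_count _ (fun a s => j < (a.1 : ℕ) ∧ |u j - asgeSite G s j| ≤ r / c0 ∧
      ∀ l ∈ range j, |u l - asgeSite G s l| ≤ r / c0) fun _ => Iff.rfl, sum_mul,
      show n - 1 - j = n - (j + 1) by omega]
    refine fin _ fun a => ?_
    by_cases ha : j < (a.1 : ℕ)
    · refine (term _ (j + 1) a.1 a.2 (hlt a) ha (asge_sites hG u (by positivity) ha _
        fun s hs i hi => ?_)).trans (mul_le_mul_of_nonneg_left (m3 _ _ (hlt a)) (by positivity))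
      rcases Nat.lt_succ_iff_lt_or_eq.1 hi with hi | rfl
      · exact hs.2.2 i (mem_range.2 hi)
      · exact hs.2.1
    · rw [filter_false_of_mem fun s _ hs => ha hs.1, card_empty, Nat.cast_zero, zero_mul, zero_mul]
      positivity

theorem exists_asg (n : ℕ) {Λ c0 : ℝ} (hΛ : 1 ≤ Λ) (hc0 : 0 < c0) : ∃ Γ : ℝ, 0 < Γ ∧
    ∀ τ r : ℝ, 0 < r → r ≤ τ → τ ≤ 1 → ∀ (ι : Type) [Fintype ι] (rr : ι → ℝ),
      τ * Γ ≤ (univ.filter fun i => r / Λ ≤ rr i).card * r ^ n →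
      ∃ (lev : ι → ℕ) (role : ι → Role) (ζ : ι → ℕ → ℝ), Asg n Λ c0 τ Γ r rr lev role ζ := by
  have hΛ0 : 0 < Λ := by linarith
  refine ⟨3 * n * (2 * n * (2 * Λ) ^ n) * ((4 * Λ * n + 2) * (2 * (4 * Λ * n + 2) / c0 + 1)) ^ n + 1,
    by positivity, fun τ r hr hτ h1 ι _ rr h => ?_⟩
  obtain ⟨g1, g2⟩ := asge_grid (n := n) hΛ hr (hτ.trans h1)
  have ht : ∀ b, τ * r ≤ if asgeRo b = Role.rb then τ else τ * r := fun b => by
    split_ifs
    · exact mul_le_of_le_one_right (hr.le.trans hτ) (hτ.trans h1)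
    · exact le_rfl
  have p1 : 0 ≤ 4 * Λ * n := by positivity
  have p2 : 0 ≤ 2 * (4 * Λ * n + 2) / c0 := by positivity
  obtain ⟨k1, k2⟩ := asge_model (W := 2 * (4 * Λ * n + 2) / c0 + 1) (D := 2 * n * (2 * Λ) ^ n)
    (μ := fun j b => ⌈((n - j : ℕ) : ℝ) * (if asgeRo b = Role.rb then τ else τ * r) *
      (2 * Λ / r) ^ (n - j)⌉₊) hΛ0 hc0 hr hτ h1 (by linarith) (by linarith) (by positivity) g1 g2
    (by
      rw [add_le_add_iff_right, ← mul_div_assoc, div_mul_eq_mul_div]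
      exact div_le_div_of_nonneg_right (by linarith) hc0.le)
    (fun j b hj => (asge_mu hΛ hr hτ h1 (ht b) (by omega) (Nat.sub_le n j)).1)
    fun j b hj => (asge_mu hΛ hr hτ h1 (ht b) (by omega) (Nat.sub_le n j)).2
  exact asge_transfer hΛ0 hr rr
    (Nat.cast_le.1 (le_of_mul_le_mul_right (k1.trans h) (pow_pos hr n))) k2

end Vale.Agent.P209
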