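import Vale.Agent.P209.Defs

/-! Working definitions of the symplectic layer. -/

namespace Vale.Agent.P209

open scoped ContDiff
open Set

noncomputable section

variable {n : ℕ}

/-- Smooth and symplectic on the open set `U` (no injectivity). -/
structure Sy (U : Set (E n)) (f : E n → E n) : Prop where
  isOpen : IsOpen U
  smooth : ContDiffOn ℝ ∞ f U
  symp : ∀ z ∈ U, ∀ v w, omega (fderiv ℝ f z v) (fderiv ℝ f z w) = omega v w

def reP (p : E n) : Fin n → ℝ := fun j => (p j).re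

def mom (z : E n) : Fin n → ℝ := fun j => Real.pi * ‖z j‖ ^ 2

/-- Injective even after the imaginary parts are taken modulo integers. -/
def InjMod (U : Set (E n)) (f : E n → E n) : Prop :=
  ∀ p ∈ U, ∀ q ∈ U, reP (f p) = reP (f q) → (∀ j, ∃ k : ℤ, (f p j).im - (f q j).im = k) → p = q

def Pos (n : ℕ) : Set (E n) := {p | ∀ j, 0 < (p j).re}

def Strip (n : ℕ) : Set (E n) := {p | ∀ j, 0 < (p j).re ∧ (p j).re < 1 ∧ 0 < (p j).im}

/-- Action (real part) and angle (imaginary part) to the plane. -/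
def polar (p : E n) : E n := fun j =>
  (Real.sqrt ((p j).re / Real.pi) : ℂ) * Complex.exp (2 * Real.pi * Complex.I * ((p j).im : ℂ))

/-- In coordinate `j`, over the earlier coordinates `x`, area `s` sits in `[a j x s, a j x s + s]`. -/
structure Valley (a : Fin n → (Fin n → ℝ) → ℝ → ℝ) : Prop where
  cont : ∀ j, Continuous fun p : (Fin n → ℝ) × ℝ => a j p.1 p.2
  dep : ∀ j x y, (∀ l, l < j → x l = y l) → a j x = a j y
  anti : ∀ j x, Antitone (a j x)
  mono : ∀ j x, Monotone fun s => a j x s + s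
  bdd : ∃ M, ∀ j x s, |a j x s| ≤ M

/-- The distorted simplex of size `ρ`, thickened by `ε`. -/
def Kset (ρ ε : ℝ) (a : Fin n → (Fin n → ℝ) → ℝ → ℝ) : Set (Fin n → ℝ) :=
  {x | ∃ η : Fin n → ℝ, (∀ j, 0 ≤ η j) ∧ ∑ j, η j ≤ ρ + ε ∧
    ∀ j, a j x (η j) - ε ≤ x j ∧ x j ≤ a j x (η j) + η j + ε}

/-- A linear map with integer matrix. -/
def Intg (L : (Fin n → ℝ) →ₗ[ℝ] (Fin n → ℝ)) : Prop := ∀ j k, ∃ z : ℤ, L (Pi.single j 1) k = z

end

end Vale.Agent.P209
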