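import Vale.Agent.P209.GDefs

/-! Cyclic charts and cells.

Let `g k = ∑ j < k, (y - c) (ix n j)`; it has period `n + 1` when the totals agree (`sum_ix`), and
`cs y m l - cs c m l = g (m + 1 + l) - g (m + 1)`. `cell_disjoint`: for `m < m'` one gets `g (m' + 1) < g (m + 1)` and
`g (m + 1 + (n + 1)) < g (m' + 1)`. `cover`: take `m` that maximises `g (m + 1)`.
`cyc_chart`: put `δ x j = pv x (j + 1) - pv x j` for `j : Fin (n + 1)` (note `pv x (n + 1) = 0`, so `∑ δ = 0`) and
`L x k = δ x (k.succ - (m + 1))`, the difference taken mod `n + 1`; the inverse is `N y l = cs (bary 0 y) m (l + 1)`.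
Both matrices are integral and `N ∘ L = id`, so the determinant is a unit of `ℤ`. `b k = T - n ε` if `k.succ = m`,
else `ε`. `chart_cell`: telescoping gives `cs (bary ..) m l = pv x l + l ε`; index `m` carries `1 - cs .. n`. -/

namespace Vale.Agent.P209

open Finset

variable {n : ℕ}

theorem cyc_ix_add (k : ℕ) : ix n (k + (n + 1)) = ix n k := Fin.ext (Nat.add_mod_right _ _)

theorem cyc_ix_val (m : Fin (n + 1)) : ix n m = m := Fin.ext (Nat.mod_eq_of_lt m.2)

theorem cyc_left (m : Fin (n + 1)) {l : ℕ} (hl : l ≤ n) :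
    ((ix n (m + 1 + l) : ℕ) + (n - m)) % (n + 1) = l := by
  have := m.2
  change ((m + 1 + l) % (n + 1) + (n - m)) % (n + 1) = l
  rw [Nat.mod_add_mod, show m + 1 + l + (n - m) = l + (n + 1) by omega, Nat.add_mod_right,
    Nat.mod_eq_of_lt (by omega)]

theorem cyc_right (m i : Fin (n + 1)) : ix n (m + 1 + (i + (n - m)) % (n + 1)) = i := by
  have := m.2
  refine Fin.ext ?_
  change (m + 1 + (i + (n - m)) % (n + 1)) % (n + 1) = i
  rw [Nat.add_mod_mod, show m + 1 + (i + (n - m)) = i + (n + 1) by omega, Nat.add_mod_right,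
    Nat.mod_eq_of_lt i.2]

theorem cyc_ne (m : Fin (n + 1)) {l : ℕ} (hl : l < n) : ix n (m + 1 + l) ≠ m := by
  intro h
  have h1 := cyc_left m hl.le
  have h2 := m.2
  rw [h, show m + (n - m) = n by omega, Nat.mod_eq_of_lt (by omega)] at h1
  omega

theorem sum_ix (c : Fin (n + 1) → ℝ) (k : ℕ) : ∑ j ∈ range (n + 1), c (ix n (k + j)) = ∑ j, c j := by
  induction k with
  | zero =>
    rw [sum_range]
    exact sum_congr rfl fun j _ => by rw [zero_add, cyc_ix_val]
  | succ k ih =>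
    rw [← ih, sum_range_succ, sum_range_succ' _ n, add_zero, show k + 1 + n = k + (n + 1) by omega,
      cyc_ix_add]
    congr 1
    exact sum_congr rfl fun j _ => by rw [show k + 1 + j = k + (j + 1) by omega]

theorem cyc_sum_bary (T : ℝ) (y : Fin n → ℝ) : ∑ j, bary T y j = T := by
  rw [Fin.sum_univ_succ]
  simp [bary]

theorem cyc_bary_tail {T : ℝ} {β : Fin (n + 1) → ℝ} (h : ∑ j, β j = T) :
    bary T (fun k => β k.succ) = β := by
  funext i
  refine Fin.cases ?_ (fun k => rfl) i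
  rw [Fin.sum_univ_succ] at h
  change T - ∑ k : Fin n, β k.succ = β 0
  linarith

theorem cyc_bary_add (S T : ℝ) (x y : Fin n → ℝ) (i : Fin (n + 1)) :
    bary (S + T) (x + y) i = bary S x i + bary T y i := by
  refine Fin.cases ?_ (fun k => rfl) i
  simp only [bary, Fin.cons_zero, Pi.add_apply, sum_add_distrib]
  ring

theorem cyc_bary_smul (a : ℝ) (y : Fin n → ℝ) (i : Fin (n + 1)) :
    bary 0 (a • y) i = a * bary 0 y i := by
  refine Fin.cases ?_ (fun k => rfl) i
  simp only [bary, Fin.cons_zero, Pi.smul_apply, smul_eq_mul, ← mul_sum]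
  ring

theorem cyc_bary_cont (T : ℝ) (i : Fin (n + 1)) : Continuous fun y : Fin n → ℝ => bary T y i := by
  refine Fin.cases ?_ (fun k => continuous_apply k) i
  simp only [bary, Fin.cons_zero]
  fun_prop

/-- Cumulative sums from the start. -/
noncomputable def cycG (d : Fin (n + 1) → ℝ) (k : ℕ) : ℝ := ∑ j ∈ range k, d (ix n j)

theorem cyc_cs (y c : Fin (n + 1) → ℝ) (m : Fin (n + 1)) (l : ℕ) :
    cs y m l - cs c m l = cycG (y - c) (m + 1 + l) - cycG (y - c) (m + 1) := by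
  unfold cycG cs
  rw [sum_range_add _ (m + 1) l, add_sub_cancel_left, ← sum_sub_distrib]
  rfl

theorem cyc_per {y c : Fin (n + 1) → ℝ} (h : ∑ j, y j = ∑ j, c j) (k : ℕ) :
    cycG (y - c) (k + (n + 1)) = cycG (y - c) k := by
  unfold cycG
  rw [sum_range_add _ k (n + 1), sum_ix]
  simp only [Pi.sub_apply, sum_sub_distrib, h, sub_self, add_zero]

theorem isOpen_cell (c : Fin (n + 1) → ℝ) (m : Fin (n + 1)) : IsOpen (Cell c m) := by
  have e : Cell c m = ((⋂ k, {y : Fin n → ℝ | 0 < y k}) ∩ {y | ∑ k, y k < 1}) ∩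
      ⋂ l ∈ Icc 1 n, {y | cs (bary 1 y) m l < cs c m l} := by
    ext y
    simp only [Cell, Set.mem_inter_iff, Set.mem_iInter, Set.mem_ofPred_eq, mem_Icc, and_imp,
      and_assoc]
  rw [e]
  refine ((isOpen_iInter_of_finite fun k => isOpen_lt continuous_const (continuous_apply k)).inter
    (isOpen_lt (by fun_prop) continuous_const)).inter
    (isOpen_biInter_finset fun l _ => isOpen_lt ?_ continuous_const)
  exact continuous_finsetSum _ fun j _ => cyc_bary_cont 1 _

theorem cell_disjoint {c : Fin (n + 1) → ℝ} (hc : ∑ j, c j = 1) {m m' : Fin (n + 1)} (h : m ≠ m') :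
    Disjoint (Cell c m) (Cell c m') := by
  wlog hm : m < m' generalizing m m'
  · exact (this h.symm (lt_of_le_of_ne (not_lt.1 hm) h.symm)).symm
  refine Set.disjoint_left.2 fun y h1 h2 => ?_
  have a0 : (m : ℕ) < m' := hm
  have a1 := m'.2
  have a2 := h1.2.2 (m' - m) (by omega) (by omega)
  have a3 := h2.2.2 (m + (n + 1) - m') (by omega) (by omega)
  have a4 := cyc_cs (bary 1 y) c m (m' - m)
  have a5 := cyc_cs (bary 1 y) c m' (m + (n + 1) - m')
  rw [show (m : ℕ) + 1 + (m' - m) = m' + 1 by omega] at a4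
  rw [show (m' : ℕ) + 1 + (m + (n + 1) - m') = m + 1 + (n + 1) by omega,
    cyc_per ((cyc_sum_bary 1 y).trans hc.symm)] at a5
  linarith

theorem cover {c y : Fin (n + 1) → ℝ} (h : ∑ j, y j = ∑ j, c j) :
    ∃ m, ∀ l, l ≤ n → cs y m l ≤ cs c m l := by
  obtain ⟨m, hm⟩ := Finite.exists_max fun m : Fin (n + 1) => cycG (y - c) (m + 1)
  refine ⟨m, fun l hl => sub_nonpos.1 ?_⟩
  rw [cyc_cs, sub_nonpos]
  have a1 := m.2
  by_cases a2 : m + l < n + 1
  · rw [show (m : ℕ) + 1 + l = m + l + 1 by omega]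
    exact hm ⟨m + l, a2⟩
  · rw [show (m : ℕ) + 1 + l = m + l - (n + 1) + 1 + (n + 1) by omega, cyc_per h]
    exact hm ⟨m + l - (n + 1), by omega⟩

theorem cyc_pv_zero (x : Fin n → ℝ) : pv x 0 = 0 := by simp [pv]

theorem cyc_pv_last (x : Fin n → ℝ) : pv x (n + 1) = 0 := by simp [pv]

theorem cyc_pv_succ (x : Fin n → ℝ) (l : Fin n) : pv x (l + 1) = x l := by
  have := l.2
  rw [pv, dif_pos ⟨by omega, by omega⟩]
  rfl

theorem cyc_pv_add (x y : Fin n → ℝ) (l : ℕ) : pv (x + y) l = pv x l + pv y l := by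
  unfold pv
  split_ifs <;> simp

theorem cyc_pv_smul (a : ℝ) (x : Fin n → ℝ) (l : ℕ) : pv (a • x) l = a * pv x l := by
  unfold pv
  split_ifs <;> simp

theorem cyc_single (j k : Fin n) : ∃ z : ℤ, (Pi.single j 1 : Fin n → ℝ) k = z := by
  by_cases h : k = j
  · exact ⟨1, by simp [h]⟩
  · exact ⟨0, by simp [h]⟩

theorem cyc_pv_int (j : Fin n) (l : ℕ) : ∃ z : ℤ, pv (Pi.single j 1 : Fin n → ℝ) l = z := by
  unfold pv
  split_ifs
  · exact cyc_single _ _
  · exact ⟨0, by simp⟩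

theorem cyc_bary_int (j : Fin n) (i : Fin (n + 1)) :
    ∃ z : ℤ, bary 0 (Pi.single j 1 : Fin n → ℝ) i = z := by
  refine Fin.cases ⟨-1, ?_⟩ (fun k => cyc_single j k) i
  simp [bary]

theorem cyc_det_int {L : (Fin n → ℝ) →ₗ[ℝ] (Fin n → ℝ)} (h : Intg L) :
    ∃ z : ℤ, LinearMap.det L = z := by
  choose A hA using h
  refine ⟨(Matrix.of fun k j => A j k).det, ?_⟩
  rw [← LinearMap.det_toMatrix', Int.cast_det]
  congr 1
  ext k j
  rw [LinearMap.toMatrix'_apply, hA]
  rfl

/-- The chart. -/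
noncomputable def cycL (m : Fin (n + 1)) : (Fin n → ℝ) →ₗ[ℝ] (Fin n → ℝ) where
  toFun x k := pv x (((k.succ : ℕ) + (n - m)) % (n + 1) + 1) - pv x (((k.succ : ℕ) + (n - m)) % (n + 1))
  map_add' x y := by
    funext k
    simp only [cyc_pv_add, Pi.add_apply]
    ring
  map_smul' a x := by
    funext k
    simp only [cyc_pv_smul, Pi.smul_apply, smul_eq_mul, RingHom.id_apply]
    ring

/-- Its inverse. -/
noncomputable def cycN (m : Fin (n + 1)) : (Fin n → ℝ) →ₗ[ℝ] (Fin n → ℝ) where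
  toFun y l := cs (bary 0 y) m (l + 1)
  map_add' x y := by
    funext l
    have h := cyc_bary_add 0 0 x y
    rw [add_zero] at h
    simp only [cs, h, Pi.add_apply, sum_add_distrib]
  map_smul' a x := by
    funext l
    simp only [cs, cyc_bary_smul, Pi.smul_apply, smul_eq_mul, RingHom.id_apply, mul_sum]

theorem cyc_bary_L (m : Fin (n + 1)) (x : Fin n → ℝ) {l : ℕ} (hl : l ≤ n) :
    bary 0 (cycL m x) (ix n (m + 1 + l)) = pv x (l + 1) - pv x l := by
  have h1 : ∑ i : Fin (n + 1), (pv x (((i : ℕ) + (n - m)) % (n + 1) + 1) -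
      pv x (((i : ℕ) + (n - m)) % (n + 1))) = 0 := by
    rw [← sum_ix _ (m + 1), sum_congr rfl fun j hj => by
      rw [cyc_left m (Nat.lt_succ_iff.1 (mem_range.1 hj))], sum_range_sub, cyc_pv_last, cyc_pv_zero,
      sub_zero]
  have h2 := congrFun (cyc_bary_tail h1) (ix n (m + 1 + l))
  rw [cyc_left m hl] at h2
  exact h2

theorem cyc_NL (m : Fin (n + 1)) : cycN m ∘ₗ cycL m = LinearMap.id := by
  refine LinearMap.ext fun x => funext fun l => ?_
  have := l.2
  change ∑ j ∈ range (l + 1), bary 0 (cycL m x) (ix n (m + 1 + j)) = x l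
  rw [sum_congr rfl fun j hj => cyc_bary_L m x (by have := mem_range.1 hj; omega), sum_range_sub,
    cyc_pv_zero, sub_zero, cyc_pv_succ]

theorem cyc_chart (m : Fin (n + 1)) : ∃ L : (Fin n → ℝ) →ₗ[ℝ] (Fin n → ℝ), Function.Bijective L ∧
    Intg L ∧ |LinearMap.det L| = 1 ∧ ∀ T ε : ℝ, ∃ b : Fin n → ℝ, ∀ x, ∀ l, l < n →
      bary T (L x + b) (ix n (m + 1 + l)) = pv x (l + 1) - pv x l + ε := by
  have h1 : Function.Injective (cycL m) :=
    Function.LeftInverse.injective (g := cycN m) fun x => LinearMap.congr_fun (cyc_NL m) x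
  have h2 : Intg (cycL m) := fun j k => by
    obtain ⟨z, hz⟩ := cyc_pv_int j (((k.succ : ℕ) + (n - m)) % (n + 1) + 1)
    obtain ⟨w, hw⟩ := cyc_pv_int j (((k.succ : ℕ) + (n - m)) % (n + 1))
    exact ⟨z - w, by rw [Int.cast_sub, ← hz, ← hw]; rfl⟩
  have h3 : Intg (cycN m) := fun j k => by
    choose z hz using cyc_bary_int j
    refine ⟨∑ i ∈ range (k + 1), z (ix n (m + 1 + i)), ?_⟩
    rw [Int.cast_sum]
    simp only [← hz]
    rfl
  refine ⟨cycL m, ⟨h1, LinearMap.injective_iff_surjective.1 h1⟩, h2, ?_, fun T ε => ?_⟩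
  · obtain ⟨z, hz⟩ := cyc_det_int h2
    obtain ⟨w, hw⟩ := cyc_det_int h3
    have h4 := congrArg LinearMap.det (cyc_NL m)
    rw [LinearMap.det_comp, LinearMap.det_id, hz, hw] at h4
    have h5 : w * z = 1 := by exact_mod_cast h4
    rw [hz]
    rcases Int.eq_one_or_neg_one_of_mul_eq_one' h5 with h | h <;> simp [h.2]
  · have h4 : ∑ i : Fin (n + 1), (ε + if i = m then T - (n + 1) * ε else 0) = T := by
      simp [sum_add_distrib]
    refine ⟨fun k => ε + if k.succ = m then T - (n + 1) * ε else 0, fun x l hl => ?_⟩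
    have h5 := congrFun (cyc_bary_tail h4) (ix n (m + 1 + l))
    rw [if_neg (cyc_ne m hl), add_zero] at h5
    have h6 := cyc_bary_add 0 T (cycL m x)
      (fun k => ε + if k.succ = m then T - (n + 1) * ε else 0) (ix n (m + 1 + l))
    rw [zero_add, h5, cyc_bary_L m x hl.le] at h6
    exact h6

theorem chart_cell {c : Fin (n + 1) → ℝ} {ε : ℝ} (hε : 0 < ε) (h0 : ∀ j, 0 ≤ c j)
    (hc : ∑ j, (c j + 2 * ε) = 1) (m : Fin (n + 1)) {x y : Fin n → ℝ} (hx : x ∈ PS n (cs c m))
    (hy : ∀ l, l < n → bary 1 y (ix n (m + 1 + l)) = pv x (l + 1) - pv x l + ε) :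
    y ∈ Cell (fun j => c j + 2 * ε) m := by
  have a1 : ∀ l, l ≤ n → cs (bary 1 y) m l = pv x l + l * ε := fun l hl => by
    unfold cs
    rw [sum_congr rfl fun j hj => hy j (by have := mem_range.1 hj; omega), sum_add_distrib,
      sum_range_sub, cyc_pv_zero, sub_zero, sum_const, card_range, nsmul_eq_mul]
  have a2 : ∀ l, cs (fun j => c j + 2 * ε) m l = cs c m l + l * (2 * ε) := fun l => by
    unfold cs
    rw [sum_add_distrib, sum_const, card_range, nsmul_eq_mul]
  have a3 : ∀ l, l ≤ n → pv x l ≤ cs c m l := fun l hl => by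
    rcases l with _ | l
    · simp [cyc_pv_zero, cs]
    · exact (cyc_pv_succ x ⟨l, hl⟩).trans_le (hx ⟨l, hl⟩).2
  have a4 : ∀ l, l ≤ n → 0 < bary 1 y (ix n (m + 1 + l)) := fun l hl => by
    rcases hl.lt_or_eq with hl | rfl
    · have b1 : pv x l ≤ pv x (l + 1) := (hx ⟨l, hl⟩).1.trans_eq (cyc_pv_succ x ⟨l, hl⟩).symm
      rw [hy l hl]
      linarith
    · have b1 := (sum_ix (bary 1 y) (m + 1)).trans (cyc_sum_bary 1 y)
      have b2 := (sum_ix (fun j => c j + 2 * ε) (m + 1)).trans hc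
      rw [sum_range_succ] at b1 b2
      have b3 := a1 l le_rfl
      have b4 := a2 l
      have b5 := a3 l le_rfl
      have b6 := h0 (ix l (m + 1 + l))
      have b7 : 0 ≤ (l : ℝ) * ε := by positivity
      unfold cs at b3 b4 b5
      linarith
  have a5 : ∀ i, 0 < bary 1 y i := fun i => by
    have := a4 _ (Nat.lt_succ_iff.1 (Nat.mod_lt ((i : ℕ) + (n - m)) (Nat.succ_pos n)))
    rwa [cyc_right] at this
  refine ⟨fun k => a5 k.succ, sub_pos.1 (a5 0), fun l h1 hl => ?_⟩
  have b1 : 0 < (l : ℝ) * ε := mul_pos (by exact_mod_cast h1) hε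
  rw [a1 l hl, a2]
  linarith [a3 l hl]

end Vale.Agent.P209
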