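import Mathlib

/-! Symplectic ball packings: the definitions used in the statement. -/

namespace Vale.Agent.P209

open scoped ContDiff

noncomputable section

/-- The space `ℂ ^ n`. -/
abbrev E (n : ℕ) : Type := Fin n → ℂ

/-- The standard symplectic form `∑ dx_j ∧ dy_j`, where `z_j = x_j + i y_j`. -/
def omega {n : ℕ} (v w : E n) : ℝ := ∑ j, ((v j).re * (w j).im - (v j).im * (w j).re)

/-- The closed ball of capacity `R`. -/
def ball (n : ℕ) (R : ℝ) : Set (E n) := {z | Real.pi * ∑ j, ‖z j‖ ^ 2 ≤ R}

/-- `f` is a smooth embedding of the open set `U` that pulls `omega` back to `omega`. -/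
structure IsSympEmb {n : ℕ} (U : Set (E n)) (f : E n → E n) : Prop where
  isOpen : IsOpen U
  smooth : ContDiffOn ℝ ∞ f U
  emb : Topology.IsEmbedding fun z : U => f z
  symp : ∀ z ∈ U, ∀ v w, omega (fderiv ℝ f z v) (fderiv ℝ f z w) = omega v w

/-- The closed balls of capacities `r i` embed symplectically, with pairwise disjoint images, in the
interior of the ball of capacity `R`. Each embedding is defined on an open neighbourhood of its ball. -/
def Packs (n : ℕ) {ι : Type} (r : ι → ℝ) (R : ℝ) : Prop :=
  ∃ (U : ι → Set (E n)) (f : ι → E n → E n),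
    (∀ i, ball n (r i) ⊆ U i ∧ IsSympEmb (U i) (f i) ∧ f i '' ball n (r i) ⊆ interior (ball n R)) ∧
    Pairwise fun i j => Disjoint (f i '' ball n (r i)) (f j '' ball n (r j))

end

end Vale.Agent.P209
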