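import Vale.Agent.P209.Tent

/-! The mass of a tent.

`mass_of_levels`: layer cake (`MeasureTheory.Integrable.integral_eq_integral_meas_lt` for the measure
restricted to `[A, T]`, or `lintegral_rpow_eq_lintegral_meas_lt_mul` for the `d`-th root of `H`): for
`0 ≤ u < ρ` the set `{t ∈ [A, T] | u ^ d < H t}` lies in the interval of `s = ρ - u` and contains the
intervals of all `s' < s`, so it has measure `ρ - u`; `∫ d u ^ (d - 1) (ρ - u) du = ρ ^ (d + 1) / (d + 1)`.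
`tH_int_eq`: apply it with `a = tA`. `tH_int_le`: compare with a larger `T` (take `T' = max T (tA 0 + r)`,
`0 ≤ tH`). `tH_rest`: if `W t < ρ ^ d` then `tD t = ρ ^ d` and `ρ ^ (d + 1) / (d + 1) ≤ r ρ ^ d`; otherwise
the total mass is `∫ A..t+r`, and `tH ≤ tD ≤ tD t` on `[t, t + r]`. -/

namespace Vale.Agent.P209

open Set

variable {d : ℕ} {r A ρ t T : ℝ} {W : ℝ → ℝ}

theorem Mass_level (hd : 1 ≤ d) {a H : ℝ → ℝ} (hH : Continuous H)
    (hin : ∀ s ∈ Icc 0 ρ, A ≤ a s ∧ a s + s ≤ T)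
    (star : ∀ s ∈ Icc 0 ρ, ∀ t, a s ≤ t → t ≤ a s + s → (ρ - s) ^ d ≤ H t)
    (costar : ∀ s ∈ Icc 0 ρ, ∀ t ∈ Icc A T, (ρ - s) ^ d < H t → a s ≤ t ∧ t ≤ a s + s)
    {s : ℝ} (hs : s ∈ Icc 0 ρ) :
    (MeasureTheory.volume.restrict (Icc A T)).real {t | (ρ - s) ^ d < H t} = s := by
  have hm : MeasurableSet {t | (ρ - s) ^ d < H t} :=
    (isOpen_lt continuous_const hH).measurableSet
  rw [MeasureTheory.measureReal_restrict_apply hm]
  have hfin : MeasureTheory.volume ({t | (ρ - s) ^ d < H t} ∩ Icc A T) ≠ ⊤ :=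
    ne_top_of_le_ne_top (by simp) (MeasureTheory.measure_mono inter_subset_right)
  apply le_antisymm
  · have h1 : {t | (ρ - s) ^ d < H t} ∩ Icc A T ⊆ Icc (a s) (a s + s) := fun t ht =>
      costar s hs t ht.2 ht.1
    have h2 := MeasureTheory.measureReal_mono h1 (μ := MeasureTheory.volume) (by simp)
    rw [Real.volume_real_Icc_of_le (by linarith [hs.1])] at h2
    linarith
  · refine le_of_forall_lt_imp_le_of_dense fun s' hs' => ?_
    rcases le_or_gt s' 0 with h | h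
    · exact h.trans MeasureTheory.measureReal_nonneg
    have hs'' : s' ∈ Icc 0 ρ := ⟨h.le, hs'.le.trans hs.2⟩
    have h1 : Icc (a s') (a s' + s') ⊆ {t | (ρ - s) ^ d < H t} ∩ Icc A T := by
      intro t ht
      refine ⟨?_, (hin s' hs'').1.trans ht.1, ht.2.trans (hin s' hs'').2⟩
      refine lt_of_lt_of_le ?_ (star s' hs'' t ht.1 ht.2)
      exact pow_lt_pow_left₀ (by linarith) (by linarith [hs.2]) (by omega)
    have h2 := MeasureTheory.measureReal_mono h1 (μ := MeasureTheory.volume) hfin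
    rw [Real.volume_real_Icc_of_le (by linarith)] at h2
    linarith

theorem Mass_root (hd : 1 ≤ d) (hρ : 0 ≤ ρ) :
    ∫ v in (0 : ℝ)..ρ ^ d, (ρ - v ^ ((d : ℝ)⁻¹)) = ρ ^ (d + 1) / (d + 1) := by
  have hd0 : (0 : ℝ) < d := by exact_mod_cast hd
  have hi : (0 : ℝ) < (d : ℝ)⁻¹ := inv_pos.2 hd0
  rw [intervalIntegral.integral_sub (by simp)
    (intervalIntegral.intervalIntegrable_rpow' (by linarith)), intervalIntegral.integral_const,
    integral_rpow (Or.inl (by linarith)), Real.zero_rpow (by linarith),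
    Real.rpow_add' (by positivity) (by linarith), Real.pow_rpow_inv_natCast hρ (by omega),
    Real.rpow_one, smul_eq_mul]
  field_simp
  ring

theorem mass_of_levels (hd : 1 ≤ d) (hρ : 0 ≤ ρ) {a H : ℝ → ℝ} (hH : Continuous H)
    (h0 : ∀ t ∈ Icc A T, 0 ≤ H t) (h1 : ∀ t ∈ Icc A T, H t ≤ ρ ^ d)
    (hin : ∀ s ∈ Icc 0 ρ, A ≤ a s ∧ a s + s ≤ T)
    (star : ∀ s ∈ Icc 0 ρ, ∀ t, a s ≤ t → t ≤ a s + s → (ρ - s) ^ d ≤ H t)
    (costar : ∀ s ∈ Icc 0 ρ, ∀ t ∈ Icc A T, (ρ - s) ^ d < H t → a s ≤ t ∧ t ≤ a s + s) :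
    ∫ t in A..T, H t = ρ ^ (d + 1) / (d + 1) := by
  have hAT : A ≤ T := by
    have := hin 0 ⟨le_rfl, hρ⟩
    linarith [this.1, this.2]
  have hd0 : d ≠ 0 := by omega
  rw [intervalIntegral.integral_of_le hAT, ← MeasureTheory.integral_Icc_eq_integral_Ioc,
    MeasureTheory.Integrable.integral_eq_integral_meas_lt (hH.integrableOn_Icc)
      (MeasureTheory.ae_restrict_of_forall_mem measurableSet_Icc h0), ← Mass_root hd hρ,
    intervalIntegral.integral_of_le (by positivity)]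
  have hI : Ioi (0 : ℝ) ∩ Ioc 0 (ρ ^ d) = Ioc 0 (ρ ^ d) := inter_eq_right.2 fun x hx => hx.1
  rw [← hI, ← MeasureTheory.setIntegral_indicator measurableSet_Ioc]
  refine MeasureTheory.setIntegral_congr_fun measurableSet_Ioi fun v hv => ?_
  have hv0 : 0 < v := hv
  by_cases hvρ : v ≤ ρ ^ d
  · rw [indicator_of_mem (show v ∈ Ioc 0 (ρ ^ d) from ⟨hv0, hvρ⟩)]
    have e1 : (v ^ ((d : ℝ)⁻¹)) ^ d = v := Real.rpow_inv_natCast_pow hv0.le hd0
    have e2 : 0 ≤ v ^ ((d : ℝ)⁻¹) := Real.rpow_nonneg hv0.le _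
    have e3 : v ^ ((d : ℝ)⁻¹) ≤ ρ := by
      rw [← pow_le_pow_iff_left₀ e2 hρ hd0, e1]
      exact hvρ
    have := Mass_level hd hH hin star costar (s := ρ - v ^ ((d : ℝ)⁻¹)) ⟨by linarith, by linarith⟩
    rw [sub_sub_cancel, e1] at this
    exact this
  · rw [indicator_of_notMem (fun h => hvρ h.2)]
    have hm : MeasurableSet {t | v < H t} := (isOpen_lt continuous_const hH).measurableSet
    have he : {t | v < H t} ∩ Icc A T = ∅ := by
      refine eq_empty_of_forall_notMem fun t ht => hvρ ?_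
      exact (le_of_lt ht.1).trans (h1 t ht.2)
    show (MeasureTheory.volume.restrict (Icc A T)).real {t | v < H t} = 0
    rw [MeasureTheory.measureReal_restrict_apply hm, he]
    simp

theorem TOk.tH_cont (h : TOk d r A ρ W) : Continuous (tH d A ρ W) :=
  (h.cont.max continuous_const).min h.tD_cont

theorem TOk.tH_mem (h : TOk d r A ρ W) (t : ℝ) : 0 ≤ tH d A ρ W t ∧ tH d A ρ W t ≤ tD d A ρ W t :=
  ⟨le_min (le_max_right _ _) (h.tD_mem t).1, min_le_right _ _⟩

theorem Mass_int (h : TOk d r A ρ W) (hT : ∀ s, tA d A ρ W s + r ≤ T) :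
    ∫ x in A..T, tH d A ρ W x = ρ ^ (d + 1) / (d + 1) :=
  mass_of_levels h.hd h.h0 (a := tA d A ρ W) h.tH_cont (fun t _ => (h.tH_mem t).1)
    (fun t _ => (h.tH_mem t).2.trans (h.tD_mem t).2)
    (fun s hs => ⟨h.tA_ge s, by linarith [hT s, hs.2, h.h1]⟩)
    (fun _ hs _ ha hb => h.tH_star hs.1 hs.2 ha hb)
    (fun _ hs _ ht hH => h.tH_costar hs.1 hs.2 ht.1 hH)

theorem TOk.tH_int_eq (h : TOk d r A ρ W) (ht : A ≤ t) (hW : ρ ^ d ≤ W t) (hT : t + r ≤ T) :
    ∫ x in A..T, tH d A ρ W x = ρ ^ (d + 1) / (d + 1) :=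
  Mass_int h fun s => by linarith [h.tA_le ht hW s]

theorem TOk.tH_int_le (h : TOk d r A ρ W) (hT : A ≤ T) :
    ∫ x in A..T, tH d A ρ W x ≤ ρ ^ (d + 1) / (d + 1) := by
  have hs : ∀ s, tA d A ρ W s ≤ tA d A ρ W 0 := by
    intro s
    rcases le_total 0 s with h0 | h0
    · exact (h.tA_lip h0).1
    · have h1 := (h.tA_lip h0).2
      have e1 : cl ρ s = 0 := max_eq_left ((min_le_left _ _).trans h0)
      have e2 : cl ρ 0 = 0 := max_eq_left (min_le_left _ _)
      rw [e1, e2] at h1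
      linarith
  rw [← Mass_int h (T := max T (tA d A ρ W 0 + r))
    (fun s => le_trans (by linarith [hs s]) (le_max_right _ _))]
  exact intervalIntegral.integral_mono_interval le_rfl hT (le_max_left _ _)
    (Filter.Eventually.of_forall fun x => (h.tH_mem x).1) (h.tH_cont.intervalIntegrable _ _)

theorem TOk.tH_rest (h : TOk d r A ρ W) (ht : A ≤ t) :
    ρ ^ (d + 1) / (d + 1) ≤ (∫ x in A..t, tH d A ρ W x) + r * tD d A ρ W t := by
  rcases lt_or_ge (W t) (ρ ^ d) with hW | hW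
  · rw [h.tD_full ht hW]
    have h1 : 0 ≤ ∫ x in A..t, tH d A ρ W x :=
      intervalIntegral.integral_nonneg ht fun x _ => (h.tH_mem x).1
    have h2 : 0 ≤ ρ ^ d := pow_nonneg h.h0 d
    have h3 : ρ ^ (d + 1) / (d + 1) ≤ ρ ^ (d + 1) :=
      div_le_self (pow_nonneg h.h0 _) (by linarith [(Nat.cast_nonneg d : (0 : ℝ) ≤ d)])
    have h4 : ρ ^ (d + 1) ≤ r * ρ ^ d := by
      rw [pow_succ']
      exact mul_le_mul_of_nonneg_right h.h1 h2
    linarith
  · rw [← h.tH_int_eq ht hW le_rfl, ← intervalIntegral.integral_add_adjacent_intervals (b := t)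
      (h.tH_cont.intervalIntegrable _ _) (h.tH_cont.intervalIntegrable _ _)]
    have h1 : ∫ x in t..t + r, tH d A ρ W x ≤ ∫ _ in t..t + r, tD d A ρ W t :=
      intervalIntegral.integral_mono_on (by linarith [h.hr]) (h.tH_cont.intervalIntegrable _ _)
        (by simp) fun x hx => (h.tH_mem x).2.trans (h.tD_lip hx.1).1
    rw [intervalIntegral.integral_const, add_sub_cancel_left, smul_eq_mul] at h1
    linarith

end Vale.Agent.P209
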