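import Vale.Agent.P209.Fifo
import Vale.Agent.P209.Mass

/-! Mass balance of the queue, and its tail on a plateau.

The first four statements are sums of the tent lemmas in `Mass.lean` (`intervalIntegral.integral_finset_sum`).
`plateau`: `fS (Ico m N) ≤ fS (range N)`. If all `fD i t`, `i < m`, vanish the two sums agree. Otherwise some
`i < m` has `fD i t ≠ 0`, so it is not peaked at `t - r` (`tD_zero`), nor at any `x ∈ [A, t - r]` (`Grow`); there
`fD i x = ρ i ^ d > fW i x`, so `fW k x ≤ fW (i + 1) x < 0` and `fH k x = 0` for `k ≥ m`. On `[t - r, t]`,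
`fP (Ico m N) ≤ fP (range N) ≤ C ≤ κ`. By `fP_rest`, `2 κ r ≤ κ r + r * fS (Ico m N) t`; both minima are `κ`.
`Cap.min`, `Cap.max`: `1 - Δ / r ≥ 0`. -/

namespace Vale.Agent.P209

open Finset

variable {d : ℕ} {r A t T κ β : ℝ} {C C' : ℝ → ℝ} {ρ : ℕ → ℝ} {N : ℕ}

theorem FOk.fP_cont (h : FOk d r A C ρ) (s : Finset ℕ) : Continuous (fP d A C ρ s) := by
  unfold fP
  exact continuous_finsetSum _ fun i _ => (h.tok i).tH_cont

theorem FOk.fP_int_le (h : FOk d r A C ρ) (s : Finset ℕ) (hT : A ≤ T) :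
    ∫ x in A..T, fP d A C ρ s x ≤ mass d ρ s := by
  unfold fP mass fH
  rw [intervalIntegral.integral_finsetSum fun i _ => (h.tok i).tH_cont.intervalIntegrable _ _]
  exact sum_le_sum fun i _ => (h.tok i).tH_int_le hT

theorem FOk.fP_rest (h : FOk d r A C ρ) (s : Finset ℕ) (ht : A ≤ t) :
    mass d ρ s ≤ (∫ x in A..t, fP d A C ρ s x) + r * fS d A C ρ s t := by
  unfold fP mass fS fH
  rw [intervalIntegral.integral_finsetSum fun i _ => (h.tok i).tH_cont.intervalIntegrable _ _,
    mul_sum, ← sum_add_distrib]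
  exact sum_le_sum fun i _ => (h.tok i).tH_rest ht

theorem FOk.fP_int_eq (h : FOk d r A C ρ) (ht : A ≤ t) (hS : fS d A C ρ (range N) t < C t)
    (hT : t + r ≤ T) : ∫ x in A..T, fP d A C ρ (range N) x = mass d ρ (range N) := by
  unfold fP mass fH
  rw [intervalIntegral.integral_finsetSum fun i _ => (h.tok i).tH_cont.intervalIntegrable _ _]
  exact sum_congr rfl fun i hi => (h.tok i).tH_int_eq ht (h.peaked ht hS (mem_range.1 hi)) hT

theorem FOk.plateau (h : FOk d r A C ρ) {m : ℕ} (hm : m ≤ N) (hβ : A ≤ β - r)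
    (hC : ∀ x, β - r ≤ x → C x ≤ κ) (hM : 2 * κ * r ≤ mass d ρ (Ico m N)) (ht : β ≤ t) :
    min κ (fS d A C ρ (range N) t) = min κ (fS d A C ρ (Ico m N) t) := by
  have e1 : fS d A C ρ (range N) t = fS d A C ρ (range m) t + fS d A C ρ (Ico m N) t :=
    (sum_range_add_sum_Ico _ hm).symm
  by_cases h0 : ∀ i < m, fD d A C ρ i t = 0
  · rw [e1, show fS d A C ρ (range m) t = 0 from sum_eq_zero fun i hi => h0 i (mem_range.1 hi),
      zero_add]
  push Not at h0
  obtain ⟨i, hi, h0⟩ := h0
  have hr := h.hr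
  have hA : A ≤ t - r := by linarith
  have z1 : ∀ x ∈ Set.uIcc A (t - r), fP d A C ρ (Ico m N) x = 0 := fun x hx => by
    rw [Set.uIcc_of_le hA] at hx
    have a1 : fW d A C ρ i x < ρ i ^ d :=
      not_le.1 fun a => h0 ((h.tok i).tD_zero hx.1 a (by linarith [hx.2]))
    have a2 : fW d A C ρ (i + 1) x < 0 := by
      have a3 := (h.tok i).tD_full hx.1 a1
      change fW d A C ρ i x - tD d A (ρ i) (fW d A C ρ i) x < 0
      linarith
    refine sum_eq_zero fun k hk => ?_
    have a4 : fW d A C ρ k x ≤ fW d A C ρ (i + 1) x := by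
      rw [fW_eq, fW_eq]
      refine sub_le_sub_left (sum_le_sum_of_subset_of_nonneg (range_subset_range.2 ?_)
        fun j _ _ => ((h.tok j).tD_mem x).1) _
      have := (mem_Ico.1 hk).1
      omega
    change min (max (fW d A C ρ k x) 0) (tD d A (ρ k) (fW d A C ρ k) x) = 0
    rw [max_eq_right (by linarith)]
    exact min_eq_left ((h.tok k).tD_mem x).1
  have z2 : ∀ x ∈ Set.Icc (t - r) t, fP d A C ρ (Ico m N) x ≤ κ := fun x hx => by
    have a1 : fP d A C ρ (Ico m N) x ≤ fP d A C ρ (range N) x :=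
      sum_le_sum_of_subset_of_nonneg (fun j hj => mem_range.2 (mem_Ico.1 hj).2)
        fun j _ _ => ((h.tok j).tH_mem x).1
    rw [h.fP_eq N (by linarith [hx.1])] at a1
    exact a1.trans ((min_le_left _ _).trans (hC x (by linarith [hx.1])))
  have hc := h.fP_cont (Ico m N)
  have z3 : ∫ x in A..t, fP d A C ρ (Ico m N) x ≤ κ * r := by
    rw [← intervalIntegral.integral_add_adjacent_intervals (hc.intervalIntegrable A (t - r))
      (hc.intervalIntegrable (t - r) t), intervalIntegral.integral_congr (g := fun _ => 0) z1,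
      intervalIntegral.integral_zero, zero_add]
    have a1 := intervalIntegral.integral_mono_on (μ := MeasureTheory.volume) (by linarith : t - r ≤ t)
      (hc.intervalIntegrable _ _) (continuous_const.intervalIntegrable _ _) z2
    rw [intervalIntegral.integral_const, smul_eq_mul] at a1
    linarith
  have z4 := h.fP_rest (Ico m N) (by linarith : A ≤ t)
  have z5 : κ ≤ fS d A C ρ (Ico m N) t := le_of_mul_le_mul_left (by linarith) hr
  rw [min_eq_left z5, min_eq_left (by linarith [h.fS_nonneg (range m) t])]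

theorem Cap.min (hr : 0 < r) (h : Cap d r A C) (h' : Cap d r A C') :
    Cap d r A fun t => min (C t) (C' t) := by
  refine ⟨h.cont.min h'.cont, fun t ht => le_min (h.nonneg t ht) (h'.nonneg t ht),
    fun t Δ ht h0 h1 => ?_⟩
  have a : 0 ≤ 1 - Δ / r := sub_nonneg.2 ((div_le_one hr).2 h1)
  have a1 := mul_le_mul_of_nonneg_right (min_le_left (C t) (C' t)) a
  have a2 := mul_le_mul_of_nonneg_right (min_le_right (C t) (C' t)) a
  exact le_min (by linarith [h.slow t Δ ht h0 h1]) (by linarith [h'.slow t Δ ht h0 h1])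

theorem Cap.max (hr : 0 < r) (h : Cap d r A C) (h' : Cap d r A C') :
    Cap d r A fun t => max (C t) (C' t) := by
  refine ⟨h.cont.max h'.cont, fun t ht => le_max_of_le_left (h.nonneg t ht),
    fun t Δ ht h0 h1 => ?_⟩
  rcases le_total (C t) (C' t) with a | a
  · rw [max_eq_right a]
    exact le_max_of_le_right (h'.slow t Δ ht h0 h1)
  · rw [max_eq_left a]
    exact le_max_of_le_left (h.slow t Δ ht h0 h1)

/-- A large capacity that drops with bounded speed. -/
theorem cap_of_lip (hr : 0 < r) (hC : Continuous C) {c K : ℝ} (h0 : 0 ≤ c) (hc : ∀ t, A ≤ t → c ≤ C t)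
    (hK : ∀ t Δ, A ≤ t → 0 ≤ Δ → C t ≤ C (t + Δ) + K * Δ) (h : r * (K + nu d r) ≤ c) : Cap d r A C := by
  refine ⟨hC, fun t ht => h0.trans (hc t ht), fun t Δ ht h1 _ => ?_⟩
  have a1 : 0 ≤ Δ / r := div_nonneg h1 hr.le
  have a2 := mul_le_mul_of_nonneg_right (h.trans (hc t ht)) a1
  have a3 : r * (K + nu d r) * (Δ / r) = (K + nu d r) * Δ := by field_simp
  linarith [hK t Δ ht h1]

end Vale.Agent.P209
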