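import Vale.Agent.P209.LDefs
import Vale.Agent.P209.Run

/-! The ramp and the nominal capacities.

Let `m t = ∫ t..B V`, `m' = -V`, so `v0 (t' - t) ≤ m t - m t' ≤ v1 (t' - t)`. `geom`: `n5` and `bulk0` give
`Mm - μ ≥ 3 r v1`, `bulk1` gives `Mm / v0 ≤ c0 / 8`. `int_sig`: substitution
(`intervalIntegral.integral_comp_mul_deriv`), `∫ z..B V σ = ∫ 0..m z, ψ ((Mm - y) / μ) dy` with
`m z ≥ Mm`; split at `Mm - μ` and `Mm`. `cap_nom`: where the maximum is `κ` use `κ ≥ nu r`; where it is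
`V σ ≥ κ`: `V' σ' ≥ V σ - K Δ σ - (v1 ^ 2 / μ) Δ`, `K σ ≤ V σ / (4 r)` (`n1`), and `n2`. -/

namespace Vale.Agent.P209

open Finset

variable {c : Num} {q : Qs} {v : Var} {t t' : ℝ}

theorem E1_clamp (a : ℝ) {x y : ℝ} (h : x ≤ y) :
    max 0 (min a x) ≤ max 0 (min a y) ∧ max 0 (min a y) ≤ max 0 (min a x) + (y - x) := by
  refine ⟨max_le_max le_rfl (min_le_min le_rfl h), ?_⟩
  simp only [min_def, max_def]
  split_ifs <;> linarith

theorem E1_psi {a b : ℝ} (ha : a ≤ 0) (hb : 1 ≤ b) :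
    ∫ y in a..b, max 0 (min 1 y) = b - 1 / 2 := by
  have hc : Continuous fun y : ℝ => max 0 (min 1 y) := by fun_prop
  have h1 : ∫ y in a..0, max 0 (min 1 y) = 0 := by
    rw [intervalIntegral.integral_congr (g := fun _ => 0), intervalIntegral.integral_zero]
    intro y hy
    rw [Set.uIcc_of_le ha] at hy
    exact max_eq_left ((min_le_right _ _).trans hy.2)
  have h2 : ∫ y in (0 : ℝ)..1, max 0 (min 1 y) = 1 / 2 := by
    rw [intervalIntegral.integral_congr (g := fun y => y), integral_id]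
    · norm_num
    intro y hy
    rw [Set.uIcc_of_le zero_le_one] at hy
    exact (congrArg (max 0) (min_eq_right hy.2)).trans (max_eq_right hy.1)
  have h3 : ∫ y in (1 : ℝ)..b, max 0 (min 1 y) = b - 1 := by
    rw [intervalIntegral.integral_congr (g := fun _ => 1), intervalIntegral.integral_const,
      smul_eq_mul, mul_one]
    intro y hy
    rw [Set.uIcc_of_le hb] at hy
    exact (congrArg (max 0) (min_eq_left hy.1)).trans (max_eq_right zero_le_one)
  rw [← intervalIntegral.integral_add_adjacent_intervals (hc.intervalIntegrable a 0)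
    (hc.intervalIntegrable 0 b), ← intervalIntegral.integral_add_adjacent_intervals
    (hc.intervalIntegrable 0 1) (hc.intervalIntegrable 1 b), h1, h2, h3]
  ring

theorem Var.Ok.E1_m (h : v.Ok c q) (ht : t ≤ t') :
    c.v0 * (t' - t) ≤ (∫ x in t..v.B, v.V x) - ∫ x in t'..v.B, v.V x ∧
      (∫ x in t..v.B, v.V x) - ∫ x in t'..v.B, v.V x ≤ c.v1 * (t' - t) := by
  have h1 := intervalIntegral.integral_add_adjacent_intervals (μ := MeasureTheory.volume)
    (h.cont.intervalIntegrable t t') (h.cont.intervalIntegrable t' v.B)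
  have h2 := intervalIntegral.integral_mono_on (μ := MeasureTheory.volume) ht
    (continuous_const.intervalIntegrable _ _) (h.cont.intervalIntegrable _ _) fun x _ => h.V0 x
  have h3 := intervalIntegral.integral_mono_on (μ := MeasureTheory.volume) ht
    (h.cont.intervalIntegrable _ _) (continuous_const.intervalIntegrable _ _) fun x _ => h.V1 x
  rw [intervalIntegral.integral_const, smul_eq_mul] at h2 h3
  constructor <;> linarith

theorem Var.Ok.E1_der (h : v.Ok c q) (t : ℝ) :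
    HasDerivAt (fun t => (Mm c q v - ∫ x in t..v.B, v.V x) / c.μ) (v.V t / c.μ) t := by
  have h1 := (((h.cont.integral_hasStrictDerivAt v.B t).hasDerivAt).const_add
    (Mm c q v)).div_const c.μ
  refine h1.congr_of_eventuallyEq (Filter.Eventually.of_forall fun y => ?_)
  simp only [intervalIntegral.integral_symm v.B y, sub_neg_eq_add]

theorem E1_nu (h : c.Ok) : 0 < nu c.d c.r := by
  have := h.hr
  unfold nu
  positivity

theorem E1_cap (h : c.Ok) (A : ℝ) {W s : ℝ → ℝ} (hW : Continuous W) (hs : Continuous s)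
    (W0 : ∀ t, c.v0 ≤ W t) (W1 : ∀ t, W t ≤ c.v1)
    (Wl : ∀ t Δ, 0 ≤ Δ → W t ≤ W (t + Δ) + c.K * Δ) (s0 : ∀ t, 0 ≤ s t)
    (sl : ∀ t Δ, 0 ≤ Δ → s t ≤ s (t + Δ) + c.v1 / c.μ * Δ) :
    Cap c.d c.r A fun t => max c.κ (W t * s t) := by
  have hr := h.hr
  have hμ := h.hμ
  have hv0 := h.hv0
  have hnu := E1_nu h
  have hq : 0 ≤ c.v1 ^ 2 / c.μ := by positivity
  have n2 := h.n2
  have hκ : 0 ≤ c.κ := le_trans (by positivity) n2
  refine ⟨continuous_const.max (hW.mul hs), fun t _ => le_max_of_le_left hκ,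
    fun t Δ _ h0 _ => ?_⟩
  obtain ⟨δ, rfl⟩ : ∃ δ, Δ = δ * c.r := ⟨Δ / c.r, (div_mul_cancel₀ _ hr.ne').symm⟩
  have hδ : 0 ≤ δ := nonneg_of_mul_nonneg_left h0 hr
  rw [mul_div_cancel_right₀ _ hr.ne']
  have a1 := mul_le_mul_of_nonneg_left n2 hδ
  have a2 : 0 ≤ δ * (c.r * (c.v1 ^ 2 / c.μ)) := by positivity
  have a3 : 0 ≤ δ * (c.r * nu c.d c.r) := by positivity
  rcases le_total (W t * s t) c.κ with h1 | h1
  · rw [max_eq_left h1]
    refine le_max_of_le_left ?_
    linarith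
  · rw [max_eq_right h1]
    refine le_max_of_le_right ?_
    have hv1 : 0 ≤ c.v1 := hv0.le.trans ((W0 t).trans (W1 t))
    have b0 : 0 ≤ W (t + δ * c.r) := hv0.le.trans (W0 _)
    have b1 := mul_le_mul_of_nonneg_left (sl t _ h0) b0
    have b2 := mul_le_mul_of_nonneg_right (Wl t _ h0) (s0 t)
    have b3 := mul_le_mul_of_nonneg_right (W1 (t + δ * c.r))
      (show 0 ≤ c.v1 / c.μ * (δ * c.r) by positivity)
    have b4 := mul_le_mul_of_nonneg_right (h.n1.trans (by linarith [W0 t] : c.v0 / 4 ≤ W t / 4))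
      (mul_nonneg hδ (s0 t))
    have b5 := mul_le_mul_of_nonneg_left h1 hδ
    have b6 : c.v1 * (c.v1 / c.μ * (δ * c.r)) = δ * (c.r * (c.v1 ^ 2 / c.μ)) := by ring
    have b7 := mul_nonneg hδ hκ
    linarith

theorem Var.Ok.geom (h : v.Ok c q) : 0 < c.κ ∧ 0 < c.v1 ∧ 3 * c.r * c.v1 ≤ Mm c q v - c.μ ∧
    Mm c q v / c.v0 ≤ c.c0 / 8 ∧ v.A + c.r ≤ gam c q v ∧ gam c q v + c.r ≤ beta c v - c.r ∧
    v.A ≤ beta c v - c.r := by
  have hr := h.num.hr
  have hμ := h.num.hμ
  have hv0 := h.num.hv0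
  have hc0 := h.num.hc0
  have hnu := E1_nu h.num
  have hκ : 0 < c.κ := lt_of_lt_of_le (by positivity) h.num.n2
  have h01 : c.v0 ≤ c.v1 := (h.V0 0).trans (h.V1 0)
  have h1 : 3 * c.r * c.v1 ≤ Mm c q v - c.μ := by
    unfold Mm
    linarith [h.num.n5, h.bulk0]
  have h2 : Mm c q v / c.v0 ≤ c.c0 / 8 := by
    rw [div_le_iff₀ hv0]
    unfold Mm
    linarith [h.bulk1, mul_pos hκ hc0]
  have h3 : 3 * c.r ≤ Mm c q v / c.v0 := by
    rw [le_div_iff₀ hv0]
    linarith [mul_le_mul_of_nonneg_left h01 hr.le]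
  have h4 := h.len0
  have h5 := h.num.n6
  unfold gam beta
  refine ⟨hκ, hv0.trans_le h01, h1, h2, ?_, ?_, ?_⟩ <;> linarith

theorem Var.Ok.sig_cont (h : v.Ok c q) : Continuous (sig c q v) := by
  have h1 : Continuous fun t => (Mm c q v - ∫ x in t..v.B, v.V x) / c.μ :=
    continuous_iff_continuousAt.2 fun t => (h.E1_der t).continuousAt
  exact continuous_const.max (continuous_const.min h1)

theorem sig_mem (c : Num) (q : Qs) (v : Var) (t : ℝ) : 0 ≤ sig c q v t ∧ sig c q v t ≤ 1 := by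
  exact ⟨le_max_left _ _, max_le zero_le_one (min_le_left _ _)⟩

theorem Var.Ok.sig_lip (h : v.Ok c q) (ht : t ≤ t') :
    sig c q v t ≤ sig c q v t' ∧ sig c q v t' ≤ sig c q v t + c.v1 / c.μ * (t' - t) := by
  obtain ⟨h1, h2⟩ := h.E1_m ht
  have hμ := h.num.hμ
  have h3 := mul_nonneg h.num.hv0.le (sub_nonneg.2 ht)
  obtain ⟨h4, h5⟩ := E1_clamp 1 (x := (Mm c q v - ∫ x in t..v.B, v.V x) / c.μ)
    (y := (Mm c q v - ∫ x in t'..v.B, v.V x) / c.μ)
    (div_le_div_of_nonneg_right (by linarith) hμ.le)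
  refine ⟨h4, h5.trans (add_le_add le_rfl ?_)⟩
  rw [← sub_div, div_mul_eq_mul_div]
  exact div_le_div_of_nonneg_right (by linarith) hμ.le

theorem Var.Ok.sig_one (h : v.Ok c q) (ht : beta c v - c.r ≤ t) : sig c q v t = 1 := by
  refine le_antisymm (sig_mem c q v t).2 (le_trans (le_of_eq ?_) (h.sig_lip ht).1)
  have h1 := (h.E1_m (t := beta c v - c.r) (t' := v.B)
    (by unfold beta; linarith [h.num.hr])).2
  rw [intervalIntegral.integral_same] at h1
  have h2 := h.geom.2.2.1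
  have h3 : 1 ≤ (Mm c q v - ∫ x in (beta c v - c.r)..v.B, v.V x) / c.μ := by
    rw [le_div_iff₀ h.num.hμ]
    have h4 : v.B - (beta c v - c.r) = 3 * c.r := by unfold beta; ring
    rw [h4] at h1
    linarith
  unfold sig
  rw [min_eq_left h3, max_eq_right zero_le_one]

theorem Var.Ok.E1_neg (h : v.Ok c q) (ht : t ≤ gam c q v + c.r) :
    (Mm c q v - ∫ x in t..v.B, v.V x) / c.μ ≤ 0 := by
  obtain ⟨-, -, -, -, -, h1, -⟩ := h.geom
  have h2 := (h.E1_m (t := t) (t' := v.B) (by unfold beta at h1; linarith [h.num.hr])).1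
  rw [intervalIntegral.integral_same] at h2
  have h3 : Mm c q v / c.v0 ≤ v.B - t := by
    unfold gam at ht
    linarith
  rw [div_le_iff₀ h.num.hv0] at h3
  exact div_nonpos_of_nonpos_of_nonneg (by linarith) h.num.hμ.le

theorem Var.Ok.sig_zero (h : v.Ok c q) (ht : t ≤ gam c q v + c.r) : sig c q v t = 0 := by
  exact max_eq_left ((min_le_right _ _).trans (h.E1_neg ht))

theorem Var.Ok.int_sig (h : v.Ok c q) (ht : t ≤ gam c q v + c.r) :
    ∫ x in t..v.B, v.V x * sig c q v x = Mm c q v - c.μ / 2 := by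
  have hμ := h.num.hμ
  have h1 := intervalIntegral.integral_comp_mul_deriv (a := t) (b := v.B)
    (g := fun y : ℝ => max 0 (min 1 y)) (fun x _ => h.E1_der x)
    (h.cont.div_const c.μ).continuousOn (by fun_prop)
  have h2 : 1 ≤ (Mm c q v - ∫ x in v.B..v.B, v.V x) / c.μ := by
    obtain ⟨-, h3, h4, -⟩ := h.geom
    rw [intervalIntegral.integral_same, le_div_iff₀ hμ]
    linarith [mul_pos h.num.hr h3]
  rw [E1_psi (h.E1_neg ht) h2, intervalIntegral.integral_same] at h1
  have h3 : ∫ x in t..v.B, v.V x * sig c q v x = c.μ * ((Mm c q v - 0) / c.μ - 1 / 2) := by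
    rw [← h1, ← intervalIntegral.integral_const_mul]
    refine intervalIntegral.integral_congr fun x _ => ?_
    change v.V x * sig c q v x = c.μ * (sig c q v x * (v.V x / c.μ))
    field_simp
  rw [h3]
  field_simp
  ring

theorem Var.Ok.cap_nomL (h : v.Ok c q) : Cap c.d c.r v.A (nomL c q v) := by
  refine E1_cap h.num v.A (s := fun t => 1 - sig c q v t) h.cont
    (continuous_const.sub h.sig_cont) h.V0 h.V1 (fun t Δ h0 => ?_)
    (fun t => sub_nonneg.2 (sig_mem c q v t).2) fun t Δ h0 => ?_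
  · have h1 := (abs_le.1 (h.lip t (t + Δ))).2
    rw [sub_add_cancel_left, abs_neg, abs_of_nonneg h0] at h1
    linarith
  · have h1 := (h.sig_lip (le_add_of_nonneg_right h0 : t ≤ t + Δ)).2
    rw [add_sub_cancel_left] at h1
    linarith

theorem Var.Ok.cap_nomR (h : v.Ok c q) : Cap c.d c.r (-v.B) fun t => nomR c q v (-t) := by
  refine E1_cap h.num (-v.B) (W := fun t => v.V (-t)) (s := fun t => sig c q v (-t))
    (h.cont.comp continuous_neg) (h.sig_cont.comp continuous_neg) (fun t => h.V0 _)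
    (fun t => h.V1 _) (fun t Δ h0 => ?_) (fun t => (sig_mem c q v _).1) fun t Δ h0 => ?_
  · have h1 := (abs_le.1 (h.lip (-t) (-(t + Δ)))).2
    rw [show -t - -(t + Δ) = Δ by ring, abs_of_nonneg h0] at h1
    linarith
  · have h1 := (h.sig_lip (by linarith : -(t + Δ) ≤ -t)).2
    rwa [show -t - -(t + Δ) = Δ by ring] at h1

theorem Var.Ok.adm_pmin (h : v.Ok c q) : Adm c v (pmin c v) := by
  have hr := h.num.hr
  have hκ := h.geom.1
  have h1 : ∀ t t', t ≤ t' → c.κ * (beta c v + c.r - t') / c.r ≤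
      c.κ * (beta c v + c.r - t) / c.r := fun t t' ht => by gcongr
  refine ⟨?_, fun _ => le_rfl, fun t => max_le hκ.le (min_le_left _ _),
    fun t t' ht => (E1_clamp c.κ (h1 t t' ht)).1,
    fun t t' ht => (E1_clamp c.κ (h1 t t' ht)).2.trans (add_le_add le_rfl ?_)⟩
  · unfold pmin
    fun_prop
  · have h2 : 0 ≤ Kt c := by
      unfold Kt
      positivity
    have h3 := mul_nonneg h2 (sub_nonneg.2 ht)
    have h4 : c.κ * (beta c v + c.r - t) / c.r - c.κ * (beta c v + c.r - t') / c.r =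
        c.κ / c.r * (t' - t) := by ring
    linarith

theorem Var.Ok.pmin_eq (h : v.Ok c q) :
    (∀ t, t ≤ beta c v → pmin c v t = c.κ) ∧ (∀ t, beta c v + c.r ≤ t → pmin c v t = 0) ∧
      ∀ t, 0 ≤ pmin c v t := by
  have hr := h.num.hr
  have hκ := h.geom.1
  refine ⟨fun t ht => ?_, fun t ht => ?_, fun t => le_max_left _ _⟩
  · have h1 : c.κ ≤ c.κ * (beta c v + c.r - t) / c.r := by
      rw [le_div_iff₀ hr]
      exact mul_le_mul_of_nonneg_left (by linarith) hκ.le
    unfold pmin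
    rw [min_eq_left h1, max_eq_right hκ.le]
  · exact max_eq_left ((min_le_right _ _).trans (div_nonpos_of_nonpos_of_nonneg
      (mul_nonpos_of_nonneg_of_nonpos hκ.le (by linarith)) hr.le))

end Vale.Agent.P209
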