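import Vale.Agent.P209.E1

/-! The queue `R`.

`fokR`: `Cap.min`, `cap_nomR`, `cap_of_lip` with `c = 3 v0 / 4`, `K + Kt + κ / r` (`n1 n3 n4`).
`SR_gam`: `fP_rest` at reflected time `-γ`: `mass ≤ ∫ γ..B PR + r SR γ`, `PR ≤ CR ≤ V σ + κ`,
`int_sig`, `B - γ = Mm / v0 + r`, so `κ (c0 / 2 - Mm / v0 - r) ≤ r SR γ`, and `c0 / 2 - c0 / 8 - r ≥ r`.
`PR_tight`: `CR` at `γ` is `≤ κ`; `FOk.tight`, `fP_eq`. `QQ_eq`: `FOk.plateau` with `β = -γ` for `t ≤ γ`; for
`t ≥ γ` both sides are `κ` (monotone, and `plateau` at `γ`). `R_end`: otherwise `PR = CR` on `[A + r, B]`,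
`CR = κ` left of `γ + r`, `CR ≥ V σ - κ` right of it, so
`mass ≥ κ (γ - A) + Mm - μ / 2 - κ Mm / v0 > mass` (`fP_int_le`, `intervalIntegral.integral_comp_neg`). -/

namespace Vale.Agent.P209

open Finset

variable {c : Num} {q : Qs} {v : Var} {P P' : ℝ → ℝ} {t t' : ℝ}

theorem Var.Ok.fokR (h : v.Ok c q) (hP : Adm c v P) : FOk c.d c.r (-v.B) (CR c q v P) v.ρR := by
  have n := h.num
  have hr := n.hr
  refine ⟨n.hd, hr, Cap.min hr h.cap_nomR (cap_of_lip (C := fun t => v.V (-t) - P (-t))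
    (c := 3 * c.v0 / 4) (K := c.K + (Kt c + c.κ / c.r)) hr
    ((h.cont.comp continuous_neg).sub (hP.cont.comp continuous_neg)) (by linarith [n.hv0])
    (fun t _ => ?_) (fun t Δ _ h0 => ?_) ?_), h.sR⟩
  · linarith [h.V0 (-t), hP.hi (-t), n.n3]
  · have h1 := (le_abs_self _).trans (h.lip (-t) (-(t + Δ)))
    have h2 := hP.lip (-(t + Δ)) (-t) (by linarith)
    rw [show -t - -(t + Δ) = Δ by ring] at h1 h2
    rw [abs_of_nonneg h0] at h1
    linarith
  · have e : c.r * (c.κ / c.r) = c.κ := by field_simp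
    have h1 := n.n4
    unfold Kt
    linarith [n.n1, n.n3]

theorem Var.Ok.CR_ge (h : v.Ok c q) (hP : Adm c v P) (t : ℝ) : c.κ ≤ CR c q v P t :=
  le_min (le_max_left _ _) (by linarith [h.V0 (-t), hP.hi (-t), h.num.n3, h.num.hv0])

theorem Var.Ok.CR_left (h : v.Ok c q) (hP : Adm c v P) (ht : t ≤ gam c q v + c.r) :
    CR c q v P (-t) = c.κ := by
  refine le_antisymm ((min_le_left _ _).trans ?_) (h.CR_ge hP _)
  rw [neg_neg, nomR, h.sig_zero ht, mul_zero]
  exact max_le le_rfl h.geom.1.le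

theorem Var.Ok.E2_B (h : v.Ok c q) : gam c q v + c.r ≤ v.B := by
  have h1 := h.geom.2.2.2.2.2.1
  unfold beta at h1
  linarith [h.num.hr]

theorem Var.Ok.E2_cont (h : v.Ok c q) (hP : Adm c v P) : Continuous (PR c q v P) :=
  ((h.fokR hP).fP_cont _).comp continuous_neg

theorem E2_int (c : Num) (q : Qs) (v : Var) (P : ℝ → ℝ) (a b : ℝ) :
    ∫ x in -b..-a, fP c.d (-v.B) (CR c q v P) v.ρR (range q.NR) x = ∫ x in a..b, PR c q v P x :=
  (intervalIntegral.integral_comp_neg _).symm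

theorem Var.Ok.E2_eq (h : v.Ok c q) (hP : Adm c v P) (h1 : t ≤ v.B) :
    PR c q v P t = min (CR c q v P (-t)) (SR c q v P (range q.NR) t) :=
  (h.fokR hP).fP_eq _ (neg_le_neg h1)

theorem Var.Ok.E2_mono (h : v.Ok c q) (hP : Adm c v P) (s : Finset ℕ) (ht : t ≤ t') :
    SR c q v P s t ≤ SR c q v P s t' :=
  ((h.fokR hP).fS_lip s le_rfl (neg_le_neg ht)).1

theorem Var.Ok.E2_sig (h : v.Ok c q) (ht : t ≤ gam c q v + c.r) (k : ℝ) :
    ∫ x in t..v.B, (v.V x * sig c q v x + k) = Mm c q v - c.μ / 2 + (v.B - t) * k := by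
  have hi : IntervalIntegrable (fun x => v.V x * sig c q v x) MeasureTheory.volume t v.B :=
    (h.cont.mul h.sig_cont).intervalIntegrable _ _
  rw [intervalIntegral.integral_add hi (by simp), h.int_sig ht, intervalIntegral.integral_const,
    smul_eq_mul]

theorem Var.Ok.SR_gam (h : v.Ok c q) (hP : Adm c v P) :
    c.κ ≤ SR c q v P (range q.NR) (gam c q v) := by
  have hr := h.num.hr
  obtain ⟨g1, -, -, g4, -⟩ := h.geom
  have hB : gam c q v ≤ v.B := by linarith [h.E2_B]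
  have h1 := (h.fokR hP).fP_rest (range q.NR) (neg_le_neg hB)
  rw [E2_int] at h1
  have h2 : ∫ x in gam c q v..v.B, PR c q v P x ≤
      ∫ x in gam c q v..v.B, (v.V x * sig c q v x + c.κ) := by
    refine intervalIntegral.integral_mono_on hB ((h.E2_cont hP).intervalIntegrable _ _)
      (((h.cont.mul h.sig_cont).add continuous_const).intervalIntegrable _ _) fun x hx => ?_
    rw [h.E2_eq hP hx.2]
    refine (min_le_left _ _).trans ((min_le_left _ _).trans ?_)
    rw [neg_neg]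
    have := mul_nonneg (h.num.hv0.le.trans (h.V0 x)) (sig_mem c q v x).1
    exact max_le (by linarith) (by linarith)
  rw [h.E2_sig (by linarith)] at h2
  have e1 : v.B - gam c q v = Mm c q v / c.v0 + c.r := by
    unfold gam
    ring
  have e2 : Mm c q v = mass c.d v.ρR (range q.NR) + c.μ / 2 - c.κ * c.c0 / 2 := rfl
  have h3 := mul_le_mul_of_nonneg_right g4 g1.le
  have h4 := mul_le_mul_of_nonneg_right h.num.n6 g1.le
  have h5 := mul_pos hr g1
  rw [e1] at h2
  refine le_of_mul_le_mul_left ?_ hr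
  unfold SR
  linarith

theorem Var.Ok.PR_tight (h : v.Ok c q) (hP : Adm c v P) (h0 : gam c q v ≤ t) (h1 : t ≤ v.B) :
    PR c q v P t = CR c q v P (-t) := by
  rw [h.E2_eq hP h1]
  refine min_eq_left ((h.fokR hP).tight (neg_le_neg h1) (neg_le_neg h0) ?_)
  rw [h.CR_left hP (by linarith [h.num.hr])]
  exact h.SR_gam hP

theorem Var.Ok.QQ_right (h : v.Ok c q) (hP : Adm c v P) (h0 : gam c q v ≤ t) : QQ c q v P t = c.κ :=
  min_eq_left ((h.SR_gam hP).trans (h.E2_mono hP _ h0))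

theorem Var.Ok.QQ_eq (h : v.Ok c q) (hP : Adm c v P) (t : ℝ) :
    QQ c q v P t = min c.κ (SR c q v P (Ico q.nR q.NR) t) := by
  have key : ∀ t, t ≤ gam c q v → QQ c q v P t = min c.κ (SR c q v P (Ico q.nR q.NR) t) :=
    fun t ht => (h.fokR hP).plateau (β := -gam c q v) h.qR (by linarith [h.E2_B])
      (fun x hx => by
        rw [← neg_neg x]
        exact (h.CR_left hP (by linarith)).le) h.finR (neg_le_neg ht)
  rcases le_total t (gam c q v) with ht | ht
  · exact key t ht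
  · have h1 := key _ le_rfl
    rw [h.QQ_right hP le_rfl] at h1
    rw [h.QQ_right hP ht, min_eq_left ((h1.le.trans (min_le_right _ _)).trans (h.E2_mono hP _ ht))]

theorem Var.Ok.QQ_lip (h : v.Ok c q) (hP : Adm c v P) (ht : t ≤ t') :
    QQ c q v P t ≤ QQ c q v P t' ∧ QQ c q v P t' ≤ QQ c q v P t + Kt c * (t' - t) := by
  have hr := h.num.hr
  rw [h.QQ_eq hP, h.QQ_eq hP]
  refine ⟨min_le_min le_rfl (h.E2_mono hP _ ht), ?_⟩
  have h1 := ((h.fokR hP).fS_lip _ h.cntR (neg_le_neg ht)).2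
  rw [show -t - -t' = t' - t by ring] at h1
  have h2 : 0 ≤ Kt c * (t' - t) := mul_nonneg (by unfold Kt; positivity) (sub_nonneg.2 ht)
  rw [← min_add_add_right]
  exact min_le_min (by linarith) h1

theorem Var.Ok.R_end (h : v.Ok c q) (hP : Adm c v P) :
    ∃ t, v.A + c.r ≤ t ∧ t ≤ v.B ∧ SR c q v P (range q.NR) t < CR c q v P (-t) := by
  by_contra hc
  have key : ∀ t, v.A + c.r ≤ t → t ≤ v.B → PR c q v P t = CR c q v P (-t) := fun t h0 h1 => by
    rw [h.E2_eq hP h1]
    exact min_eq_left (not_lt.1 fun e => hc ⟨t, h0, h1, e⟩)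
  have hr := h.num.hr
  obtain ⟨g1, -, -, g4, g5, -⟩ := h.geom
  have hB := h.E2_B
  have hi := fun a b => (h.E2_cont hP).intervalIntegrable (μ := MeasureTheory.volume) a b
  have h1 := (h.fokR hP).fP_int_le (range q.NR) (T := -(v.A + c.r)) (by linarith)
  rw [E2_int, ← intervalIntegral.integral_add_adjacent_intervals (hi _ (gam c q v + c.r))
    (hi _ _)] at h1
  have h2 : ∫ _ in v.A + c.r..gam c q v + c.r, c.κ ≤
      ∫ x in v.A + c.r..gam c q v + c.r, PR c q v P x :=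
    intervalIntegral.integral_mono_on (by linarith) (by simp) (hi _ _) fun x hx => by
      rw [key x hx.1 (hx.2.trans hB)]
      exact h.CR_ge hP _
  have h3 : ∫ x in gam c q v + c.r..v.B, (v.V x * sig c q v x + -c.κ) ≤
      ∫ x in gam c q v + c.r..v.B, PR c q v P x := by
    refine intervalIntegral.integral_mono_on hB
      (((h.cont.mul h.sig_cont).add continuous_const).intervalIntegrable _ _) (hi _ _)
      fun x hx => ?_
    rw [key x (by linarith [hx.1]) hx.2, CR, neg_neg]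
    have := mul_le_of_le_one_right (h.num.hv0.le.trans (h.V0 x)) (sig_mem c q v x).2
    exact le_min (le_trans (by linarith) (le_max_right _ _)) (by linarith [hP.hi x])
  rw [intervalIntegral.integral_const, smul_eq_mul] at h2
  rw [h.E2_sig le_rfl] at h3
  have e1 : gam c q v = v.B - Mm c q v / c.v0 - c.r := rfl
  have e2 : Mm c q v = mass c.d v.ρR (range q.NR) + c.μ / 2 - c.κ * c.c0 / 2 := rfl
  have h4 := mul_le_mul_of_nonneg_right g4 g1.le
  have h5 := mul_le_mul_of_nonneg_right h.num.n6 g1.le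
  have h6 := mul_le_mul_of_nonneg_right h.len0 g1.le
  have h7 := mul_pos h.num.hc0 g1
  have e3 : (gam c q v + c.r - (v.A + c.r)) * c.κ =
      (v.B - v.A) * c.κ - Mm c q v / c.v0 * c.κ - c.r * c.κ := by
    rw [e1]
    ring
  have e4 : (v.B - (gam c q v + c.r)) * -c.κ = -(Mm c q v / c.v0 * c.κ) := by
    rw [e1]
    ring
  linarith

theorem Var.Ok.PR_int (h : v.Ok c q) (hP : Adm c v P) :
    ∫ t in v.A..v.B, PR c q v P t = mass c.d v.ρR (range q.NR) := by
  obtain ⟨t, h0, h1, h2⟩ := h.R_end hP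
  rw [← E2_int]
  exact (h.fokR hP).fP_int_eq (neg_le_neg h1) h2 (by linarith)

end Vale.Agent.P209
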