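import Vale.Agent.P209.E2

/-! The queue `L` and the map `step`.

`fokL`: `Cap.min`, `cap_nomL`, `cap_of_lip` with `K + Kt`. `step_eq`: for `t ≤ β` both sides are `κ`
(`pmin_eq`), for `t ≥ β` use `FOk.plateau` (`CL ≤ nomL = κ` from `β - r` on, `sig_one`). `adm_step`: `fS_lip` for the
final group and `adm_pmin`; maxima and minima keep the bounds. `step_mono`: `fD_mono` twice.
`feasible`: cases `PL ≤ κ` (then `PL ≤ min κ SL ≤ step ≤ P + ε` and `PR ≤ CR ≤ V - P`), `PR ≤ κ` (then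
`PR ≤ min κ SR = QQ` and `PL ≤ CL ≤ V - QQ`), both larger (then `PL ≤ V (1 - σ)`, `PR ≤ V σ`); use `fP_eq`. -/

namespace Vale.Agent.P209

open Finset

variable {c : Num} {q : Qs} {v : Var} {P P' : ℝ → ℝ} {t t' ε : ℝ}

theorem Var.Ok.QQ_cont (h : v.Ok c q) (hP : Adm c v P) : Continuous (QQ c q v P) := by
  exact continuous_const.min (((h.fokR hP).fS_cont _).comp continuous_neg)

theorem Var.Ok.QQ_mem (h : v.Ok c q) (hP : Adm c v P) (t : ℝ) :
    0 ≤ QQ c q v P t ∧ QQ c q v P t ≤ c.κ := by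
  exact ⟨le_min h.geom.1.le ((h.fokR hP).fS_nonneg _ _), min_le_left _ _⟩

theorem Var.Ok.fokL (h : v.Ok c q) (hP : Adm c v P) : FOk c.d c.r v.A (CL c q v P) v.ρL := by
  have hr := h.num.hr
  have hv := h.num.hv0
  refine ⟨h.num.hd, hr, Cap.min hr h.cap_nomL (cap_of_lip hr (h.cont.sub (h.QQ_cont hP))
    (c := 3 * c.v0 / 4) (K := c.K + Kt c) (by positivity) (fun t _ => ?_) (fun t Δ _ h1 => ?_) ?_),
    h.sL⟩
  · have a1 := h.V0 t
    have a2 := (h.QQ_mem hP t).2
    have a3 := h.num.n3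
    change _ ≤ v.V t - QQ c q v P t
    linarith
  · have a1 := (abs_le.1 (h.lip t (t + Δ))).2
    rw [show t - (t + Δ) = -Δ by ring, abs_neg, abs_of_nonneg h1] at a1
    have a2 := (h.QQ_lip hP (show t ≤ t + Δ by linarith)).2
    rw [add_sub_cancel_left] at a2
    change v.V t - QQ c q v P t ≤ v.V (t + Δ) - QQ c q v P (t + Δ) + _
    linarith
  · have a1 := h.num.n1
    have a2 : c.r * (Kt c + nu c.d c.r) ≤ c.v0 / 4 := h.num.n4
    linarith

theorem Var.Ok.CL_ge (h : v.Ok c q) (hP : Adm c v P) (t : ℝ) : c.κ ≤ CL c q v P t := by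
  refine le_min (le_max_left _ _) ?_
  linarith [h.V0 t, (h.QQ_mem hP t).2, h.num.n3, h.num.hv0]

theorem Var.Ok.CL_right (h : v.Ok c q) (hP : Adm c v P) (ht : beta c v - c.r ≤ t) :
    CL c q v P t = c.κ := by
  refine le_antisymm ((min_le_left _ _).trans ?_) (h.CL_ge hP t)
  rw [nomL, h.sig_one ht, sub_self, mul_zero]
  exact max_le le_rfl h.geom.1.le

theorem Var.Ok.step_eq (h : v.Ok c q) (hP : Adm c v P) (t : ℝ) :
    step c q v P t = max (min c.κ (SL c q v P (Ico q.nL q.NL) t)) (pmin c v t) := by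
  unfold step
  rcases le_total t (beta c v) with h1 | h1
  · rw [h.pmin_eq.1 t h1, max_eq_right (min_le_left _ _), max_eq_right (min_le_left _ _)]
  · exact congrArg (max · _) ((h.fokL hP).plateau h.qL h.geom.2.2.2.2.2.2
      (fun x hx => (h.CL_right hP hx).le) h.finL h1)

theorem Var.Ok.adm_step (h : v.Ok c q) (hP : Adm c v P) : Adm c v (step c q v P) := by
  have hm := h.adm_pmin
  refine ⟨(continuous_const.min ((h.fokL hP).fS_cont _)).max hm.cont, fun t => le_max_right _ _,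
    fun t => max_le (min_le_left _ _) (hm.hi t), fun t t' ht => ?_, fun t t' ht => ?_⟩
  · rw [h.step_eq hP, h.step_eq hP]
    exact max_le_max (min_le_min le_rfl ((h.fokL hP).fS_lip _ h.cntL ht).1) (hm.anti ht)
  · have hr := h.num.hr
    have a1 : SL c q v P (Ico q.nL q.NL) t ≤ SL c q v P (Ico q.nL q.NL) t' + Kt c * (t' - t) :=
      ((h.fokL hP).fS_lip _ h.cntL ht).2
    have a2 := hm.lip t t' ht
    have a3 : 0 ≤ Kt c * (t' - t) := mul_nonneg (by unfold Kt; positivity) (sub_nonneg.2 ht)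
    have a4 : 0 ≤ c.κ / c.r * (t' - t) :=
      mul_nonneg (div_nonneg h.geom.1.le hr.le) (sub_nonneg.2 ht)
    have a5 : min c.κ (SL c q v P (Ico q.nL q.NL) t) ≤
        min c.κ (SL c q v P (Ico q.nL q.NL) t') + Kt c * (t' - t) := by
      rw [← min_add_add_right]
      exact min_le_min (by linarith) a1
    have a6 := le_max_left (min c.κ (SL c q v P (Ico q.nL q.NL) t')) (pmin c v t')
    have a7 := le_max_right (min c.κ (SL c q v P (Ico q.nL q.NL) t')) (pmin c v t')
    rw [h.step_eq hP, h.step_eq hP]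
    exact max_le (by linarith) (by linarith)

theorem Var.Ok.QQ_mono (h : v.Ok c q) (hP : Adm c v P) (hP' : Adm c v P') (hle : ∀ t, P t ≤ P' t)
    (t : ℝ) : QQ c q v P t ≤ QQ c q v P' t := by
  unfold QQ SR fS
  exact min_le_min le_rfl (sum_le_sum fun i _ => (h.fokR hP).fD_mono (h.fokR hP')
    (fun x _ => min_le_min le_rfl (sub_le_sub_left (hle _) _)) i (-t))

theorem Var.Ok.step_mono (h : v.Ok c q) (hP : Adm c v P) (hP' : Adm c v P') (hle : ∀ t, P t ≤ P' t)
    (t : ℝ) : step c q v P t ≤ step c q v P' t := by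
  unfold step SL fS
  exact max_le_max (min_le_min le_rfl (sum_le_sum fun i _ => (h.fokL hP).fD_mono (h.fokL hP')
    (fun x _ => min_le_min le_rfl (sub_le_sub_left (h.QQ_mono hP hP' hle x) _)) i t)) le_rfl

theorem Var.Ok.feasible (h : v.Ok c q) (hP : Adm c v P) (hε : 0 ≤ ε) (h0 : v.A ≤ t) (h1 : t ≤ v.B)
    (hs : step c q v P t ≤ P t + ε) : PL c q v P t + PR c q v P t ≤ v.V t + ε := by
  have eL : PL c q v P t = min (CL c q v P t) (SL c q v P (range q.NL) t) :=
    (h.fokL hP).fP_eq _ h0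
  have eR : PR c q v P t = min (CR c q v P (-t)) (SR c q v P (range q.NR) t) :=
    (h.fokR hP).fP_eq _ (neg_le_neg h1)
  have l1 : PL c q v P t ≤ CL c q v P t := eL ▸ min_le_left _ _
  have l2 : PL c q v P t ≤ SL c q v P (range q.NL) t := eL ▸ min_le_right _ _
  have r1 : PR c q v P t ≤ CR c q v P (-t) := eR ▸ min_le_left _ _
  have r2 : PR c q v P t ≤ SR c q v P (range q.NR) t := eR ▸ min_le_right _ _
  unfold CR at r1
  rw [neg_neg] at r1
  by_cases a1 : PL c q v P t ≤ c.κ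
  · have a2 : PL c q v P t ≤ step c q v P t := (le_min a1 l2).trans (le_max_left _ _)
    linarith [r1.trans (min_le_right _ _)]
  by_cases a2 : PR c q v P t ≤ c.κ
  · have a3 : PR c q v P t ≤ QQ c q v P t := le_min a2 r2
    have a4 : PL c q v P t ≤ v.V t - QQ c q v P t := l1.trans (min_le_right _ _)
    linarith
  have a3 : PL c q v P t ≤ v.V t * (1 - sig c q v t) :=
    (le_max_iff.1 (l1.trans (min_le_left _ _))).resolve_left a1
  have a4 : PR c q v P t ≤ v.V t * sig c q v t :=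
    (le_max_iff.1 (r1.trans (min_le_left _ _))).resolve_left a2
  linarith

end Vale.Agent.P209
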