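import Vale.Agent.P209.E3

/-! The mass identity: the queue `L` ends in time.

`L_end`: suppose `CL ≤ SL` on `[A, β + r]`. Claim `V ≤ PL + PR` on `[A, B]` (`fP_eq`, `PR_tight`).
On `[A, γ]`: `σ = 0`, `PL = CL = V - QQ`, `QQ = min κ SR = min CR SR = PR`. On `[γ, β]`: `P = κ`, `QQ = κ`,
`PR = min (max κ (V σ)) (V - κ)`, `PL = min (max κ (V (1 - σ))) (V - κ)`, the sum is `≥ V` as `2 κ ≤ V`.
On `[β, B]`: `σ = 1`, `PR = V - P`, `PL = min κ SL`, and `min κ SL ≥ pmin` (it is `κ` up to `β + r`, then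
`pmin = 0`), so `PL = step P ≥ P`. Integrate: `∫ V ≤ mass L + mass R` (`fP_int_le`, `PR_int`), against `slack`.
`PL_int`: `fP_int_eq`, `β + 2 r = B`. -/

namespace Vale.Agent.P209

open Finset

variable {c : Num} {q : Qs} {v : Var} {P : ℝ → ℝ}

theorem E4_mid {κ V σ : ℝ} (h : 2 * κ ≤ V) :
    V ≤ min (max κ (V * (1 - σ))) (V - κ) + min (max κ (V * σ)) (V - κ) := by
  have h1 := le_max_left κ (V * (1 - σ))
  have h2 := le_max_right κ (V * (1 - σ))
  have h3 := le_max_left κ (V * σ)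
  have h4 := le_max_right κ (V * σ)
  generalize max κ (V * (1 - σ)) = x at h1 h2 ⊢
  generalize max κ (V * σ) = y at h3 h4 ⊢
  simp only [min_def]
  split_ifs <;> linarith

theorem Var.Ok.E4_pt (h : v.Ok c q) (hP : Adm c v P) (hs : ∀ t, P t ≤ step c q v P t)
    (hc : ∀ t, v.A ≤ t → t + c.r ≤ v.B → CL c q v P t ≤ SL c q v P (range q.NL) t) {t : ℝ}
    (h0 : v.A ≤ t) (h1 : t ≤ v.B) : v.V t ≤ PL c q v P t + PR c q v P t := by
  obtain ⟨hκ, -, -, -, -, g1, -⟩ := h.geom
  have hr := h.num.hr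
  have hβ : beta c v = v.B - 2 * c.r := rfl
  have eL : PL c q v P t = min (CL c q v P t) (SL c q v P (range q.NL) t) :=
    (h.fokL hP).fP_eq q.NL h0
  have eC : CR c q v P (-t) = min (max c.κ (v.V t * sig c q v t)) (v.V t - P t) := by
    simp only [CR, nomR, neg_neg]
  have eCL : CL c q v P t =
    min (max c.κ (v.V t * (1 - sig c q v t))) (v.V t - QQ c q v P t) := rfl
  rcases le_total t (gam c q v) with h2 | h2
  · have eR : PR c q v P t = min (CR c q v P (-t)) (SR c q v P (range q.NR) t) :=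
      (h.fokR hP).fP_eq q.NR (neg_le_neg h1)
    rw [h.CR_left hP (by linarith)] at eR
    have eQ : PR c q v P t = QQ c q v P t := eR
    rw [eL, min_eq_left (hc t h0 (by linarith)), eQ, eCL, h.sig_zero (by linarith), sub_zero,
      mul_one, min_eq_right ((sub_le_self _ (h.QQ_mem hP t).1).trans (le_max_right _ _))]
    linarith
  rw [h.PR_tight hP h2 h1, eC]
  rcases le_total t (beta c v) with h3 | h3
  · have e1 : P t = c.κ := le_antisymm (hP.hi t) ((h.pmin_eq.1 t h3).symm.trans_le (hP.lo t))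
    rw [eL, min_eq_left (hc t h0 (by linarith)), eCL, h.QQ_right hP h2, e1]
    exact E4_mid (by linarith [h.num.n3, h.V0 t, h.num.hv0])
  · have k1 : 0 ≤ P t := (h.pmin_eq.2.2 t).trans (hP.lo t)
    have k2 : CL c q v P t = c.κ := h.CL_right hP (by linarith)
    have k3 : pmin c v t ≤ min c.κ (SL c q v P (range q.NL) t) := by
      rcases le_total t (beta c v + c.r) with h4 | h4
      · rw [min_eq_left (k2.symm.trans_le (hc t h0 (by linarith)))]
        exact h.adm_pmin.hi t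
      · rw [h.pmin_eq.2.1 t h4]
        exact le_min hκ.le ((h.fokL hP).fS_nonneg _ t)
    have k4 : P t ≤ min c.κ (SL c q v P (range q.NL) t) := (hs t).trans (max_le le_rfl k3)
    rw [eL, k2, h.sig_one (by linarith), mul_one,
      min_eq_right ((sub_le_self _ k1).trans (le_max_right _ _))]
    linarith

theorem Var.Ok.L_end (h : v.Ok c q) (hP : Adm c v P) (hs : ∀ t, P t ≤ step c q v P t) :
    ∃ t, v.A ≤ t ∧ t + c.r ≤ v.B ∧ SL c q v P (range q.NL) t < CL c q v P t := by
  by_contra hn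
  have hc : ∀ t, v.A ≤ t → t + c.r ≤ v.B → CL c q v P t ≤ SL c q v P (range q.NL) t :=
    fun t h0 h1 => not_lt.1 fun h2 => hn ⟨t, h0, h1, h2⟩
  have hAB : v.A ≤ v.B := by linarith [h.len0, h.num.hc0]
  have cL : Continuous (PL c q v P) := (h.fokL hP).fP_cont _
  have cR : Continuous (PR c q v P) := ((h.fokR hP).fP_cont _).comp continuous_neg
  have h1 : ∫ t in v.A..v.B, v.V t ≤ ∫ t in v.A..v.B, (PL c q v P t + PR c q v P t) :=
    intervalIntegral.integral_mono_on hAB (h.cont.intervalIntegrable _ _)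
      ((cL.add cR).intervalIntegrable _ _) fun t ht => h.E4_pt hP hs hc ht.1 ht.2
  rw [intervalIntegral.integral_add (cL.intervalIntegrable _ _) (cR.intervalIntegrable _ _),
    h.PR_int hP] at h1
  have h2 : ∫ t in v.A..v.B, PL c q v P t ≤ mass c.d v.ρL (range q.NL) :=
    (h.fokL hP).fP_int_le _ hAB
  linarith [h.slack]

theorem Var.Ok.PL_int (h : v.Ok c q) (hP : Adm c v P) (hs : ∀ t, P t ≤ step c q v P t) :
    ∫ t in v.A..v.B, PL c q v P t = mass c.d v.ρL (range q.NL) := by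
  obtain ⟨t, h0, h1, h2⟩ := h.L_end hP hs
  exact (h.fokL hP).fP_int_eq h0 h2 h1

end Vale.Agent.P209
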