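import Vale.Agent.P209.E4

/-! `step` does not expand in `L¹`, so the iteration settles uniformly.

For reals `κ ≤ C' ≤ C`, `S ≤ S'`: `min κ S' - min κ S ≤ (min C' S' - min C S) + (C - C')`. Hence
`QQ' - QQ ≤ (PR' - PR) + (P' - P)` and `step' - step ≤ (PL' - PL) + (QQ' - QQ)` on `[A, B]`; integrate with `PR_int`,
`PL_int`. `iter_close`: `I k = ∫ A..B (iter (k + 1) - iter k)` decreases and `∑ I k ≤ κ (B - A) ≤ κ`, so
`(k + 1) I k ≤ κ`. The function `f = iter (k + 1) - iter k ≥ 0` is Lipschitz with `Kp = Kt + κ / r > 0`; if `f t > ε`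
then `f ≥ ε / 2` on an interval of length `ℓ = min (c0 / 2) (ε / (2 Kp))` inside `[A, B]` with end point `t`.
Choose `k` with `κ < (k + 1) ε ℓ / 2`. -/

namespace Vale.Agent.P209

open Finset

variable {c : Num} {q : Qs} {v : Var} {P P' : ℝ → ℝ}

theorem e5_min {k C C' S S' : ℝ} (h1 : k ≤ C') (h2 : C' ≤ C) (h3 : S ≤ S') :
    min k S' - min k S ≤ (min C' S' - min C S) + (C - C') := by
  simp only [min_def]
  split_ifs <;> linarith

theorem e5_cap {n a b : ℝ} (h : b ≤ a) : min n b ≤ min n a ∧ min n a - min n b ≤ a - b := by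
  simp only [min_def]
  constructor <;> split_ifs <;> linarith

theorem e5_max {p a b : ℝ} (h : a ≤ b) : max b p - max a p ≤ b - a := by
  simp only [max_def]
  split_ifs <;> linarith

theorem Var.Ok.e5_QQ (h : v.Ok c q) (hP : Adm c v P) (hP' : Adm c v P') (hle : ∀ t, P t ≤ P' t)
    {t : ℝ} (ht : t ≤ v.B) :
    QQ c q v P' t - QQ c q v P t ≤ (PR c q v P' t - PR c q v P t) + (P' t - P t) := by
  have hC : ∀ s, CR c q v P' s ≤ CR c q v P s ∧ CR c q v P s - CR c q v P' s ≤ P' (-s) - P (-s) :=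
    fun s => by
      have := e5_cap (n := nomR c q v (-s)) (a := v.V (-s) - P (-s)) (b := v.V (-s) - P' (-s))
        (by linarith [hle (-s)])
      exact ⟨this.1, by unfold CR; linarith [this.2]⟩
  have e1 : PR c q v P t = min (CR c q v P (-t)) (SR c q v P (range q.NR) t) :=
    (h.fokR hP).fP_eq _ (neg_le_neg ht)
  have e2 : PR c q v P' t = min (CR c q v P' (-t)) (SR c q v P' (range q.NR) t) :=
    (h.fokR hP').fP_eq _ (neg_le_neg ht)
  have hS : SR c q v P (range q.NR) t ≤ SR c q v P' (range q.NR) t := by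
    unfold SR fS
    exact sum_le_sum fun i _ => (h.fokR hP).fD_mono (h.fokR hP') (fun s _ => (hC s).1) i _
  have k1 := e5_min (h.CR_ge hP' (-t)) (hC (-t)).1 hS
  have k2 := (hC (-t)).2
  rw [neg_neg] at k2
  rw [e1, e2]
  unfold QQ
  linarith

theorem Var.Ok.e5_step (h : v.Ok c q) (hP : Adm c v P) (hP' : Adm c v P') (hle : ∀ t, P t ≤ P' t)
    {t : ℝ} (ht : v.A ≤ t) : step c q v P' t - step c q v P t ≤
      (PL c q v P' t - PL c q v P t) + (QQ c q v P' t - QQ c q v P t) := by
  have hC : ∀ s, CL c q v P' s ≤ CL c q v P s ∧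
      CL c q v P s - CL c q v P' s ≤ QQ c q v P' s - QQ c q v P s := fun s => by
    have := e5_cap (n := nomL c q v s) (a := v.V s - QQ c q v P s) (b := v.V s - QQ c q v P' s)
      (by linarith [h.QQ_mono hP hP' hle s])
    exact ⟨this.1, by unfold CL; linarith [this.2]⟩
  have e1 : PL c q v P t = min (CL c q v P t) (SL c q v P (range q.NL) t) :=
    (h.fokL hP).fP_eq _ ht
  have e2 : PL c q v P' t = min (CL c q v P' t) (SL c q v P' (range q.NL) t) :=
    (h.fokL hP').fP_eq _ ht
  have hS : SL c q v P (range q.NL) t ≤ SL c q v P' (range q.NL) t := by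
    unfold SL fS
    exact sum_le_sum fun i _ => (h.fokL hP).fD_mono (h.fokL hP') (fun s _ => (hC s).1) i _
  have k1 := e5_min (h.CL_ge hP' t) (hC t).1 hS
  have k2 := (hC t).2
  have k3 := e5_max (p := pmin c v t) (min_le_min_left c.κ hS)
  rw [e1, e2]
  unfold step
  linarith

theorem Var.Ok.step_L1 (h : v.Ok c q) (hP : Adm c v P) (hP' : Adm c v P') (hle : ∀ t, P t ≤ P' t)
    (hs : ∀ t, P t ≤ step c q v P t) (hs' : ∀ t, P' t ≤ step c q v P' t) :
    ∫ t in v.A..v.B, (step c q v P' t - step c q v P t) ≤ ∫ t in v.A..v.B, (P' t - P t) := by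
  have hAB : v.A ≤ v.B := by linarith [h.len0, h.num.hc0]
  have cL : ∀ {Q}, Adm c v Q → IntervalIntegrable (PL c q v Q) MeasureTheory.volume v.A v.B :=
    fun hQ => ((h.fokL hQ).fP_cont _).intervalIntegrable _ _
  have cR : ∀ {Q}, Adm c v Q → IntervalIntegrable (PR c q v Q) MeasureTheory.volume v.A v.B :=
    fun hQ => (((h.fokR hQ).fP_cont _).comp continuous_neg).intervalIntegrable _ _
  have cP : IntervalIntegrable (fun t => P' t - P t) MeasureTheory.volume v.A v.B :=
    (hP'.cont.sub hP.cont).intervalIntegrable _ _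
  have key : ∫ t in v.A..v.B, (step c q v P' t - step c q v P t) ≤ ∫ t in v.A..v.B,
      ((PL c q v P' t - PL c q v P t) + (PR c q v P' t - PR c q v P t) + (P' t - P t)) := by
    refine intervalIntegral.integral_mono_on hAB
      (((h.adm_step hP').cont.sub (h.adm_step hP).cont).intervalIntegrable _ _)
      ((((cL hP').sub (cL hP)).add ((cR hP').sub (cR hP))).add cP) fun t ht => ?_
    linarith [h.e5_QQ hP hP' hle ht.2, h.e5_step hP hP' hle ht.1]
  rw [intervalIntegral.integral_add (((cL hP').sub (cL hP)).add ((cR hP').sub (cR hP))) cP,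
    intervalIntegral.integral_add ((cL hP').sub (cL hP)) ((cR hP').sub (cR hP)),
    intervalIntegral.integral_sub (cL hP') (cL hP), intervalIntegral.integral_sub (cR hP') (cR hP),
    h.PL_int hP hs, h.PL_int hP' hs', h.PR_int hP, h.PR_int hP'] at key
  linarith

theorem Var.Ok.adm_iter (h : v.Ok c q) (k : ℕ) :
    Adm c v (iter c q v k) ∧ ∀ t, iter c q v k t ≤ step c q v (iter c q v k) t := by
  induction k with
  | zero => exact ⟨h.adm_pmin, fun t => le_max_right _ _⟩
  | succ k ih =>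
    exact ⟨h.adm_step ih.1, fun t => h.step_mono ih.1 (h.adm_step ih.1) ih.2 t⟩

theorem Var.Ok.e5_sum (h : v.Ok c q) (k : ℕ) :
    ((k : ℝ) + 1) * ∫ t in v.A..v.B, (iter c q v (k + 1) t - iter c q v k t) ≤
      ∫ t in v.A..v.B, (iter c q v (k + 1) t - iter c q v 0 t) := by
  have ci : ∀ j, IntervalIntegrable (iter c q v j) MeasureTheory.volume v.A v.B :=
    fun j => (h.adm_iter j).1.cont.intervalIntegrable _ _
  induction k with
  | zero => simp
  | succ k ih =>
    have k1 : ∫ t in v.A..v.B, (iter c q v (k + 1 + 1) t - iter c q v (k + 1) t) ≤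
        ∫ t in v.A..v.B, (iter c q v (k + 1) t - iter c q v k t) :=
      h.step_L1 (h.adm_iter k).1 (h.adm_iter (k + 1)).1 (h.adm_iter k).2 (h.adm_iter k).2
        (h.adm_iter (k + 1)).2
    simp only [intervalIntegral.integral_sub (ci _) (ci _)] at ih k1 ⊢
    have k2 := mul_le_mul_of_nonneg_left k1 (show (0 : ℝ) ≤ (k : ℝ) + 1 by positivity)
    push_cast
    linarith

theorem Var.Ok.e5_bound (h : v.Ok c q) (k : ℕ) :
    ((k : ℝ) + 1) * ∫ t in v.A..v.B, (iter c q v (k + 1) t - iter c q v k t) ≤ c.κ := by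
  have hAB : v.A ≤ v.B := by linarith [h.len0, h.num.hc0]
  refine (h.e5_sum k).trans ?_
  have k1 : ∫ t in v.A..v.B, (iter c q v (k + 1) t - iter c q v 0 t) ≤ ∫ _ in v.A..v.B, c.κ := by
    refine intervalIntegral.integral_mono_on hAB
      (((h.adm_iter _).1.cont.sub (h.adm_iter _).1.cont).intervalIntegrable _ _)
      (continuous_const.intervalIntegrable _ _) fun t _ => ?_
    have k2 : 0 ≤ iter c q v 0 t := h.pmin_eq.2.2 t
    linarith [(h.adm_iter (k + 1)).1.hi t]
  rw [intervalIntegral.integral_const, smul_eq_mul] at k1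
  have := mul_le_mul_of_nonneg_right h.len1 h.geom.1.le
  linarith

theorem e5_low {f : ℝ → ℝ} {A B a l e : ℝ} (hf : Continuous f) (h0 : ∀ t, 0 ≤ f t) (hl : 0 ≤ l)
    (ha : A ≤ a) (hb : a + l ≤ B) (he : ∀ t, a ≤ t → t ≤ a + l → e ≤ f t) :
    e * l ≤ ∫ t in A..B, f t := by
  have k1 : ∫ _ in a..a + l, e ≤ ∫ t in a..a + l, f t :=
    intervalIntegral.integral_mono_on (by linarith) (continuous_const.intervalIntegrable _ _)
      (hf.intervalIntegrable _ _) fun t ht => he t ht.1 ht.2
  have k2 : ∫ t in a..a + l, f t ≤ ∫ t in A..B, f t :=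
    intervalIntegral.integral_mono_interval ha (by linarith) hb (Filter.Eventually.of_forall h0)
      (hf.intervalIntegrable _ _)
  rw [intervalIntegral.integral_const, smul_eq_mul] at k1
  nlinarith

theorem iter_close (hc : c.Ok) {ε : ℝ} (hε : 0 < ε) : ∃ k : ℕ, ∀ (q : Qs) (v : Var), v.Ok c q →
    ∀ t, v.A ≤ t → t ≤ v.B → step c q v (iter c q v k) t ≤ iter c q v k t + ε := by
  have hr := hc.hr
  have hμ := hc.hμ
  have hc0 := hc.hc0
  have hκ : 0 < c.κ := lt_of_lt_of_le (by unfold nu; positivity) hc.n2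
  obtain ⟨Kp, hKp⟩ : ∃ Kp, Kp = Kt c + c.κ / c.r := ⟨_, rfl⟩
  have hK : 0 < Kp := by rw [hKp]; unfold Kt; positivity
  obtain ⟨l, hl0, hl1, hl2⟩ : ∃ l, 0 < l ∧ l ≤ c.c0 / 2 ∧ Kp * l ≤ ε / 2 := by
    refine ⟨min (c.c0 / 2) (ε / (2 * Kp)), lt_min (by positivity) (by positivity), min_le_left _ _, ?_⟩
    calc Kp * min (c.c0 / 2) (ε / (2 * Kp)) ≤ Kp * (ε / (2 * Kp)) :=
          mul_le_mul_of_nonneg_left (min_le_right _ _) hK.le
      _ = ε / 2 := by field_simp
  obtain ⟨k, hk⟩ := exists_nat_gt (c.κ / (ε / 2 * l))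
  refine ⟨k, fun q v h t hA hB => ?_⟩
  by_contra hcon
  have hcon' : ε < iter c q v (k + 1) t - iter c q v k t := by
    have : iter c q v k t + ε < iter c q v (k + 1) t := not_le.1 hcon
    linarith
  have a0 := (h.adm_iter k).1
  have a1 := (h.adm_iter (k + 1)).1
  have low : ∀ s, |s - t| ≤ l → ε / 2 ≤ iter c q v (k + 1) s - iter c q v k s := fun s hs => by
    obtain ⟨s1, s2⟩ := abs_le.1 hs
    rcases le_total s t with hst | hst
    · have k1 := a0.lip s t hst
      have k2 := a1.anti hst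
      rw [← hKp] at k1
      have k3 : Kp * (t - s) ≤ Kp * l := mul_le_mul_of_nonneg_left (by linarith) hK.le
      linarith
    · have k1 := a1.lip t s hst
      have k2 := a0.anti hst
      rw [← hKp] at k1
      have k3 : Kp * (s - t) ≤ Kp * l := mul_le_mul_of_nonneg_left (by linarith) hK.le
      linarith
  have main : ε / 2 * l ≤ ∫ s in v.A..v.B, (iter c q v (k + 1) s - iter c q v k s) := by
    have hf : Continuous fun s => iter c q v (k + 1) s - iter c q v k s := a1.cont.sub a0.cont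
    have h0 : ∀ s, 0 ≤ iter c q v (k + 1) s - iter c q v k s :=
      fun s => sub_nonneg.2 ((h.adm_iter k).2 s)
    have := h.len0
    rcases le_total (t + l) v.B with h1 | h1
    · exact e5_low hf h0 hl0.le hA h1 fun s s1 s2 => low s (abs_le.2 ⟨by linarith, by linarith⟩)
    · exact e5_low (a := t - l) hf h0 hl0.le (by linarith) (by linarith)
        fun s s1 s2 => low s (abs_le.2 ⟨by linarith, by linarith⟩)
  have k1 := h.e5_bound k
  have k2 := mul_le_mul_of_nonneg_left main (show (0 : ℝ) ≤ (k : ℝ) + 1 by positivity)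
  have hp : 0 < ε / 2 * l := by positivity
  rw [div_lt_iff₀ hp] at hk
  nlinarith

end Vale.Agent.P209
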