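import Vale.Agent.P209.E5

/-! The two queues over a parameter space.

Continuity: `sig` by `intervalIntegral.continuous_parametric_intervalIntegral_of_continuous` (or a change of
variables to `[0, 1]`), then `fifo_cont` for `R` and for `L`, induction on `k`.
`loop_seq`: `k` from `iter_close`, `P = iter k`. `aL i x = fA ..`, `hL i x t = (fH .. t) ^ (1 / d)` (real power,
`Real.rpow_natCast_inv_natCast_pow`-type lemmas, `Real.pow_rpow_inv_natCast`). For `R`:
`aR i x s = -(fA .. s) - cl ρ s`, `hR i x t = (fH .. (-t)) ^ (1 / d)`. Containment: `L_end`, `R_end`, `peaked`,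
`tA_le`, `tA_ge`. `star`: `tH_star` for `s ≤ ρ`, trivial for `s > ρ`. The sum is `feasible`. -/

namespace Vale.Agent.P209

open Finset

variable {c : Num} {q : Qs} {X : Type} [TopologicalSpace X] {v : X → Var}

theorem E8_sig (hv : VCont v) : Continuous fun p : X × ℝ => sig c q (v p.1) p.2 := by
  have hG : Continuous fun p : X × ℝ => ∫ t in (0 : ℝ)..p.2, (v p.1).V t :=
    intervalIntegral.continuous_parametric_primitive_of_continuous (f := fun x t => (v x).V t) hv.cV
  have hB : Continuous fun p : X × ℝ => ∫ t in (0 : ℝ)..(v p.1).B, (v p.1).V t :=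
    hG.comp (continuous_fst.prodMk (hv.cB.comp continuous_fst))
  have e : ∀ p : X × ℝ, ∫ t in p.2..(v p.1).B, (v p.1).V t =
      (∫ t in (0 : ℝ)..(v p.1).B, (v p.1).V t) - ∫ t in (0 : ℝ)..p.2, (v p.1).V t := fun p => by
    have hc : Continuous (v p.1).V := hv.cV.comp (continuous_const.prodMk continuous_id)
    exact (intervalIntegral.integral_interval_sub_left (hc.intervalIntegrable _ _)
      (hc.intervalIntegrable _ _)).symm
  have hM : Continuous fun x => Mm c q (v x) := by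
    unfold Mm mass
    exact ((continuous_finsetSum _ fun i _ => ((hv.cR i).pow _).div_const _).add
      continuous_const).sub continuous_const
  simp only [sig, e]
  exact continuous_const.max (continuous_const.min
    (((hM.comp continuous_fst).sub (hB.sub hG)).div_const _))

theorem E8_pmin (hv : VCont v) : Continuous fun p : X × ℝ => pmin c (v p.1) p.2 := by
  have h1 : Continuous fun p : ℝ × ℝ => max 0 (min c.κ (c.κ * (p.1 - 2 * c.r + c.r - p.2) / c.r)) := by
    fun_prop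
  exact h1.comp ((hv.cB.comp continuous_fst).prodMk continuous_snd)

theorem E8_step (h : ∀ x, (v x).Ok c q) (hv : VCont v) {P : X → ℝ → ℝ} (hP : ∀ x, Adm c (v x) (P x))
    (hc : Continuous fun p : X × ℝ => P p.1 p.2) :
    (Continuous fun p : X × ℝ => step c q (v p.1) (P p.1) p.2) ∧
      (Continuous fun p : X × ℝ => CR c q (v p.1) (P p.1) p.2) ∧
      Continuous fun p : X × ℝ => CL c q (v p.1) (P p.1) p.2 := by
  have hn : Continuous fun p : X × ℝ => (p.1, -p.2) := by fun_prop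
  have hs := E8_sig (c := c) (q := q) hv
  have h1 : Continuous fun p : X × ℝ => CR c q (v p.1) (P p.1) p.2 :=
    ((continuous_const.max (hv.cV.mul hs)).min (hv.cV.sub hc)).comp hn
  have h2 : Continuous fun p : X × ℝ => SR c q (v p.1) (P p.1) (range q.NR) p.2 :=
    (continuous_finsetSum (range q.NR) fun i _ => (fifo_cont (A := fun x => -(v x).B)
      (C := fun x => CR c q (v x) (P x)) (ρ := fun x => (v x).ρR) (fun x => (h x).fokR (hP x))
      hv.cB.neg hv.cR h1 i).2.1).comp hn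
  have h3 : Continuous fun p : X × ℝ => CL c q (v p.1) (P p.1) p.2 :=
    (continuous_const.max (hv.cV.mul (continuous_const.sub hs))).min
      (hv.cV.sub (continuous_const.min h2))
  have h4 : Continuous fun p : X × ℝ => SL c q (v p.1) (P p.1) (range q.NL) p.2 :=
    continuous_finsetSum (range q.NL) fun i _ => (fifo_cont (A := fun x => (v x).A)
      (C := fun x => CL c q (v x) (P x)) (ρ := fun x => (v x).ρL) (fun x => (h x).fokL (hP x))
      hv.cA hv.cL h3 i).2.1
  exact ⟨(continuous_const.min h4).max (E8_pmin hv), h1, h3⟩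

theorem E8_iter (h : ∀ x, (v x).Ok c q) (hv : VCont v) (k : ℕ) :
    Continuous fun p : X × ℝ => iter c q (v p.1) k p.2 := by
  induction k with
  | zero => exact E8_pmin hv
  | succ k ih =>
    exact (E8_step h hv (P := fun x => iter c q (v x) k) (fun x => ((h x).adm_iter k).1) ih).1

theorem iter_cont (h : ∀ x, (v x).Ok c q) (hv : VCont v) (k : ℕ) :
    (Continuous fun p : X × ℝ => iter c q (v p.1) k p.2) ∧
      (Continuous fun p : X × ℝ => CR c q (v p.1) (iter c q (v p.1) k) p.2) ∧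
      Continuous fun p : X × ℝ => CL c q (v p.1) (iter c q (v p.1) k) p.2 :=
  ⟨E8_iter h hv k, (E8_step h hv (P := fun x => iter c q (v x) k)
    (fun x => ((h x).adm_iter k).1) (E8_iter h hv k)).2⟩

section
variable {d N : ℕ} {r : ℝ} {A B : X → ℝ} {C : X → ℝ → ℝ} {ρ : X → ℕ → ℝ}

theorem E8_end (h : ∀ x, FOk d r (A x) (C x) (ρ x))
    (he : ∀ x, ∃ t, A x ≤ t ∧ t + r ≤ B x ∧ fS d (A x) (C x) (ρ x) (range N) t < C x t) {i : ℕ}
    (hi : i < N) (x : X) (s : ℝ) : fA d (A x) (C x) (ρ x) i s + r ≤ B x := by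
  obtain ⟨t, h1, h2, h3⟩ := he x
  have h4 : fA d (A x) (C x) (ρ x) i s ≤ t := ((h x).tok i).tA_le h1 ((h x).peaked h1 h3 hi) s
  linarith

theorem E8_left (h : ∀ x, FOk d r (A x) (C x) (ρ x)) (hA : Continuous A)
    (hρ : ∀ i, Continuous fun x => ρ x i) (hC : Continuous fun p : X × ℝ => C p.1 p.2)
    (he : ∀ x, ∃ t, A x ≤ t ∧ t + r ≤ B x ∧ fS d (A x) (C x) (ρ x) (range N) t < C x t) {i : ℕ}
    (hi : i < N) : Tents A B (fun x => ρ x i) (fun x => fA d (A x) (C x) (ρ x) i)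
      fun x t => fH d (A x) (C x) (ρ x) i t ^ ((d : ℝ)⁻¹) := by
  have hd : (0 : ℝ) ≤ (d : ℝ)⁻¹ := by positivity
  obtain ⟨c1, -, c2⟩ := fifo_cont h hA hρ hC i
  have h0 : ∀ x t, 0 ≤ fH d (A x) (C x) (ρ x) i t ^ ((d : ℝ)⁻¹) := fun x t =>
    Real.rpow_nonneg (((h x).tok i).tH_mem t).1 _
  refine ⟨c1, c2.rpow_const fun _ => Or.inr hd, fun x s s' hs => (((h x).tok i).tA_lip hs).1,
    fun x s s' hs => ?_, fun x s => ((h x).tok i).tA_ge s, fun x s => ?_, fun x s _ hs => ?_, h0,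
    fun x t => ?_, fun x s t h1 h2 h3 => ?_⟩
  · have k1 : fA d (A x) (C x) (ρ x) i s ≤ fA d (A x) (C x) (ρ x) i s' + _ :=
      (((h x).tok i).tA_lip hs).2
    have k2 := (Tent_cl_lip (ρ x i) hs).2
    change fA d (A x) (C x) (ρ x) i s + s ≤ fA d (A x) (C x) (ρ x) i s' + s'
    linarith
  · linarith [E8_end h he hi x s, (h x).hr]
  · linarith [E8_end h he hi x s, ((h x).size i).2]
  · have k := (h x).tok i
    refine (Real.rpow_le_rpow (k.tH_mem t).1 ((k.tH_mem t).2.trans (k.tD_mem t).2) hd).trans ?_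
    rw [Real.pow_rpow_inv_natCast k.h0 (Nat.one_le_iff_ne_zero.1 k.hd)]
  · have k := (h x).tok i
    rcases le_total s (ρ x i) with h4 | h4
    · have k1 := Real.rpow_le_rpow (pow_nonneg (sub_nonneg.2 h4) d) (k.tH_star h1 h4 h2 h3) hd
      rwa [Real.pow_rpow_inv_natCast (sub_nonneg.2 h4) (Nat.one_le_iff_ne_zero.1 k.hd)] at k1
    · exact (sub_nonpos.2 h4).trans (h0 x t)

theorem E8_right (h : ∀ x, FOk d r (-B x) (C x) (ρ x)) (hB : Continuous B)
    (hρ : ∀ i, Continuous fun x => ρ x i) (hC : Continuous fun p : X × ℝ => C p.1 p.2)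
    (he : ∀ x, ∃ t, -B x ≤ t ∧ t + r ≤ -A x ∧ fS d (-B x) (C x) (ρ x) (range N) t < C x t) {i : ℕ}
    (hi : i < N) : Tents A B (fun x => ρ x i)
      (fun x s => -fA d (-B x) (C x) (ρ x) i s - cl (ρ x i) s)
      fun x t => fH d (-B x) (C x) (ρ x) i (-t) ^ ((d : ℝ)⁻¹) := by
  have T := E8_left (A := fun x => -B x) (B := fun x => -A x) h hB.neg hρ hC he hi
  have hn : Continuous fun p : X × ℝ => (p.1, -p.2) := by fun_prop
  have hcl : Continuous fun p : X × ℝ => cl (ρ p.1 i) p.2 :=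
    continuous_const.max (continuous_snd.min ((hρ i).comp continuous_fst))
  refine ⟨T.ca.neg.sub hcl, T.ch.comp hn, fun x s s' hs => ?_, fun x s s' hs => ?_,
    fun x s => ?_, fun x s => ?_, fun x s h1 h2 => ?_, fun x t => T.h0 x _, fun x t => T.h1 x _,
    fun x s t h1 h2 h3 => ?_⟩
  · have k1 : fA d (-B x) (C x) (ρ x) i s ≤ fA d (-B x) (C x) (ρ x) i s' + _ :=
      (((h x).tok i).tA_lip hs).2
    have k2 := (Tent_cl_lip (ρ x i) hs).1
    change -fA d (-B x) (C x) (ρ x) i s' - cl (ρ x i) s' ≤ -fA d (-B x) (C x) (ρ x) i s - _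
    linarith
  · have k1 : fA d (-B x) (C x) (ρ x) i s' ≤ fA d (-B x) (C x) (ρ x) i s := T.anti x hs
    have k2 := (Tent_cl_lip (ρ x i) hs).2
    change -fA d (-B x) (C x) (ρ x) i s - cl (ρ x i) s + s ≤
      -fA d (-B x) (C x) (ρ x) i s' - cl (ρ x i) s' + s'
    linarith
  · have k1 := E8_end (A := fun x => -B x) (B := fun x => -A x) h he hi x s
    linarith [(Tent_cl ((h x).size i).1 s).2, ((h x).size i).2]
  · linarith [(Tent_cl ((h x).size i).1 s).1, T.lo x s]
  · rw [Tent_cl_eq h1 h2]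
    linarith [T.lo x s]
  · rcases le_total s (ρ x i) with h4 | h4
    · rw [Tent_cl_eq h1 h4] at h2 h3
      exact T.star x s (-t) h1 (by linarith) (by linarith)
    · exact (sub_nonpos.2 h4).trans (T.h0 x _)

omit [TopologicalSpace X] in
theorem E8_sum {A : ℝ} {C : ℝ → ℝ} {ρ : ℕ → ℝ} (h : FOk d r A C ρ) (s : Finset ℕ) (t : ℝ) :
    ∑ i ∈ s, (fH d A C ρ i t ^ ((d : ℝ)⁻¹)) ^ d = fP d A C ρ s t :=
  sum_congr rfl fun i _ => Real.rpow_inv_natCast_pow ((h.tok i).tH_mem t).1
    (Nat.one_le_iff_ne_zero.1 h.hd)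

end

theorem loop_seq (hc : c.Ok) (h : ∀ x, (v x).Ok c q) (hv : VCont v) {ε : ℝ} (hε : 0 < ε) :
    ∃ aL hL aR hR : ℕ → X → ℝ → ℝ,
      (∀ i < q.NL, Tents (fun x => (v x).A) (fun x => (v x).B) (fun x => (v x).ρL i) (aL i) (hL i)) ∧
      (∀ i < q.NR, Tents (fun x => (v x).A) (fun x => (v x).B) (fun x => (v x).ρR i) (aR i) (hR i)) ∧
      ∀ x t, (v x).A ≤ t → t ≤ (v x).B →
        ∑ i ∈ range q.NL, hL i x t ^ c.d + ∑ i ∈ range q.NR, hR i x t ^ c.d ≤ (v x).V t + ε := by
  obtain ⟨k, hk⟩ := iter_close hc hε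
  obtain ⟨-, c1, c2⟩ := iter_cont h hv k
  have ha := fun x => ((h x).adm_iter k).1
  refine ⟨_, _, _, _, fun i hi => E8_left (C := fun x => CL c q (v x) (iter c q (v x) k))
    (ρ := fun x => (v x).ρL) (fun x => (h x).fokL (ha x)) hv.cA hv.cL c2
    (fun x => (h x).L_end (ha x) ((h x).adm_iter k).2) hi,
    fun i hi => E8_right (C := fun x => CR c q (v x) (iter c q (v x) k))
    (ρ := fun x => (v x).ρR) (fun x => (h x).fokR (ha x)) hv.cB hv.cR c1 (fun x => ?_) hi,
    fun x t h0 h1 => ?_⟩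
  · obtain ⟨t, h1, h2, h3⟩ := (h x).R_end (ha x)
    exact ⟨-t, neg_le_neg h2, by linarith, h3⟩
  · rw [E8_sum ((h x).fokL (ha x)), E8_sum ((h x).fokR (ha x))]
    exact (h x).feasible (ha x) hε.le h0 h1 (hk q _ (h x) t h0 h1)

end Vale.Agent.P209
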