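import Mathlib

/-! Tents served one after the other under a capacity function.

A tent of size `ρ` and exponent `d` is a nested family of intervals `[a s, a s + s]`, `0 ≤ s ≤ ρ`; its
height at `t` is `ρ - s` for the least `s` whose interval contains `t`; it occupies `height ^ d`.
`W` is the free capacity when all earlier tents count in full until their peak. -/

namespace Vale.Agent.P209

open Finset

noncomputable section

/-- First time after `A` at which `F` reaches `u`. -/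
def hit (A : ℝ) (F : ℝ → ℝ) (u : ℝ) : ℝ := sInf {t | A ≤ t ∧ u ≤ F t}

/-- After `A`, the function `F` grows with speed `l` until it reaches `w`, and stays above `w` then. -/
def Grow (A w l : ℝ) (F : ℝ → ℝ) : Prop :=
  ∀ t t', A ≤ t → t ≤ t' → min w (F t + l * (t' - t)) ≤ F t'

def cl (ρ s : ℝ) : ℝ := max 0 (min s ρ)

/-- Left end of the interval of length `s`. -/
def tA (d : ℕ) (A ρ : ℝ) (W : ℝ → ℝ) (s : ℝ) : ℝ := hit A W ((ρ - cl ρ s) ^ d)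

/-- Occupancy: full before the peak, decreasing after it. -/
def tD (d : ℕ) (A ρ : ℝ) (W : ℝ → ℝ) (t : ℝ) : ℝ :=
  (ρ - min (hit 0 (fun s => tA d A ρ W s + s) t) ρ) ^ d

/-- True occupancy. -/
def tH (d : ℕ) (A ρ : ℝ) (W : ℝ → ℝ) (t : ℝ) : ℝ := min (max (W t) 0) (tD d A ρ W t)

structure TOk (d : ℕ) (r A ρ : ℝ) (W : ℝ → ℝ) : Prop where
  hd : 1 ≤ d
  hr : 0 < r
  h0 : 0 ≤ ρ
  h1 : ρ ≤ r
  cont : Continuous W
  grow : Grow A (r ^ d) (2 * d * r ^ (d - 1)) W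

def fW (d : ℕ) (A : ℝ) (C : ℝ → ℝ) (ρ : ℕ → ℝ) : ℕ → ℝ → ℝ
  | 0 => C
  | i + 1 => fun t => fW d A C ρ i t - tD d A (ρ i) (fW d A C ρ i) t

def fA (d : ℕ) (A : ℝ) (C : ℝ → ℝ) (ρ : ℕ → ℝ) (i : ℕ) : ℝ → ℝ := tA d A (ρ i) (fW d A C ρ i)

def fD (d : ℕ) (A : ℝ) (C : ℝ → ℝ) (ρ : ℕ → ℝ) (i : ℕ) : ℝ → ℝ := tD d A (ρ i) (fW d A C ρ i)

def fH (d : ℕ) (A : ℝ) (C : ℝ → ℝ) (ρ : ℕ → ℝ) (i : ℕ) : ℝ → ℝ := tH d A (ρ i) (fW d A C ρ i)

def fS (d : ℕ) (A : ℝ) (C : ℝ → ℝ) (ρ : ℕ → ℝ) (s : Finset ℕ) (t : ℝ) : ℝ := ∑ i ∈ s, fD d A C ρ i t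

def fP (d : ℕ) (A : ℝ) (C : ℝ → ℝ) (ρ : ℕ → ℝ) (s : Finset ℕ) (t : ℝ) : ℝ := ∑ i ∈ s, fH d A C ρ i t

def mass {ι : Type} (d : ℕ) (ρ : ι → ℝ) (s : Finset ι) : ℝ := ∑ i ∈ s, ρ i ^ (d + 1) / (d + 1)

/-- `(2 d + 1) r ^ (d - 1)`. -/
def nu (d : ℕ) (r : ℝ) : ℝ := (2 * d + 1) * r ^ (d - 1)

/-- A capacity that does not drop faster than the tents under it can leave. -/
structure Cap (d : ℕ) (r A : ℝ) (C : ℝ → ℝ) : Prop where
  cont : Continuous C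
  nonneg : ∀ t, A ≤ t → 0 ≤ C t
  slow : ∀ t Δ, A ≤ t → 0 ≤ Δ → Δ ≤ r → C t * (1 - Δ / r) + nu d r * Δ ≤ C (t + Δ)

structure FOk (d : ℕ) (r A : ℝ) (C : ℝ → ℝ) (ρ : ℕ → ℝ) : Prop where
  hd : 1 ≤ d
  hr : 0 < r
  cap : Cap d r A C
  size : ∀ i, 0 ≤ ρ i ∧ ρ i ≤ r

/-- A family of tents over the parameter space `X`, inside `[A, B]`, with upper bound `h` for the height. -/
structure Tents {X : Type} [TopologicalSpace X] (A B ρ : X → ℝ) (a h : X → ℝ → ℝ) : Prop where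
  ca : Continuous fun p : X × ℝ => a p.1 p.2
  ch : Continuous fun p : X × ℝ => h p.1 p.2
  anti : ∀ x, Antitone (a x)
  mono : ∀ x, Monotone fun s => a x s + s
  lo : ∀ x s, A x ≤ a x s
  hi : ∀ x s, a x s ≤ B x
  fit : ∀ x s, 0 ≤ s → s ≤ ρ x → a x s + s ≤ B x
  h0 : ∀ x t, 0 ≤ h x t
  h1 : ∀ x t, h x t ≤ ρ x
  star : ∀ x s t, 0 ≤ s → a x s ≤ t → t ≤ a x s + s → ρ x - s ≤ h x t

inductive Role
  | ob | lo | lf | rb | rf
  deriving DecidableEq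

end

end Vale.Agent.P209
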