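import Vale.Agent.P209.Tent

/-! The queue of tents.

`FOk.tok`: strong induction on `i`. `fW i = C - ∑ k < i, fD k` is continuous. For `grow_of_local` let
`fW i t ≤ r ^ d`. Call `k` peaked if `ρ k ^ d ≤ fW k t`. There is `m ≤ i` with all `k < m` peaked and
`fW m t ≤ r ^ d` (the least index that is not peaked, or `i`). So `∑ k < m, fD k t ≥ C t - r ^ d`, these terms
decay (`tD_decay`), the others do not grow (`tD_lip`), and `Cap.slow` gives speed
`nu - r ^ d / r = 2 d r ^ (d - 1)`.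
`fP_eq`: induction, `∑ k < i, fH k t = C t - max (fW i t) 0`. `fD_mono`: induction on `fW' ≤ fW`, `tD_mono`.
`peaked`: `fW (i + 1) t ≥ fW N t > 0` and `tD_full`. `tight`: `Grow` for `fW N`.
`fS_lip`: a tent with `ρ i = 0` has `fD = 0` (`tD_mem`). -/

namespace Vale.Agent.P209

open Finset

variable {d : ℕ} {r A t t' : ℝ} {C C' : ℝ → ℝ} {ρ : ℕ → ℝ} {N : ℕ}

theorem fW_eq (d : ℕ) (A : ℝ) (C : ℝ → ℝ) (ρ : ℕ → ℝ) (N : ℕ) (t : ℝ) :
    fW d A C ρ N t = C t - fS d A C ρ (range N) t := by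
  induction N with
  | zero => simp [fW, fS]
  | succ n ih =>
    have h1 : fW d A C ρ (n + 1) t = fW d A C ρ n t - fD d A C ρ n t := rfl
    rw [h1, ih]
    unfold fS
    rw [sum_range_succ]
    ring

theorem FOk.tok (h : FOk d r A C ρ) (i : ℕ) : TOk d r A (ρ i) (fW d A C ρ i) := by
  induction i using Nat.strong_induction_on with
  | _ i ih =>
  have hd := h.hd
  have hr := h.hr
  have hc : Continuous (fW d A C ρ i) := by
    have e : fW d A C ρ i = fun t => C t - ∑ k ∈ range i, fD d A C ρ k t :=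
      funext fun t => fW_eq d A C ρ i t
    rw [e]
    exact h.cap.cont.sub (continuous_finsetSum _ fun k hk => (ih k (mem_range.1 hk)).tD_cont)
  have hd0 : (0 : ℝ) < d := by exact_mod_cast hd
  refine ⟨hd, hr, (h.size i).1, (h.size i).2, hc,
    grow_of_local hc hr (by positivity) fun t Δ ht h0 h1 hw => ?_⟩
  obtain ⟨m, hm, hp, hmw⟩ : ∃ m ≤ i, (∀ k < m, ρ k ^ d ≤ fW d A C ρ k t) ∧
      fW d A C ρ m t ≤ r ^ d := by
    by_cases ha : ∃ k, k < i ∧ fW d A C ρ k t < ρ k ^ d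
    · classical
      have h2 := Nat.find_spec ha
      refine ⟨Nat.find ha, h2.1.le, fun k hk => ?_,
        h2.2.le.trans (pow_le_pow_left₀ (h.size _).1 (h.size _).2 d)⟩
      by_contra h3
      exact Nat.find_min ha hk ⟨hk.trans h2.1, not_le.1 h3⟩
    · exact ⟨i, le_rfl, fun k hk => not_lt.1 fun h3 => ha ⟨k, hk, h3⟩, hw⟩
  have e1 : ∀ τ, fW d A C ρ i τ =
      C τ - (∑ k ∈ range m, fD d A C ρ k τ + ∑ k ∈ Ico m i, fD d A C ρ k τ) := fun τ => by
    rw [sum_range_add_sum_Ico _ hm]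
    exact fW_eq d A C ρ i τ
  have e2 : fW d A C ρ m t = C t - ∑ k ∈ range m, fD d A C ρ k t := fW_eq d A C ρ m t
  have a1 : ∑ k ∈ range m, fD d A C ρ k (t + Δ) ≤ (∑ k ∈ range m, fD d A C ρ k t) * (1 - Δ / r) := by
    rw [sum_mul]
    exact sum_le_sum fun k hk =>
      (ih k ((mem_range.1 hk).trans_le hm)).tD_decay ht (hp k (mem_range.1 hk)) h0 h1
  have a2 : ∑ k ∈ Ico m i, fD d A C ρ k (t + Δ) ≤ ∑ k ∈ Ico m i, fD d A C ρ k t :=
    sum_le_sum fun k hk => ((ih k (mem_Ico.1 hk).2).tD_lip (by linarith)).1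
  have a3 := h.cap.slow t Δ ht h0 h1
  have a4 : r ^ d * (Δ / r) = r ^ (d - 1) * Δ := by
    obtain ⟨e, rfl⟩ : ∃ e, d = e + 1 := ⟨d - 1, by omega⟩
    rw [Nat.add_sub_cancel, pow_succ]
    field_simp
  have a5 : fW d A C ρ m t * (Δ / r) ≤ r ^ d * (Δ / r) :=
    mul_le_mul_of_nonneg_right hmw (by positivity)
  rw [e1, e1]
  rw [e2, a4] at a5
  unfold nu at a3
  nlinarith

theorem FOk.fP_eq (h : FOk d r A C ρ) (N : ℕ) (ht : A ≤ t) :
    fP d A C ρ (range N) t = min (C t) (fS d A C ρ (range N) t) := by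
  have key : ∀ i, fP d A C ρ (range i) t = C t - max (fW d A C ρ i t) 0 := fun i => by
    induction i with
    | zero =>
      have : fW d A C ρ 0 t = C t := rfl
      rw [this, max_eq_left (h.cap.nonneg t ht)]
      simp [fP]
    | succ n ih =>
      have h1 : fW d A C ρ (n + 1) t = fW d A C ρ n t - fD d A C ρ n t := rfl
      have h2 : fH d A C ρ n t = min (max (fW d A C ρ n t) 0) (fD d A C ρ n t) := rfl
      have h3 : 0 ≤ fD d A C ρ n t := ((h.tok n).tD_mem t).1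
      unfold fP at ih ⊢
      rw [sum_range_succ, ih, h1, h2]
      simp only [max_def, min_def]
      split_ifs <;> linarith
  rw [key, fW_eq]
  simp only [max_def, min_def]
  split_ifs <;> linarith

theorem FOk.fD_mono (h : FOk d r A C ρ) (h' : FOk d r A C' ρ) (hC : ∀ t, A ≤ t → C' t ≤ C t) (i : ℕ)
    (t : ℝ) : fD d A C ρ i t ≤ fD d A C' ρ i t := by
  have key : ∀ i t, A ≤ t → fW d A C' ρ i t ≤ fW d A C ρ i t := fun i => by
    induction i with
    | zero => exact hC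
    | succ n ih =>
      exact fun t ht => sub_le_sub (ih t ht) ((h.tok n).tD_mono (h'.tok n) ih t)
  exact (h.tok i).tD_mono (h'.tok i) (key i) t

theorem FOk.peaked (h : FOk d r A C ρ) (ht : A ≤ t) (hS : fS d A C ρ (range N) t < C t) {i : ℕ}
    (hi : i < N) : ρ i ^ d ≤ fW d A C ρ i t := by
  by_contra hc
  have h1 : fD d A C ρ i t = ρ i ^ d := (h.tok i).tD_full ht (not_le.1 hc)
  have h2 : fW d A C ρ (i + 1) t = fW d A C ρ i t - fD d A C ρ i t := rfl
  have h3 : fS d A C ρ (range (i + 1)) t ≤ fS d A C ρ (range N) t :=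
    sum_le_sum_of_subset_of_nonneg (range_subset_range.2 hi) fun k _ _ => ((h.tok k).tD_mem t).1
  have h4 := fW_eq d A C ρ (i + 1) t
  linarith [not_le.1 hc]

theorem FOk.tight (h : FOk d r A C ρ) (ht : A ≤ t) (ht' : t ≤ t')
    (hS : C t' ≤ fS d A C ρ (range N) t') : C t ≤ fS d A C ρ (range N) t := by
  by_contra hc
  have h1 := (h.tok N).grow t t' ht ht'
  rw [fW_eq, fW_eq] at h1
  have hr := h.hr
  have h2 : 0 ≤ 2 * d * r ^ (d - 1) * (t' - t) := mul_nonneg (by positivity) (sub_nonneg.2 ht')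
  have h3 : 0 < min (r ^ d) (C t - fS d A C ρ (range N) t + 2 * d * r ^ (d - 1) * (t' - t)) :=
    lt_min (by positivity) (by linarith [not_le.1 hc])
  linarith

theorem FOk.fS_nonneg (h : FOk d r A C ρ) (s : Finset ℕ) (t : ℝ) : 0 ≤ fS d A C ρ s t := by
  exact sum_nonneg fun k _ => ((h.tok k).tD_mem t).1

theorem FOk.fS_cont (h : FOk d r A C ρ) (s : Finset ℕ) : Continuous (fS d A C ρ s) := by
  exact continuous_finsetSum s fun k _ => (h.tok k).tD_cont

theorem FOk.fS_lip (h : FOk d r A C ρ) (s : Finset ℕ) {c : ℕ}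
    (hc : (s.filter fun i => 0 < ρ i).card ≤ c) (ht : t ≤ t') :
    fS d A C ρ s t' ≤ fS d A C ρ s t ∧
      fS d A C ρ s t ≤ fS d A C ρ s t' + 2 * d * r ^ (d - 1) * c * (t' - t) := by
  refine ⟨sum_le_sum fun k _ => ((h.tok k).tD_lip ht).1, ?_⟩
  have hr := h.hr
  have h2 : 0 ≤ 2 * d * r ^ (d - 1) * (t' - t) := mul_nonneg (by positivity) (sub_nonneg.2 ht)
  have h1 : ∀ k ∈ s, fD d A C ρ k t ≤
      fD d A C ρ k t' + if 0 < ρ k then 2 * d * r ^ (d - 1) * (t' - t) else 0 := fun k _ => by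
    split_ifs with h0
    · exact ((h.tok k).tD_lip ht).2
    · have h3 : ρ k = 0 := le_antisymm (not_lt.1 h0) (h.size k).1
      have h4 : fD d A C ρ k t ≤ ρ k ^ d := ((h.tok k).tD_mem t).2
      have h5 : 0 ≤ fD d A C ρ k t' := ((h.tok k).tD_mem t').1
      rw [h3, zero_pow (by have := h.hd; omega)] at h4
      linarith
  have h3 := sum_le_sum h1
  rw [sum_add_distrib, ← sum_filter, sum_const, nsmul_eq_mul] at h3
  have h4 : ((s.filter fun i => 0 < ρ i).card : ℝ) ≤ c := by exact_mod_cast hc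
  have h5 := mul_le_mul_of_nonneg_right h4 h2
  unfold fS
  linarith

theorem fifo_cont {X : Type} [TopologicalSpace X] {A : X → ℝ} {C : X → ℝ → ℝ} {ρ : X → ℕ → ℝ}
    (h : ∀ x, FOk d r (A x) (C x) (ρ x)) (hA : Continuous A) (hρ : ∀ i, Continuous fun x => ρ x i)
    (hC : Continuous fun p : X × ℝ => C p.1 p.2) (i : ℕ) :
    (Continuous fun p : X × ℝ => fA d (A p.1) (C p.1) (ρ p.1) i p.2) ∧
      (Continuous fun p : X × ℝ => fD d (A p.1) (C p.1) (ρ p.1) i p.2) ∧
      Continuous fun p : X × ℝ => fH d (A p.1) (C p.1) (ρ p.1) i p.2 := by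
  have key : ∀ i, Continuous fun p : X × ℝ => fW d (A p.1) (C p.1) (ρ p.1) i p.2 := fun i => by
    induction i with
    | zero => exact hC
    | succ n ih =>
      exact ih.sub (tent_cont (W := fun x => fW d (A x) (C x) (ρ x) n) (fun x => (h x).tok n) hA
        (hρ n) ih).2
  have h1 := tent_cont (W := fun x => fW d (A x) (C x) (ρ x) i) (fun x => (h x).tok i) hA
    (hρ i) (key i)
  exact ⟨h1.1, h1.2, ((key i).max continuous_const).min h1.2⟩

end Vale.Agent.P209
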