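import Vale.Agent.P209.Base
import Vale.Agent.P209.FDefs

/-! Pitman-Stanley pieces of the simplex, reserves, and the state of the induction over coordinates. -/

namespace Vale.Agent.P209

open Finset

noncomputable section

/-- Volume of `{t ≤ y (j + 1) ≤ ... ≤ y (j + k), y l ≤ C l}`. -/
def gon (C : ℕ → ℝ) : ℕ → ℕ → ℝ → ℝ
  | 0, _, _ => 1
  | k + 1, j, t => ∫ u in t..C (j + 1), gon C k (j + 1) u

/-- `pv x 0 = 0`, `pv x (l + 1) = x l`. -/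
def pv {n : ℕ} (x : Fin n → ℝ) (l : ℕ) : ℝ := if h : 0 < l ∧ l ≤ n then x ⟨l - 1, by omega⟩ else 0

def PS (n : ℕ) (C : ℕ → ℝ) : Set (Fin n → ℝ) := {x | ∀ l : Fin n, pv x l ≤ x l ∧ x l ≤ C (l + 1)}

def ix (n k : ℕ) : Fin (n + 1) := ⟨k % (n + 1), Nat.mod_lt _ (Nat.succ_pos n)⟩

/-- Cyclic cumulative sums that start after `m`. -/
def cs {n : ℕ} (c : Fin (n + 1) → ℝ) (m : Fin (n + 1)) (l : ℕ) : ℝ :=
  ∑ j ∈ range l, c (ix n (m + 1 + j))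

def bary {n : ℕ} (T : ℝ) (y : Fin n → ℝ) : Fin (n + 1) → ℝ := Fin.cons (T - ∑ k, y k) y

def Cell {n : ℕ} (c : Fin (n + 1) → ℝ) (m : Fin (n + 1)) : Set (Fin n → ℝ) :=
  {y | (∀ k, 0 < y k) ∧ ∑ k, y k < 1 ∧ ∀ l, 1 ≤ l → l ≤ n → cs (bary 1 y) m l < cs c m l}

/-- `f` sees only the coordinates `< j`. -/
def Dep {Y : Type} (j : ℕ) (f : (ℕ → ℝ) → Y) : Prop := ∀ x y, (∀ l, l < j → x l = y l) → f x = f y

def pn (x : ℕ → ℝ) : ℕ → ℝ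
  | 0 => 0
  | l + 1 => x l

def roleAt {ι : Type} (lev : ι → ℕ) (role : ι → Role) (j : ℕ) (i : ι) : Role :=
  if j < lev i then .ob else if j = lev i then role i else .lo

/-- Reserves: ball `i` is an obstacle with site `ζ i l` at the levels `l < lev i`, has role `role i` at level
`lev i`, and is ordinary later. -/
structure Asg {ι : Type} [Fintype ι] (n : ℕ) (Λ c0 τ Γ r : ℝ) (rr : ι → ℝ) (lev : ι → ℕ)
    (role : ι → Role) (ζ : ι → ℕ → ℝ) : Prop where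
  nob : ∀ i, role i ≠ .ob
  z01 : ∀ i l, 0 ≤ ζ i l ∧ ζ i l ≤ 1
  lo : ∀ j, j + 1 < n → ∀ p, p = Role.lf ∨ p = Role.rf ∨ p = Role.rb → ∀ u : ℕ → ℝ,
    (∀ l, 0 ≤ u l ∧ u l ≤ 1) → ((n - j : ℕ) : ℝ) * (if p = Role.rb then τ else τ * r) ≤
      (univ.filter fun i => lev i = j ∧ role i = p ∧ r / Λ ≤ rr i ∧
        ∀ l ∈ range j, |u l - ζ i l| ≤ r / (4 * Λ * n)).card * (r / (2 * Λ)) ^ (n - j)
  hi : ∀ j, j + 1 < n → ∀ p, p = Role.lf ∨ p = Role.rf ∨ p = Role.rb → ∀ u : ℕ → ℝ,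
    ((univ.filter fun i => lev i = j ∧ role i = p ∧ ∀ l ∈ range j, |u l - ζ i l| ≤ r / c0).card : ℝ) *
      r ^ (n - j) ≤ if p = Role.rb then τ * Γ else τ * Γ * r
  obs : ∀ j : ℕ, j + 1 < n → ∀ u : ℕ → ℝ,
    ((univ.filter fun i : ι => j < lev i ∧ |u j - ζ i j| ≤ r / c0 ∧
      ∀ l ∈ range j, |u l - ζ i l| ≤ r / c0).card : ℝ) *
      r ^ (n - 1 - j) ≤ τ * Γ

/-- The smallness conditions. -/
structure Small (n : ℕ) (c0 τ Γ r : ℝ) : Prop where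
  hr : 0 < r
  rτ : r ≤ τ
  τ1 : τ ≤ 1
  hc0 : 0 < c0
  c1 : c0 ≤ 1
  hΓ : 0 < Γ
  s1 : n.factorial * r + 4 * n * (τ * Γ) ≤ c0 ^ n / 8
  s2 : 2 * r * ((n.factorial : ℝ) ^ 2 / τ + (2 * n + 1)) ≤ τ / 2
  s3 : 2 * n * (τ * Γ) + (2 * n + 1) * r ≤ c0 ^ n / 8
  s4 : 12 * r * n.factorial ≤ τ
  s5 : 8 * r ≤ c0
  s6 : 2 * (τ * Γ) + τ / 2 ≤ c0 ^ (n + 1) / 16

/-- The walls. -/
structure Walls (n : ℕ) (c0 : ℝ) (C : ℕ → ℝ) : Prop where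
  C0 : C 0 = 0
  gap : ∀ l, c0 ≤ C (l + 1) - C l
  C1 : C n ≤ 1

/-- State after the levels `< j`: `T` is the left wall, `ρ i` the remaining size, `u l` the relative
position at level `l`, `a i l` the valley at level `l`. -/
structure St {ι : Type} [Fintype ι] (n : ℕ) (c0 r : ℝ) (C : ℕ → ℝ) (rr : ι → ℝ) (lev : ι → ℕ)
    (ζ : ι → ℕ → ℝ) (j : ℕ) (T : (ℕ → ℝ) → ℝ) (ρ : ι → (ℕ → ℝ) → ℝ) (u : ℕ → (ℕ → ℝ) → ℝ)
    (a : ι → ℕ → (ℕ → ℝ) → ℝ → ℝ) : Prop where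
  cT : Continuous T
  dT : Dep j T
  T01 : ∀ x, 0 ≤ T x ∧ T x ≤ C j
  cρ : ∀ i, Continuous (ρ i)
  dρ : ∀ i, Dep j (ρ i)
  ρ01 : ∀ i x, 0 ≤ ρ i x ∧ ρ i x ≤ r
  vol : ∃ m, 0 < m ∧ ∀ x, ∑ i, ρ i x ^ (n - j) + m ≤ (n - j).factorial * gon C (n - j) j (T x)
  u01 : ∀ l x, 0 ≤ u l x ∧ u l x ≤ 1
  lo : ∀ i x, j ≤ lev i → rr i - 2 * ∑ l ∈ range j, |u l x - ζ i l| ≤ ρ i x
  hi : ∀ i x, j ≤ lev i → 0 < ρ i x → ∀ l ∈ range j, |u l x - ζ i l| ≤ r / c0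
  ca : ∀ i l, l < j → Continuous fun p : (ℕ → ℝ) × ℝ => a i l p.1 p.2
  da : ∀ i l, l < j → Dep l (a i l)
  anti : ∀ i l x, l < j → Antitone (a i l x)
  mono : ∀ i l x, l < j → Monotone fun s => a i l x s + s
  a01 : ∀ i l x s, l < j → 0 ≤ a i l x s ∧ a i l x s ≤ 1
  key : ∀ i x (η : ℕ → ℝ), (∀ l, l < j → 0 ≤ η l) → ∑ l ∈ range j, η l ≤ rr i →
    (∀ l, l < j → a i l x (η l) ≤ x l ∧ x l ≤ a i l x (η l) + η l) →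
    T x = pn x j ∧ rr i - ∑ l ∈ range j, η l ≤ ρ i x ∧ ∀ l, l < j → pn x l ≤ x l ∧ x l ≤ C (l + 1)

end

end Vale.Agent.P209
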