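import Vale.Agent.P209.GenDefs

/-! Generating functions in general, and the step function.

`gen_omega`: let `B = fderiv (fderiv S) p`, symmetric (`ContDiffAt.isSymmSndFDerivAt`). Write
`v = ∑ (v j).re e_j + (v j).im (I e_j)`, `v = vx + vη`. Then `omega (dG v) (dG w) = B v wη - B w vη` and
`omega (dH v) (dH w) = B w vx - B v wx`; both equal `B vx wη - B wx vη` by symmetry. -/

namespace Vale.Agent.P209

open scoped ContDiff
open Filter Topology

variable {n : ℕ}

theorem GenA_gG_eq (S : E n → ℝ) : gG S = fun p j =>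
    ((fderiv ℝ S p (Pi.single j Complex.I) : ℝ) : ℂ) + Complex.I * (((p j).im : ℝ) : ℂ) := by
  funext p j
  apply Complex.ext <;> simp [gG]

theorem GenA_gH_eq (S : E n → ℝ) : gH S = fun p j =>
    (((p j).re : ℝ) : ℂ) + Complex.I * ((fderiv ℝ S p (Pi.single j 1) : ℝ) : ℂ) := by
  funext p j
  apply Complex.ext <;> simp [gH]

theorem GenA_contDiff_D {S : E n → ℝ} (hS : ContDiff ℝ ∞ S) (u : E n) :
    ContDiff ℝ ∞ fun p => fderiv ℝ S p u :=
  (hS.fderiv_right (m := ∞) (by simp)).clm_apply contDiff_const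

theorem GenA_contDiff_re (j : Fin n) : ContDiff ℝ ∞ fun p : E n => (p j).re :=
  Complex.reCLM.contDiff.comp (contDiff_apply ℝ ℂ j)

theorem GenA_contDiff_im (j : Fin n) : ContDiff ℝ ∞ fun p : E n => (p j).im :=
  Complex.imCLM.contDiff.comp (contDiff_apply ℝ ℂ j)

theorem contDiff_gG {S : E n → ℝ} (hS : ContDiff ℝ ∞ S) : ContDiff ℝ ∞ (gG S) := by
  rw [GenA_gG_eq]
  refine contDiff_pi.2 fun j => ?_
  exact (Complex.ofRealCLM.contDiff.comp (GenA_contDiff_D hS _)).add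
    (contDiff_const.mul (Complex.ofRealCLM.contDiff.comp (GenA_contDiff_im j)))

theorem contDiff_gH {S : E n → ℝ} (hS : ContDiff ℝ ∞ S) : ContDiff ℝ ∞ (gH S) := by
  rw [GenA_gH_eq]
  refine contDiff_pi.2 fun j => ?_
  exact (Complex.ofRealCLM.contDiff.comp (GenA_contDiff_re j)).add
    (contDiff_const.mul (Complex.ofRealCLM.contDiff.comp (GenA_contDiff_D hS _)))

theorem GenA_hasFDerivAt_D {S : E n → ℝ} (hS : ContDiff ℝ ∞ S) (p u : E n) :
    HasFDerivAt (fun q => fderiv ℝ S q u) ((fderiv ℝ (fderiv ℝ S) p).flip u) p := by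
  have h1 : HasFDerivAt (fderiv ℝ S) (fderiv ℝ (fderiv ℝ S) p) p :=
    ((hS.fderiv_right (m := ∞) (by simp)).differentiable (by simp) p).hasFDerivAt
  have h2 := (ContinuousLinearMap.apply ℝ ℝ u).hasFDerivAt.comp p h1
  have h3 : (fderiv ℝ (fderiv ℝ S) p).flip u =
      (ContinuousLinearMap.apply ℝ ℝ u).comp (fderiv ℝ (fderiv ℝ S) p) := by
    ext v
    simp
  rw [h3]
  exact h2

theorem GenA_re_fderiv {f : E n → E n} {p : E n} (hf : DifferentiableAt ℝ f p) (j : Fin n)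
    {L : E n →L[ℝ] ℝ} (hL : HasFDerivAt (fun q => (f q j).re) L p) (v : E n) :
    (fderiv ℝ f p v j).re = L v := by
  have h := (Complex.reCLM.comp (ContinuousLinearMap.proj (R := ℝ) (φ := fun _ : Fin n => ℂ)
    j)).hasFDerivAt.comp p hf.hasFDerivAt
  have h2 := h.unique hL
  rw [← h2]
  simp

theorem GenA_im_fderiv {f : E n → E n} {p : E n} (hf : DifferentiableAt ℝ f p) (j : Fin n)
    {L : E n →L[ℝ] ℝ} (hL : HasFDerivAt (fun q => (f q j).im) L p) (v : E n) :
    (fderiv ℝ f p v j).im = L v := by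
  have h := (Complex.imCLM.comp (ContinuousLinearMap.proj (R := ℝ) (φ := fun _ : Fin n => ℂ)
    j)).hasFDerivAt.comp p hf.hasFDerivAt
  have h2 := h.unique hL
  rw [← h2]
  simp

theorem GenA_decomp (L : E n →L[ℝ] ℝ) (v : E n) :
    L v = ∑ j, ((v j).re * L (Pi.single j 1) + (v j).im * L (Pi.single j Complex.I)) := by
  have hv : v = ∑ j, ((v j).re • (Pi.single j 1 : E n) +
      (v j).im • (Pi.single j Complex.I : E n)) := by
    funext k
    rw [Finset.sum_apply, Finset.sum_eq_single k]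
    · apply Complex.ext <;> simp
    · intro j _ hj
      simp [Pi.single_eq_of_ne hj.symm]
    · simp
  conv_lhs => rw [hv]
  simp only [map_sum, map_add, map_smul, smul_eq_mul]

theorem gen_omega {S : E n → ℝ} (hS : ContDiff ℝ ∞ S) (p v w : E n) :
    omega (fderiv ℝ (gH S) p v) (fderiv ℝ (gH S) p w) =
      omega (fderiv ℝ (gG S) p v) (fderiv ℝ (gG S) p w) := by
  set B := fderiv ℝ (fderiv ℝ S) p with hB
  have hG : DifferentiableAt ℝ (gG S) p := (contDiff_gG hS).differentiable (by simp) p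
  have hH : DifferentiableAt ℝ (gH S) p := (contDiff_gH hS).differentiable (by simp) p
  have hre : ∀ j : Fin n, HasFDerivAt (fun q : E n => (q j).re)
      (Complex.reCLM.comp (ContinuousLinearMap.proj (R := ℝ) (φ := fun _ : Fin n => ℂ) j)) p :=
    fun j => (Complex.reCLM.comp
      (ContinuousLinearMap.proj (R := ℝ) (φ := fun _ : Fin n => ℂ) j)).hasFDerivAt
  have him : ∀ j : Fin n, HasFDerivAt (fun q : E n => (q j).im)
      (Complex.imCLM.comp (ContinuousLinearMap.proj (R := ℝ) (φ := fun _ : Fin n => ℂ) j)) p :=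
    fun j => (Complex.imCLM.comp
      (ContinuousLinearMap.proj (R := ℝ) (φ := fun _ : Fin n => ℂ) j)).hasFDerivAt
  have g1 : ∀ u j, (fderiv ℝ (gG S) p u j).re = B u (Pi.single j Complex.I) := fun u j =>
    GenA_re_fderiv hG j (GenA_hasFDerivAt_D hS p _) u
  have g2 : ∀ u j, (fderiv ℝ (gG S) p u j).im = (u j).im := fun u j =>
    GenA_im_fderiv hG j (him j) u
  have h1 : ∀ u j, (fderiv ℝ (gH S) p u j).re = (u j).re := fun u j =>
    GenA_re_fderiv hH j (hre j) u
  have h2 : ∀ u j, (fderiv ℝ (gH S) p u j).im = B u (Pi.single j 1) := fun u j =>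
    GenA_im_fderiv hH j (GenA_hasFDerivAt_D hS p _) u
  have hsym : B v w = B w v :=
    (hS.contDiffAt.isSymmSndFDerivAt (by
      rw [minSmoothness_of_isRCLikeNormedField]
      exact WithTop.coe_le_coe.2 le_top)) v w
  rw [GenA_decomp (B v) w, GenA_decomp (B w) v] at hsym
  simp only [omega, g1, g2, h1, h2]
  rw [← sub_eq_zero] at hsym ⊢
  rw [← Finset.sum_sub_distrib] at hsym ⊢
  rw [← neg_eq_zero, ← Finset.sum_neg_distrib, ← hsym]
  exact Finset.sum_congr rfl fun j _ => by ring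

theorem GenA_pos {e : ℝ} (he : 0 < e) (t : ℝ) : 0 < t ^ 2 + e ^ 2 := by positivity

theorem GenA_contDiff_sqrt {e : ℝ} (he : 0 < e) :
    ContDiff ℝ ∞ fun t : ℝ => Real.sqrt (t ^ 2 + e ^ 2) :=
  ContDiff.sqrt (by fun_prop) fun t => (GenA_pos he t).ne'

theorem contDiff_Ks {e : ℝ} (he : 0 < e) : ContDiff ℝ ∞ (Ks e) :=
  (contDiff_id.add (GenA_contDiff_sqrt he)).div_const 2

theorem contDiff_Hs {e : ℝ} (he : 0 < e) : ContDiff ℝ ∞ (Hs e) :=
  (contDiff_const.add (contDiff_id.div (GenA_contDiff_sqrt he)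
    fun t => (Real.sqrt_pos.2 (GenA_pos he t)).ne')).div_const 2

theorem GenA_hasDerivAt_sqrt {e : ℝ} (he : 0 < e) (t : ℝ) :
    HasDerivAt (fun t : ℝ => Real.sqrt (t ^ 2 + e ^ 2)) (t / Real.sqrt (t ^ 2 + e ^ 2)) t := by
  have h0 : HasDerivAt (fun t : ℝ => t ^ 2 + e ^ 2) (2 * t) t := by
    simpa using (hasDerivAt_pow 2 t).add_const (e ^ 2)
  have h := h0.sqrt (GenA_pos he t).ne'
  convert h using 1
  have := (Real.sqrt_pos.2 (GenA_pos he t)).ne'
  field_simp

theorem hasDerivAt_Ks {e : ℝ} (he : 0 < e) (t : ℝ) : HasDerivAt (Ks e) (Hs e t) t :=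
  ((hasDerivAt_id t).add (GenA_hasDerivAt_sqrt he t)).div_const 2

theorem deriv_Hs_pos {e : ℝ} (he : 0 < e) (t : ℝ) : 0 < deriv (Hs e) t := by
  have hs := Real.sqrt_pos.2 (GenA_pos he t)
  have hq := Real.sq_sqrt (GenA_pos he t).le
  have h : HasDerivAt (Hs e) ((((1 : ℝ) * Real.sqrt (t ^ 2 + e ^ 2) -
      t * (t / Real.sqrt (t ^ 2 + e ^ 2))) / Real.sqrt (t ^ 2 + e ^ 2) ^ 2) / 2) t :=
    (((hasDerivAt_id t).div (GenA_hasDerivAt_sqrt he t) hs.ne').const_add 1).div_const 2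
  rw [h.deriv]
  refine div_pos (div_pos ?_ (by positivity)) two_pos
  set s := Real.sqrt (t ^ 2 + e ^ 2)
  have : 1 * s - t * (t / s) = e ^ 2 / s := by
    field_simp
    linarith
  rw [this]
  positivity

theorem Hs_strictMono {e : ℝ} (he : 0 < e) : StrictMono (Hs e) :=
  strictMono_of_deriv_pos (deriv_Hs_pos he)

theorem GenA_abs_lt {e : ℝ} (he : 0 < e) (t : ℝ) : |t| < Real.sqrt (t ^ 2 + e ^ 2) := by
  rw [Real.lt_sqrt (abs_nonneg t), sq_abs]
  nlinarith [sq_pos_of_pos he]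

theorem Hs_mem {e : ℝ} (he : 0 < e) (t : ℝ) : 0 < Hs e t ∧ Hs e t < 1 := by
  have hs := Real.sqrt_pos.2 (GenA_pos he t)
  have h := abs_lt.1 (GenA_abs_lt he t)
  have h1 : -1 < t / Real.sqrt (t ^ 2 + e ^ 2) := by
    rw [lt_div_iff₀ hs]; linarith [h.1]
  have h2 : t / Real.sqrt (t ^ 2 + e ^ 2) < 1 := by
    rw [div_lt_iff₀ hs]; linarith [h.2]
  unfold Hs
  constructor <;> linarith

theorem GenA_neg (e t : ℝ) : Hs e (-t) = 1 - Hs e t := by
  unfold Hs
  rw [neg_sq, neg_div]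
  ring

/-- For `t > 0` the step is within `e / t` of `1`. -/
theorem GenA_lower {e : ℝ} (he : 0 < e) {t : ℝ} (ht : 0 < t) : 1 - e / t ≤ Hs e t := by
  have hs := Real.sqrt_pos.2 (GenA_pos he t)
  have h1 : Real.sqrt (t ^ 2 + e ^ 2) ≤ t + e := by
    rw [Real.sqrt_le_left (by positivity)]
    nlinarith [mul_pos he ht]
  have h2 : t / (t + e) ≤ t / Real.sqrt (t ^ 2 + e ^ 2) :=
    div_le_div_of_nonneg_left ht.le hs h1
  have h3 : 1 - e / t ≤ t / (t + e) := by
    rw [le_div_iff₀ (by positivity)]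
    have : (1 - e / t) * (t + e) = t - e * (e / t) := by
      field_simp
      ring
    rw [this]
    have : 0 ≤ e * (e / t) := by positivity
    linarith
  have h4 : 0 ≤ e / t := by positivity
  unfold Hs
  linarith

theorem Hs_atTop {e : ℝ} (he : 0 < e) : Tendsto (Hs e) atTop (𝓝 1) := by
  have h0 : Tendsto (fun t : ℝ => 1 - e / t) atTop (𝓝 (1 - 0)) :=
    tendsto_const_nhds.sub (tendsto_const_nhds.div_atTop tendsto_id)
  rw [sub_zero] at h0
  refine tendsto_of_tendsto_of_tendsto_of_le_of_le' h0 tendsto_const_nhds ?_ ?_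
  · filter_upwards [eventually_gt_atTop 0] with t ht using GenA_lower he ht
  · exact Eventually.of_forall fun t => (Hs_mem he t).2.le

theorem Hs_atBot {e : ℝ} (he : 0 < e) : Tendsto (Hs e) atBot (𝓝 0) := by
  have h0 : Tendsto (fun t : ℝ => 1 - Hs e (-t)) atBot (𝓝 (1 - 1)) :=
    tendsto_const_nhds.sub ((Hs_atTop he).comp tendsto_neg_atBot_atTop)
  rw [sub_self] at h0
  refine h0.congr fun t => ?_
  rw [GenA_neg]
  ring

theorem exists_Hs {μ ε : ℝ} (hμ : 0 < μ) (hε : 0 < ε) :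
    ∃ e, 0 < e ∧ Hs e (-ε) < μ ∧ 1 - μ < Hs e ε := by
  have he : 0 < μ * ε / 2 := by positivity
  have h := GenA_lower he hε
  have h1 : μ * ε / 2 / ε = μ / 2 := by field_simp
  rw [h1] at h
  refine ⟨μ * ε / 2, he, ?_, by linarith⟩
  rw [GenA_neg]
  linarith

end Vale.Agent.P209
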