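import Vale.Agent.P209.GenA

/-! Derivatives of the explicit generating function.

Compute `fderiv S p v` as the derivative at `0` of `t ↦ S (p + t • v)`. In direction `I e_j` only the
`j`-th summand moves. In direction `e_k` the summands `j < k` do not move (`dep`), the summand `k` gives
`Yd` (`a k` does not see `x k`), and the summand `j > k` gives a function of `x` and `η j`.
`deriv_mem`: `Antitone.deriv_nonpos`, `Monotone.deriv_nonneg`. With `θ = - deriv ∈ [0, 1]`, the
`η`-derivative of `Yd` is `θ H' (..) + (1 - θ) H' (..) > 0`. -/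

namespace Vale.Agent.P209

open scoped ContDiff

variable {n : ℕ} {a : Fin n → (Fin n → ℝ) → ℝ → ℝ} {e : ℝ}

/-- One summand of the generating function. -/
noncomputable def GenBT (e : ℝ) (a : Fin n → (Fin n → ℝ) → ℝ → ℝ) (j : Fin n) (p : E n) : ℝ :=
  Ks e ((p j).re - a j (reP p) (p j).im) - Ks e ((p j).re - a j (reP p) (p j).im - (p j).im)

theorem GenB_contDiff (ha : SV a) (he : 0 < e) (j : Fin n) : ContDiff ℝ ∞ (GenBT e a j) := by
  have hre : ∀ l, ContDiff ℝ ∞ fun p : E n => (p l).re := fun l =>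
    Complex.reCLM.contDiff.comp (contDiff_apply ℝ ℂ l)
  have him : ContDiff ℝ ∞ fun p : E n => (p j).im :=
    Complex.imCLM.contDiff.comp (contDiff_apply ℝ ℂ j)
  have hP : ContDiff ℝ ∞ (reP : E n → Fin n → ℝ) := contDiff_pi.2 hre
  have hA : ContDiff ℝ ∞ fun p : E n => a j (reP p) (p j).im :=
    (ha.smooth j).comp (hP.prodMk him)
  exact ((contDiff_Ks he).comp ((hre j).sub hA)).sub
    ((contDiff_Ks he).comp (((hre j).sub hA).sub him))

theorem GenB_hasDerivAt (ha : SV a) (j : Fin n) (x : Fin n → ℝ) (η : ℝ) :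
    HasDerivAt (a j x) (deriv (a j x) η) η := by
  have h : ContDiff ℝ ∞ (a j x) :=
    (ha.smooth j).comp (f := fun s : ℝ => (x, s)) (contDiff_const.prodMk contDiff_id)
  exact (h.differentiable (by simp) η).hasDerivAt

theorem GenB_line (ha : SV a) (he : 0 < e) (j : Fin n) (p v : E n) :
    HasDerivAt (fun t : ℝ => GenBT e a j (p + t • v)) (fderiv ℝ (GenBT e a j) p v) 0 :=
  ((GenB_contDiff ha he j).differentiable (by simp) p).hasFDerivAt.hasLineDerivAt v

theorem GenB_sum (ha : SV a) (he : 0 < e) (p v : E n) :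
    fderiv ℝ (gS e a) p v = ∑ j, deriv (fun t : ℝ => GenBT e a j (p + t • v)) 0 := by
  have h : gS e a = fun p => ∑ j, GenBT e a j p := rfl
  rw [h, fderiv_fun_sum fun j _ => (GenB_contDiff ha he j).differentiable (by simp) p,
    sum_apply]
  exact Finset.sum_congr rfl fun j _ => (GenB_line ha he j p v).deriv.symm

theorem contDiff_gS (ha : SV a) (he : 0 < e) : ContDiff ℝ ∞ (gS e a) := by
  exact ContDiff.sum fun j _ => GenB_contDiff ha he j

theorem SV.deriv_mem (ha : SV a) (j : Fin n) (x : Fin n → ℝ) (η : ℝ) :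
    -1 ≤ deriv (a j x) η ∧ deriv (a j x) η ≤ 0 := by
  refine ⟨?_, (ha.anti j x).deriv_nonpos⟩
  have h1 : HasDerivAt (fun s => a j x s + s) (deriv (a j x) η + 1) η :=
    (GenB_hasDerivAt ha j x η).add (hasDerivAt_id η)
  have h2 := (ha.mono j x).deriv_nonneg (x := η)
  rw [h1.deriv] at h2
  linarith

theorem gG_re (ha : SV a) (he : 0 < e) (p : E n) (j : Fin n) :
    (gG (gS e a) p j).re = Xi e a j (reP p) (p j).im := by
  have hre : ∀ (t : ℝ) (l : Fin n),
      ((p + t • (Pi.single j Complex.I : E n)) l).re = (p l).re := fun t l => by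
    by_cases h : l = j
    · subst h
      simp
    · simp [h]
  have hP : ∀ t : ℝ, reP (p + t • (Pi.single j Complex.I : E n)) = reP p := fun t =>
    funext (hre t)
  change fderiv ℝ (gS e a) p (Pi.single j Complex.I) = _
  rw [GenB_sum ha he, Finset.sum_eq_single j]
  · have him : ∀ t : ℝ, ((p + t • (Pi.single j Complex.I : E n)) j).im = (p j).im + t :=
      fun t => by simp
    simp only [GenBT, hre, hP, him]
    have h0 : HasDerivAt (fun t : ℝ => (p j).im + t) 1 0 := (hasDerivAt_id (0 : ℝ)).const_add _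
    have h1 : HasDerivAt (fun t : ℝ => a j (reP p) ((p j).im + t))
        (deriv (a j (reP p)) (p j).im * 1) 0 :=
      HasDerivAt.comp_of_eq (0 : ℝ) (GenB_hasDerivAt ha j (reP p) (p j).im) h0 (add_zero _).symm
    have h2 := h1.const_sub (p j).re
    have h3 := ((hasDerivAt_Ks he _).comp (0 : ℝ) h2).sub
      ((hasDerivAt_Ks he _).comp (0 : ℝ) (h2.sub h0))
    refine h3.deriv.trans ?_
    simp only [Xi, reP, Pi.sub_apply, add_zero]
    ring
  · intro l _ hl
    have him : ∀ t : ℝ, ((p + t • (Pi.single j Complex.I : E n)) l).im = (p l).im :=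
      fun t => by simp [hl]
    simp only [GenBT, hre, hP, him, deriv_const]
  · exact fun h => absurd (Finset.mem_univ j) h

theorem gH_im (ha : SV a) (he : 0 < e) :
    ∃ Z : Fin n → Fin n → (Fin n → ℝ) → ℝ → ℝ, ∀ (p : E n) (k : Fin n),
      (gH (gS e a) p k).im = Yd e a k (reP p) (p k).im +
        ∑ j ∈ Finset.univ.filter (fun j => k < j), Z k j (reP p) (p j).im := by
  refine ⟨fun k j x η => deriv (fun t : ℝ =>
    Ks e (x j - a j (x + t • Pi.single k 1) η) - Ks e (x j - a j (x + t • Pi.single k 1) η - η)) 0,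
    fun p k => ?_⟩
  have him : ∀ (t : ℝ) (l : Fin n),
      ((p + t • (Pi.single k 1 : E n)) l).im = (p l).im := fun t l => by
    by_cases h : l = k
    · subst h
      simp
    · simp [h]
  have hre : ∀ (t : ℝ) (l : Fin n), l ≠ k →
      ((p + t • (Pi.single k 1 : E n)) l).re = (p l).re := fun t l h => by simp [h]
  have hrk : ∀ t : ℝ, ((p + t • (Pi.single k 1 : E n)) k).re = (p k).re + t := fun t => by simp
  have hP : ∀ t : ℝ, reP (p + t • (Pi.single k 1 : E n)) = reP p + t • Pi.single k 1 :=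
    fun t => funext fun l => by
      by_cases h : l = k
      · subst h
        simp [reP]
      · simp [reP, h]
  have hA : ∀ (t : ℝ) (j : Fin n), j ≤ k → a j (reP p + t • Pi.single k 1) = a j (reP p) :=
    fun t j hj => ha.dep j _ _ fun l hl => by simp [(hl.trans_le hj).ne]
  change fderiv ℝ (gS e a) p (Pi.single k 1) = _
  rw [GenB_sum ha he, Finset.sum_filter,
    ← (Finset.sum_ite_eq' Finset.univ k fun _ => Yd e a k (reP p) (p k).im).trans
      (if_pos (Finset.mem_univ k)), ← Finset.sum_add_distrib]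
  refine Finset.sum_congr rfl fun j _ => ?_
  rcases lt_trichotomy j k with h | h | h
  · rw [if_neg h.ne, if_neg h.not_gt, add_zero]
    simp only [GenBT, him, hP, hre _ j h.ne, hA _ j h.le, deriv_const]
  · subst h
    rw [if_pos rfl, if_neg (lt_irrefl j), add_zero]
    simp only [GenBT, him, hP, hrk, hA _ j le_rfl]
    have h0 : HasDerivAt (fun t : ℝ => (p j).re + t - a j (reP p) (p j).im) 1 0 :=
      ((hasDerivAt_id (0 : ℝ)).const_add _).sub_const _
    have h3 := ((hasDerivAt_Ks he _).comp (0 : ℝ) h0).sub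
      ((hasDerivAt_Ks he _).comp (0 : ℝ) (h0.sub_const (p j).im))
    refine h3.deriv.trans ?_
    simp only [Yd, reP, add_zero, mul_one]
  · rw [if_neg h.ne', if_pos h, zero_add]
    simp only [GenBT, him, hP, hre _ j h.ne']
    rfl

theorem Yd_strictMono (ha : SV a) (he : 0 < e) (j : Fin n) (x : Fin n → ℝ) :
    StrictMono (Yd e a j x) := by
  have hH : ∀ t, HasDerivAt (Hs e) (deriv (Hs e) t) t := fun t =>
    ((contDiff_Hs he).differentiable (by simp) t).hasDerivAt
  refine strictMono_of_deriv_pos fun η => ?_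
  have h2 := (GenB_hasDerivAt ha j x η).const_sub (x j)
  have h3 := ((hH _).comp η h2).sub ((hH _).comp η (h2.sub (hasDerivAt_id η)))
  obtain ⟨h4, h5⟩ := ha.deriv_mem j x η
  refine lt_of_lt_of_eq ?_ h3.deriv.symm
  have h6 := deriv_Hs_pos he (x j - a j x η)
  have h7 := deriv_Hs_pos he (x j - a j x η - η)
  simp only [Pi.sub_apply, id]
  rcases h5.eq_or_lt with h8 | h8
  · rw [h8]
    linarith
  · nlinarith [mul_pos h6 (neg_pos.2 h8),
      mul_nonneg h7.le (show 0 ≤ deriv (a j x) η + 1 by linarith)]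

theorem Yd_mem (he : 0 < e) (j : Fin n) (x : Fin n → ℝ) {η : ℝ} (hη : 0 < η) :
    0 < Yd e a j x η ∧ Yd e a j x η < 1 := by
  have h1 := Hs_strictMono he (show x j - a j x η - η < x j - a j x η by linarith)
  have h2 := (Hs_mem he (x j - a j x η)).2
  have h3 := (Hs_mem he (x j - a j x η - η)).1
  unfold Yd
  constructor <;> linarith

/-- `Xi` lies between the two steps. -/
theorem Xi_between (ha : SV a) (he : 0 < e) (j : Fin n) (x : Fin n → ℝ) {η : ℝ} (hη : 0 ≤ η) :
    Hs e (x j - a j x η - η) ≤ Xi e a j x η ∧ Xi e a j x η ≤ Hs e (x j - a j x η) := by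
  have h1 := (Hs_strictMono he).monotone (show x j - a j x η - η ≤ x j - a j x η by linarith)
  obtain ⟨h4, h5⟩ := ha.deriv_mem j x η
  unfold Xi
  constructor
  · nlinarith [mul_nonneg (neg_nonneg.2 h5) (sub_nonneg.2 h1)]
  · nlinarith [mul_nonneg (show 0 ≤ deriv (a j x) η + 1 by linarith) (sub_nonneg.2 h1)]

end Vale.Agent.P209
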