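import Vale.Agent.P209.GenB

/-! The map `gG` is a triangular bijection from `{η > 0}` onto the strip.

`Xi e a j x η` depends only on `x l`, `l ≤ j` (`dep`), and `t ↦ Xi e a j (update x j t) η` is
`θ H (t - α) + (1 - θ) H (t - α - η)` with constants `θ ∈ [0, 1]`, `α`: continuous, strictly increasing,
positive derivative, limits `0` and `1` (`Xi_between`). Injective: strong induction on `j`.
Onto: build `x` coordinate by coordinate (induction on `m`: there is `x` that solves the equations
`j < m`; intermediate value theorem). `gG_fderiv_inj`: if `dG v = 0` then all `(v j).im = 0`; take the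
least `j` with `(v j).re ≠ 0`; along `t ↦ p + t • v` the real part of coordinate `j` is
`t ↦ Xi e a j (update x j (x j + t (v j).re)) η`, with nonzero derivative. -/

namespace Vale.Agent.P209

open scoped ContDiff
open Set

variable {n : ℕ} {a : Fin n → (Fin n → ℝ) → ℝ → ℝ} {e : ℝ}

/-- One coordinate of the map, as a function of its own variable. -/
noncomputable def GenC_f (e d α η t : ℝ) : ℝ := -d * Hs e (t - α) + (1 + d) * Hs e (t - α - η)

theorem GenC_Xi (ha : SV a) {j : Fin n} {x y : Fin n → ℝ} (h : ∀ l, l < j → x l = y l) (η : ℝ) :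
    Xi e a j x η = GenC_f e (deriv (a j y) η) (a j y η) η (x j) := by
  rw [Xi, ha.dep j x y h, GenC_f]

theorem GenC_pos {d u v : ℝ} (h1 : -1 ≤ d) (h2 : d ≤ 0) (hu : 0 < u) (hv : 0 < v) :
    0 < -d * u + (1 + d) * v := by
  rcases h2.eq_or_lt with rfl | h3
  · simpa using hv
  · exact add_pos_of_pos_of_nonneg (mul_pos (by linarith) hu) (mul_nonneg (by linarith) hv.le)

theorem GenC_der (he : 0 < e) {d : ℝ} (h1 : -1 ≤ d) (h2 : d ≤ 0) (α η t : ℝ) :
    ∃ c, 0 < c ∧ HasDerivAt (GenC_f e d α η) c t := by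
  have hd : ∀ s, HasDerivAt (Hs e) (deriv (Hs e) s) s := fun s =>
    ((contDiff_Hs he).differentiable (by simp) s).hasDerivAt
  refine ⟨-d * deriv (Hs e) (t - α) + (1 + d) * deriv (Hs e) (t - α - η),
    GenC_pos h1 h2 (deriv_Hs_pos he _) (deriv_Hs_pos he _), ?_⟩
  have a1 : HasDerivAt (fun s => Hs e (s - α)) (deriv (Hs e) (t - α)) t :=
    HasDerivAt.comp_sub_const t α (hd _)
  have a2 : HasDerivAt (fun s => Hs e (s - α - η)) (deriv (Hs e) (t - α - η)) t :=
    HasDerivAt.comp_sub_const (f := fun s => Hs e (s - η)) t α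
      (HasDerivAt.comp_sub_const (t - α) η (hd _))
  exact (a1.const_mul (-d)).add (a2.const_mul (1 + d))

theorem GenC_mono (he : 0 < e) {d : ℝ} (h1 : -1 ≤ d) (h2 : d ≤ 0) (α η : ℝ) :
    StrictMono (GenC_f e d α η) := by
  refine strictMono_of_deriv_pos fun t => ?_
  obtain ⟨c, hc, h⟩ := GenC_der he h1 h2 α η t
  rwa [h.deriv]

theorem GenC_mem (he : 0 < e) {d : ℝ} (h1 : -1 ≤ d) (h2 : d ≤ 0) (α η t : ℝ) :
    0 < GenC_f e d α η t ∧ GenC_f e d α η t < 1 := by
  refine ⟨GenC_pos h1 h2 (Hs_mem he _).1 (Hs_mem he _).1, ?_⟩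
  have := GenC_pos h1 h2 (sub_pos.2 (Hs_mem he (t - α)).2) (sub_pos.2 (Hs_mem he (t - α - η)).2)
  unfold GenC_f
  linarith

theorem GenC_surj (he : 0 < e) {d : ℝ} (h1 : -1 ≤ d) (h2 : d ≤ 0) (α η : ℝ) {u : ℝ} (h0 : 0 < u)
    (h3 : u < 1) : ∃ t, GenC_f e d α η t = u := by
  have hc : Continuous (GenC_f e d α η) := continuous_iff_continuousAt.2 fun t =>
    let ⟨_, _, h⟩ := GenC_der he h1 h2 α η t
    h.continuousAt
  have sT : ∀ c : ℝ, Filter.Tendsto (fun t : ℝ => t - c) Filter.atTop Filter.atTop := fun c =>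
    Filter.tendsto_atTop_add_const_right _ (-c) Filter.tendsto_id
  have sB : ∀ c : ℝ, Filter.Tendsto (fun t : ℝ => t - c) Filter.atBot Filter.atBot := fun c =>
    Filter.tendsto_atBot_add_const_right _ (-c) Filter.tendsto_id
  have hT : Filter.Tendsto (GenC_f e d α η) Filter.atTop (nhds (-d * 1 + (1 + d) * 1)) :=
    (((Hs_atTop he).comp (sT α)).const_mul (-d)).add
      (((Hs_atTop he).comp ((sT η).comp (sT α))).const_mul (1 + d))
  have hB : Filter.Tendsto (GenC_f e d α η) Filter.atBot (nhds (-d * 0 + (1 + d) * 0)) :=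
    (((Hs_atBot he).comp (sB α)).const_mul (-d)).add
      (((Hs_atBot he).comp ((sB η).comp (sB α))).const_mul (1 + d))
  obtain ⟨t₂, h₂⟩ := (hT.eventually (lt_mem_nhds (show u < -d * 1 + (1 + d) * 1 by linarith))).exists
  obtain ⟨t₁, h₁⟩ := (hB.eventually (gt_mem_nhds (show -d * 0 + (1 + d) * 0 < u by linarith))).exists
  exact intermediate_value_univ t₁ t₂ hc ⟨h₁.le, h₂.le⟩

theorem GenC_solve (ha : SV a) (he : 0 < e) (u η : Fin n → ℝ) (h : ∀ j, 0 < u j ∧ u j < 1) (m : ℕ) :
    ∃ x : Fin n → ℝ, ∀ j : Fin n, j.val < m → Xi e a j x (η j) = u j := by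
  induction m with
  | zero => exact ⟨0, fun j hj => absurd hj (Nat.not_lt_zero _)⟩
  | succ m ih =>
    obtain ⟨x, hx⟩ := ih
    by_cases hm : m < n
    · set k : Fin n := ⟨m, hm⟩ with hk
      obtain ⟨t, ht⟩ := GenC_surj he (ha.deriv_mem k x (η k)).1 (ha.deriv_mem k x (η k)).2
        (a k x (η k)) (η k) (h k).1 (h k).2
      refine ⟨Function.update x k t, fun j hj => ?_⟩
      have hjk : j ≤ k := Nat.lt_succ_iff.1 hj
      rw [GenC_Xi ha (y := x) fun l hl => Function.update_of_ne (hl.trans_le hjk).ne _ _]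
      rcases hjk.eq_or_lt with rfl | hlt
      · rw [Function.update_self, ht]
      · rw [Function.update_of_ne hlt.ne, ← GenC_Xi ha fun _ _ => rfl]
        exact hx j hlt
    · exact ⟨x, fun j _ => hx j (j.2.trans_le (not_lt.1 hm))⟩

theorem gG_injective (ha : SV a) (he : 0 < e) : Function.Injective (gG (gS e a)) := by
  intro p q h
  have him : ∀ j, (p j).im = (q j).im := fun j =>
    (congrArg Complex.im (congrFun h j) :)
  have hre : ∀ j, (p j).re = (q j).re := by
    intro j
    induction j using WellFoundedLT.induction with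
    | ind j ih =>
      have b := congrArg Complex.re (congrFun h j)
      rw [gG_re ha he, gG_re ha he, GenC_Xi ha (x := reP p) (y := reP q) ih,
        GenC_Xi ha fun _ _ => rfl, him j] at b
      exact (GenC_mono he (ha.deriv_mem j _ _).1 (ha.deriv_mem j _ _).2 _ _).injective b
  exact funext fun j => Complex.ext (hre j) (him j)

theorem gG_image (ha : SV a) (he : 0 < e) :
    gG (gS e a) '' {p : E n | ∀ j, 0 < (p j).im} = Strip n := by
  refine Subset.antisymm ?_ fun q hq => ?_
  · rintro _ ⟨p, hp, rfl⟩ j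
    rw [gG_re ha he, GenC_Xi ha fun _ _ => rfl]
    have b := GenC_mem he (ha.deriv_mem j (reP p) (p j).im).1 (ha.deriv_mem j (reP p) (p j).im).2
      (a j (reP p) (p j).im) (p j).im (reP p j)
    exact ⟨b.1, b.2, hp j⟩
  · obtain ⟨x, hx⟩ := GenC_solve ha he (fun j => (q j).re) (fun j => (q j).im)
      (fun j => ⟨(hq j).1, (hq j).2.1⟩) n
    refine ⟨fun j => ⟨x j, (q j).im⟩, fun j => (hq j).2.2, funext fun j => Complex.ext ?_ rfl⟩
    rw [gG_re ha he]
    exact hx j j.2

theorem gG_fderiv_inj (ha : SV a) (he : 0 < e) (p : E n) :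
    Function.Injective (fderiv ℝ (gG (gS e a)) p) := by
  rw [injective_iff_map_eq_zero]
  intro v hv
  have hG : DifferentiableAt ℝ (gG (gS e a)) (p + (0 : ℝ) • v) :=
    (contDiff_gG (contDiff_gS ha he)).differentiable (by simp) _
  have hl : HasDerivAt (fun t : ℝ => p + t • v) ((1 : ℝ) • v) 0 :=
    ((hasDerivAt_id (0 : ℝ)).smul_const v).const_add p
  have hγ := hG.hasFDerivAt.comp_hasDerivAt (0 : ℝ) hl
  rw [zero_smul, add_zero, one_smul, hv] at hγ
  have hj : ∀ j, HasDerivAt (fun t : ℝ => gG (gS e a) (p + t • v) j) 0 0 := fun j =>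
    hasDerivAt_pi.1 hγ j
  have hlin : ∀ c w : ℝ, HasDerivAt (fun t : ℝ => c + t * w) w 0 := fun c w => by
    simpa using ((hasDerivAt_id (0 : ℝ)).mul_const w).const_add c
  have him : ∀ j, (v j).im = 0 := by
    intro j
    have b1 := Complex.imCLM.hasFDerivAt.comp_hasDerivAt (0 : ℝ) (hj j)
    have e1 : (Complex.imCLM ∘ fun t : ℝ => gG (gS e a) (p + t • v) j) =
        fun t : ℝ => (p j).im + t * (v j).im := by
      funext t
      simp [gG]
    rw [e1, map_zero] at b1
    exact (hlin _ _).unique b1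
  have hre : ∀ j, (v j).re = 0 := by
    intro j
    induction j using WellFoundedLT.induction with
    | ind j ih =>
      have b1 := Complex.reCLM.hasFDerivAt.comp_hasDerivAt (0 : ℝ) (hj j)
      have e1 : (Complex.reCLM ∘ fun t : ℝ => gG (gS e a) (p + t • v) j) =
          GenC_f e (deriv (a j (reP p)) (p j).im) (a j (reP p) (p j).im) (p j).im ∘
            fun t : ℝ => (p j).re + t * (v j).re := by
        funext t
        have e2 : ((p + t • v) j).im = (p j).im := by simp [him j]
        have e3 : reP (p + t • v) j = (p j).re + t * (v j).re := by simp [reP]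
        rw [Function.comp_apply, Complex.reCLM_apply, gG_re ha he,
          GenC_Xi ha (y := reP p) fun l hl => by simp [reP, ih l hl], e2, e3, Function.comp_apply]
      rw [e1, map_zero] at b1
      obtain ⟨c, hc, h⟩ := GenC_der he (ha.deriv_mem j (reP p) (p j).im).1
        (ha.deriv_mem j (reP p) (p j).im).2 (a j (reP p) (p j).im) (p j).im
        ((p j).re + 0 * (v j).re)
      have b2 := (h.comp (0 : ℝ) (hlin (p j).re (v j).re)).unique b1
      exact (mul_eq_zero.1 b2).resolve_left hc.ne'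
  exact funext fun j => Complex.ext (hre j) (him j)

end Vale.Agent.P209
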