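import Vale.Agent.P209.Base

/-! General lemmas on symplectic maps.

`Sy.inj_fderiv`: `omega` is nondegenerate (test with `w = I • v`, `omega v (I • v) = ∑ ‖v j‖ ^ 2`).
`sy_of_pair`: an injective endomorphism of a finite dimensional space is a `ContinuousLinearEquiv`
(`LinearEquiv.ofInjectiveEndo`, `LinearEquiv.toContinuousLinearEquiv`); inverse function theorem
(`ContDiffAt.toOpenPartialHomeomorph`, `ContDiffAt.to_localInverse`, `HasStrictFDerivAt.map_nhds_eq_of_equiv`).
Take `f = H ∘ Function.invFunOn G W`; near `G p` the map `invFunOn G W` equals the local inverse.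
Chain rule: `fderiv f (G p) ∘ fderiv G p = fderiv H p`, and `fderiv G p` is onto.
`Sy.emb`: continuous, injective and open (`map_nhds_eq_of_equiv`), so an open embedding. -/

namespace Vale.Agent.P209

open scoped ContDiff
open Set

variable {n : ℕ} {U V W : Set (E n)} {f g G H : E n → E n}

theorem pair_diff (hW : IsOpen W) (hG : ContDiffOn ℝ ∞ G W) {p : E n} (hp : p ∈ W) :
    DifferentiableAt ℝ G p :=
  (hG.contDiffAt (hW.mem_nhds hp)).differentiableAt (by simp)

theorem pair_loc {p : E n} (hG : ContDiffAt ℝ ∞ G p) (hd : Function.Injective (fderiv ℝ G p)) :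
    Filter.map G (nhds p) = nhds (G p) ∧ Function.Surjective (fderiv ℝ G p) ∧
      ∀ g : E n → E n, (∀ᶠ x in nhds p, g (G x) = x) → ContDiffAt ℝ ∞ g (G p) := by
  obtain ⟨L, hL⟩ : ∃ L : E n ≃L[ℝ] E n, (L : E n →L[ℝ] E n) = fderiv ℝ G p :=
    ⟨(LinearEquiv.ofInjectiveEndo (fderiv ℝ G p).toLinearMap hd).toContinuousLinearEquiv,
      ContinuousLinearMap.ext fun _ => rfl⟩
  have h0 : (∞ : WithTop ℕ∞) ≠ 0 := by simp
  have h1 : HasFDerivAt G (L : E n →L[ℝ] E n) p := hL ▸ (hG.differentiableAt h0).hasFDerivAt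
  have h2 := hG.hasStrictFDerivAt' h1 h0
  exact ⟨h2.map_nhds_eq_of_equiv, hL ▸ L.surjective, fun g hg =>
    (hG.to_localInverse h1 h0).congr_of_eventuallyEq (h2.localInverse_unique hg)⟩

theorem Sy.comp (hf : Sy U f) (hg : Sy V g) (h : MapsTo f U V) : Sy U (g ∘ f) := by
  refine ⟨hf.isOpen, hg.smooth.comp hf.smooth h, fun z hz v w => ?_⟩
  rw [fderiv_comp z (pair_diff hg.isOpen hg.smooth (h hz)) (pair_diff hf.isOpen hf.smooth hz),
    ContinuousLinearMap.comp_apply, ContinuousLinearMap.comp_apply, hg.symp _ (h hz),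
    hf.symp z hz]

theorem Sy.mono (hf : Sy U f) (hV : IsOpen V) (h : V ⊆ U) : Sy V f := by
  exact ⟨hV, hf.smooth.mono h, fun z hz => hf.symp z (h hz)⟩

theorem Sy.inj_fderiv (hf : Sy U f) {z : E n} (hz : z ∈ U) : Function.Injective (fderiv ℝ f z) := by
  refine (injective_iff_map_eq_zero _).2 fun v hv => funext fun j => ?_
  have h1 := hf.symp z hz v (Complex.I • v)
  have h2 : omega v (Complex.I • v) = ∑ j, Complex.normSq (v j) :=
    Finset.sum_congr rfl fun j _ => by simp [Complex.normSq_apply]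
  rw [hv, h2] at h1
  simp only [omega, Pi.zero_apply, Complex.zero_re, Complex.zero_im, zero_mul, sub_self,
    Finset.sum_const_zero] at h1
  exact Complex.normSq_eq_zero.1 ((Finset.sum_eq_zero_iff_of_nonneg fun j _ =>
    Complex.normSq_nonneg _).1 h1.symm j (Finset.mem_univ j))

theorem sy_of_pair (hW : IsOpen W) (hG : ContDiffOn ℝ ∞ G W) (hH : ContDiffOn ℝ ∞ H W)
    (hi : InjOn G W) (hd : ∀ p ∈ W, Function.Injective (fderiv ℝ G p))
    (hω : ∀ p ∈ W, ∀ v w, omega (fderiv ℝ H p v) (fderiv ℝ H p w) =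
      omega (fderiv ℝ G p v) (fderiv ℝ G p w)) :
    ∃ f, Sy (G '' W) f ∧ ∀ p ∈ W, f (G p) = H p := by
  have hl : ∀ p ∈ W, Function.invFunOn G W (G p) = p := fun p hp => hi.leftInvOn_invFunOn hp
  have h1 := fun p hp => pair_loc (hG.contDiffAt (hW.mem_nhds hp)) (hd p hp)
  have h2 : ∀ p ∈ W, ContDiffAt ℝ ∞ (H ∘ Function.invFunOn G W) (G p) := fun p hp =>
    ContDiffAt.comp _ (by rw [hl p hp]; exact hH.contDiffAt (hW.mem_nhds hp))
      ((h1 p hp).2.2 _ (Filter.mem_of_superset (hW.mem_nhds hp) hl))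
  refine ⟨H ∘ Function.invFunOn G W, ⟨isOpen_iff_mem_nhds.2 ?_, ?_, ?_⟩, fun p hp =>
    congrArg H (hl p hp)⟩
  · rintro _ ⟨p, hp, rfl⟩
    rw [← (h1 p hp).1]
    exact Filter.image_mem_map (hW.mem_nhds hp)
  · rintro _ ⟨p, hp, rfl⟩
    exact (h2 p hp).contDiffWithinAt
  · rintro _ ⟨p, hp, rfl⟩ v w
    obtain ⟨v, rfl⟩ := (h1 p hp).2.1 v
    obtain ⟨w, rfl⟩ := (h1 p hp).2.1 w
    have e : (H ∘ Function.invFunOn G W) ∘ G =ᶠ[nhds p] H :=
      Filter.mem_of_superset (hW.mem_nhds hp) fun x hx => congrArg H (hl x hx)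
    rw [← hω p hp, ← e.fderiv_eq, fderiv_comp p ((h2 p hp).differentiableAt (by simp))
      (pair_diff hW hG hp)]
    rfl

theorem Sy.emb (hf : Sy U f) (hi : InjOn f U) : IsSympEmb U f := by
  refine ⟨hf.isOpen, hf.smooth, (Topology.IsOpenEmbedding.of_continuous_injective_isOpenMap
    hf.smooth.continuousOn.restrict hi.injective (IsOpenMap.of_nhds_le fun x => ?_)).isEmbedding,
    hf.symp⟩
  have h := (pair_loc (hf.smooth.contDiffAt (hf.isOpen.mem_nhds x.2)) (hf.inj_fderiv x.2)).1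
  rw [← hf.isOpen.isOpenEmbedding_subtypeVal.map_nhds_eq x, Filter.map_map] at h
  exact h.ge

theorem IsSympEmb.sy (hf : IsSympEmb U f) : Sy U f := ⟨hf.isOpen, hf.smooth, hf.symp⟩

theorem IsSympEmb.injOn (hf : IsSympEmb U f) : InjOn f U := by
  exact fun x hx y hy h => congrArg Subtype.val (hf.emb.injective (a₁ := ⟨x, hx⟩) (a₂ := ⟨y, hy⟩) h)

/-- A continuous real linear map that keeps `omega`, plus a translation. -/
theorem sy_affine (L : E n →L[ℝ] E n) (b : E n) (h : ∀ v w, omega (L v) (L w) = omega v w) :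
    Sy univ fun z => L z + b := by
  refine ⟨isOpen_univ, (L.contDiff.add contDiff_const).contDiffOn, fun z _ v w => ?_⟩
  rw [(L.hasFDerivAt.add_const b).fderiv, h]

/-- Coordinatewise maps: `φ` is smooth on the open set `D` of the plane with Jacobian one. -/
theorem sy_pi {D : Set ℂ} (hD : IsOpen D) {φ : ℂ → ℂ} (hφ : ContDiffOn ℝ ∞ φ D)
    (hJ : ∀ z ∈ D, (fderiv ℝ φ z 1).re * (fderiv ℝ φ z Complex.I).im -
      (fderiv ℝ φ z 1).im * (fderiv ℝ φ z Complex.I).re = 1) :
    Sy {p : E n | ∀ j, p j ∈ D} fun p j => φ (p j) := by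
  have ho : IsOpen {p : E n | ∀ j, p j ∈ D} := by
    rw [ofPred_forall]
    exact isOpen_iInter_of_finite fun j => hD.preimage (continuous_apply j)
  refine ⟨ho, contDiffOn_pi.2 fun j => hφ.comp (contDiff_apply ℝ ℂ j).contDiffOn fun p hp => hp j,
    fun z hz v w => ?_⟩
  have h1 : HasFDerivAt (fun (p : E n) j => φ (p j)) (ContinuousLinearMap.pi fun j =>
      (fderiv ℝ φ (z j)).comp (ContinuousLinearMap.proj j)) z :=
    hasFDerivAt_pi.2 fun j => ((hφ.contDiffAt (hD.mem_nhds (hz j))).differentiableAt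
      (by simp)).hasFDerivAt.comp z (hasFDerivAt_apply j z)
  have h2 : ∀ (L : ℂ →L[ℝ] ℂ) (u : ℂ), L u = u.re • L 1 + u.im • L Complex.I := fun L u => by
    rw [← map_smul, ← map_smul, ← map_add]
    simp
  rw [h1.fderiv]
  refine Finset.sum_congr rfl fun j _ => ?_
  simp only [ContinuousLinearMap.pi_apply, ContinuousLinearMap.comp_apply,
    ContinuousLinearMap.proj_apply]
  rw [h2 _ (v j), h2 _ (w j)]
  simp only [Complex.add_re, Complex.add_im, Complex.smul_re, Complex.smul_im, smul_eq_mul]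
  linear_combination ((v j).re * (w j).im - (v j).im * (w j).re) * hJ _ (hz j)

end Vale.Agent.P209
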