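import Vale.Agent.P209.GenC
import Vale.Agent.P209.Pair

/-! The embedding of the strip along a smooth valley.

Choose `e` by `exists_Hs`; `Φ` from `sy_of_pair` with `G = gG S`, `H = gH S`, `W = {η > 0}`.
`InjMod`: same `x`; downward induction on `k` (take the largest `k` with `η k ≠ η' k`): by `gH_im` the
difference of the two values of `Yd` is an integer in `(-1, 1)`, so zero, and `Yd` is injective.
Location: `μ ≤ Xi ≤ Hs e (x j - a)` forces `x j - a > -ε`; `Hs e (x j - a - η) ≤ 1 - μ` forces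
`x j - a - η < ε`. -/

namespace Vale.Agent.P209

open scoped ContDiff
open Set

variable {n : ℕ} {a : Fin n → (Fin n → ℝ) → ℝ → ℝ}

theorem GenD_inj (ha : SV a) {e : ℝ} (he : 0 < e) {p q : E n} (hp : ∀ j, 0 < (p j).im)
    (hq : ∀ j, 0 < (q j).im) (hx : reP p = reP q)
    (h : ∀ j, ∃ k : ℤ, (gH (gS e a) p j).im - (gH (gS e a) q j).im = k) : p = q := by
  obtain ⟨Z, hZ⟩ := gH_im ha he
  have key : ∀ k, (p k).im = (q k).im := fun k => by
    induction k using WellFoundedGT.induction with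
    | ind k ih =>
      obtain ⟨m, hm⟩ := h k
      have e1 : ∑ j ∈ Finset.univ.filter (fun j => k < j), Z k j (reP q) (p j).im =
          ∑ j ∈ Finset.univ.filter (fun j => k < j), Z k j (reP q) (q j).im :=
        Finset.sum_congr rfl fun j hj => by rw [ih j (Finset.mem_filter.1 hj).2]
      rw [hZ, hZ, hx, e1, add_sub_add_right_eq_sub] at hm
      have h1 := Yd_mem (a := a) he k (reP q) (hp k)
      have h2 := Yd_mem (a := a) he k (reP q) (hq k)
      have h3 : (m : ℝ) < 1 := by linarith [h1.2, h2.1]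
      have h4 : (-1 : ℝ) < m := by linarith [h1.1, h2.2]
      have h5 : m < 1 := by exact_mod_cast h3
      have h6 : -1 < m := by exact_mod_cast h4
      obtain rfl : m = 0 := by omega
      rw [Int.cast_zero, sub_eq_zero] at hm
      exact (Yd_strictMono ha he k (reP q)).injective hm
  exact funext fun j => Complex.ext (congrFun hx j) (key j)

theorem genfun (ha : SV a) {μ ε : ℝ} (hμ : 0 < μ) (hε : 0 < ε) :
    ∃ Φ : E n → E n, Sy (Strip n) Φ ∧ InjMod (Strip n) Φ ∧ ∀ p ∈ Strip n,
      (∀ j, μ ≤ (p j).re ∧ (p j).re ≤ 1 - μ) → ∀ j,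
        a j (reP (Φ p)) (p j).im - ε ≤ (Φ p j).re ∧
          (Φ p j).re ≤ a j (reP (Φ p)) (p j).im + (p j).im + ε := by
  obtain ⟨e, he, h1, h2⟩ := exists_Hs hμ hε
  have hS := contDiff_gS ha he
  have hW : IsOpen {p : E n | ∀ j, 0 < (p j).im} := by
    rw [setOf_forall]
    exact isOpen_iInter_of_finite fun j =>
      isOpen_lt continuous_const (Complex.continuous_im.comp (continuous_apply j))
  obtain ⟨Φ, hΦ, hf⟩ := sy_of_pair hW (contDiff_gG hS).contDiffOn (contDiff_gH hS).contDiffOn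
    (gG_injective ha he).injOn (fun p _ => gG_fderiv_inj ha he p) fun p _ => gen_omega hS p
  rw [← gG_image ha he]
  refine ⟨Φ, hΦ, ?_, ?_⟩
  · rintro _ ⟨p, hp, rfl⟩ _ ⟨q, hq, rfl⟩ hx h
    rw [hf p hp, hf q hq] at hx h
    rw [GenD_inj ha he hp hq hx h]
  · rintro _ ⟨p, hp, rfl⟩ h j
    have h3 := h j
    rw [gG_re ha he] at h3
    have h4 := Xi_between ha he j (reP p) (hp j).le
    have h5 := (Hs_strictMono he).lt_iff_lt.1 (h1.trans_le (h3.1.trans h4.2))
    have h6 := (Hs_strictMono he).lt_iff_lt.1 ((h4.1.trans h3.2).trans_lt h2)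
    rw [hf p hp]
    show a j (reP p) (p j).im - ε ≤ reP p j ∧ reP p j ≤ a j (reP p) (p j).im + (p j).im + ε
    constructor <;> linarith

end Vale.Agent.P209
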