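import Vale.Agent.P209.Base

/-! The generating function. A point `p` of `E n` is read as `x + i η`. -/

namespace Vale.Agent.P209

open scoped ContDiff

noncomputable section

variable {n : ℕ}

/-- A smooth step from `0` to `1`. -/
def Hs (e t : ℝ) : ℝ := (1 + t / Real.sqrt (t ^ 2 + e ^ 2)) / 2

/-- Its primitive. -/
def Ks (e t : ℝ) : ℝ := (t + Real.sqrt (t ^ 2 + e ^ 2)) / 2

/-- `(x, η) ↦ (∂ S / ∂ η, η)`. -/
def gG (S : E n → ℝ) (p : E n) : E n := fun j => ⟨fderiv ℝ S p (Pi.single j Complex.I), (p j).im⟩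

/-- `(x, η) ↦ (x, ∂ S / ∂ x)`. -/
def gH (S : E n → ℝ) (p : E n) : E n := fun j => ⟨(p j).re, fderiv ℝ S p (Pi.single j 1)⟩

def gS (e : ℝ) (a : Fin n → (Fin n → ℝ) → ℝ → ℝ) (p : E n) : ℝ :=
  ∑ j, (Ks e ((p j).re - a j (reP p) (p j).im) - Ks e ((p j).re - a j (reP p) (p j).im - (p j).im))

def Xi (e : ℝ) (a : Fin n → (Fin n → ℝ) → ℝ → ℝ) (j : Fin n) (x : Fin n → ℝ) (η : ℝ) : ℝ :=
  -deriv (a j x) η * Hs e (x j - a j x η) + (1 + deriv (a j x) η) * Hs e (x j - a j x η - η)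

def Yd (e : ℝ) (a : Fin n → (Fin n → ℝ) → ℝ → ℝ) (j : Fin n) (x : Fin n → ℝ) (η : ℝ) : ℝ :=
  Hs e (x j - a j x η) - Hs e (x j - a j x η - η)

/-- A smooth valley. -/
structure SV (a : Fin n → (Fin n → ℝ) → ℝ → ℝ) : Prop extends Valley a where
  smooth : ∀ j, ContDiff ℝ ∞ fun p : (Fin n → ℝ) × ℝ => a j p.1 p.2

end

end Vale.Agent.P209
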