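import Vale.Agent.P209.Realize
import Vale.Agent.P209.Api
import Vale.Agent.P209.Cyc

/-! From valleys in the pieces to a packing.

For each `m` take `(L m, b m)` from `cyc_chart` with `T = 1`. The sets `K i = (L (g i) · + b (g i)) '' Kset` are compact
(`isCompact_Kset`), lie in `Cell c' (g i)` (`chart_cell`, `c' = c + 2 ε`) and are pairwise disjoint (same group: the
chart is injective; different groups: `cell_disjoint`). `disjoint_nhds` gives `O i`; apply `realize` with the open set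
`{x | L x + b ∈ O i ∩ Cell c' (g i)}`. Images are disjoint since `mom` lies in `O i`, and lie in the open ball by
`mem_interior_ball`. -/

namespace Vale.Agent.P209

open Finset

theorem glue {n : ℕ} {ι : Type} [Fintype ι] {rr : ι → ℝ} (g : ι → Fin (n + 1)) {c : Fin (n + 1) → ℝ}
    {ε : ℝ} (hε : 0 < ε) (h0 : ∀ j, 0 ≤ c j) (hc : ∑ j, (c j + 2 * ε) = 1)
    {b : ι → Fin n → (Fin n → ℝ) → ℝ → ℝ} (hb : ∀ i, Valley (b i))
    (hK : ∀ i, Kset (rr i) 0 (b i) ⊆ PS n (cs c (g i)))
    (hd : ∀ i k, i ≠ k → g i = g k → Disjoint (Kset (rr i) 0 (b i)) (Kset (rr k) 0 (b k))) :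
    Packs n rr 1 := by
  choose L hL hZ _ hB using fun m : Fin (n + 1) => cyc_chart m
  choose B hB using fun m => hB m 1 ε
  have hc' : ∀ m, Continuous fun x => L m x + B m := fun m =>
    (L m).continuous_of_finiteDimensional.add continuous_const
  have hs : ∀ i, (fun x => L (g i) x + B (g i)) '' Kset (rr i) 0 (b i) ⊆
      Cell (fun j => c j + 2 * ε) (g i) := by
    rintro i _ ⟨x, hx, rfl⟩
    exact chart_cell hε h0 hc _ (hK i hx) (hB _ x)
  obtain ⟨O, hO, hO'⟩ := disjoint_nhds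
    (K := fun i => (fun x => L (g i) x + B (g i)) '' Kset (rr i) 0 (b i))
    (fun i => (isCompact_Kset (hb i) _ _).image (hc' _)) fun i k hik => by
      by_cases h : g i = g k
      · beta_reduce
        rw [← h]
        exact Set.disjoint_image_of_injective ((add_left_injective _).comp (hL _).1) (hd i k hik h)
      · exact (cell_disjoint hc h).mono (hs i) (hs k)
  choose U f h1 h2 h3 using fun i => realize (hb i) (rr i)
    (((hO i).1.inter (isOpen_cell (fun j => c j + 2 * ε) (g i))).preimage (hc' (g i)))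
    (fun x hx => ⟨(hO i).2 ⟨x, hx, rfl⟩, hs i ⟨x, hx, rfl⟩⟩) (L (g i)) (hL _).1 (hZ _) (B (g i))
    fun x hx => hx.2.1
  refine ⟨U, f, fun i => ⟨h1 i, h2 i, ?_⟩, fun i k hik => Set.disjoint_left.2 ?_⟩
  · rintro _ ⟨z, hz, rfl⟩
    obtain ⟨x, hx, e⟩ := h3 i z hz
    exact mem_interior_ball (e ▸ hx.2.2.1)
  · rintro _ ⟨z, hz, rfl⟩ ⟨w, hw, e⟩
    obtain ⟨x, hx, e1⟩ := h3 i z hz
    obtain ⟨y, hy, e2⟩ := h3 k w hw
    refine Set.disjoint_left.1 (hO' hik) hx.1 ?_
    have k1 : L (g k) y + B (g k) ∈ O k := hy.1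
    rwa [← e2, e, e1] at k1

end Vale.Agent.P209
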