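import Vale.Agent.P209.GDefs

/-! The volume polynomials. All proofs are inductions on `k` (generalizing `j`, `t`).

`gon_cont2`: `intervalIntegral.continuous_parametric_intervalIntegral_of_continuous` or the substitution
`u = t + (C (j + 1) - t) s`, `s ∈ [0, 1]`. `gon_strict`: `∫ t..C' = ∫ t..C + ∫ C..C'`, the last integrand is
`≥ c0 ^ k` by `gon_ge`. -/

namespace Vale.Agent.P209

variable {C C' : ℕ → ℝ} {c0 t t' : ℝ}

theorem gon_cont2 (k j : ℕ) : Continuous fun p : (ℕ → ℝ) × ℝ => gon p.1 k j p.2 := by
  induction k generalizing j with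
  | zero => exact continuous_const
  | succ k ih =>
    have hf : Continuous (Function.uncurry fun (p : (ℕ → ℝ) × ℝ) (u : ℝ) => gon p.1 k (j + 1) u) :=
      (ih (j + 1)).comp (continuous_fst.fst.prodMk continuous_snd)
    have h1 := intervalIntegral.continuous_parametric_intervalIntegral_of_continuous
      (μ := MeasureTheory.volume) (a₀ := 0) hf ((continuous_apply (j + 1)).comp continuous_fst)
    have h2 := intervalIntegral.continuous_parametric_intervalIntegral_of_continuous
      (μ := MeasureTheory.volume) (a₀ := 0) hf continuous_snd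
    refine (h1.sub h2).congr fun p => ?_
    have hc : Continuous (gon p.1 k (j + 1)) := (ih (j + 1)).comp (Continuous.prodMk_right p.1)
    exact intervalIntegral.integral_interval_sub_left (hc.intervalIntegrable _ _)
      (hc.intervalIntegrable _ _)

theorem gon_cont (C : ℕ → ℝ) (k j : ℕ) : Continuous (gon C k j) :=
  (gon_cont2 k j).comp (Continuous.prodMk_right C)

theorem Gon_low {f : ℝ → ℝ} (hf : Continuous f) {a b m : ℝ} (hab : a ≤ b)
    (h : ∀ u ∈ Set.Icc a b, m ≤ f u) : (b - a) * m ≤ ∫ u in a..b, f u := by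
  have := intervalIntegral.integral_mono_on (μ := MeasureTheory.volume) hab
    (continuous_const.intervalIntegrable _ _) (hf.intervalIntegrable _ _) h
  rwa [intervalIntegral.integral_const, smul_eq_mul] at this

theorem Gon_up {f : ℝ → ℝ} (hf : Continuous f) {a b m : ℝ} (hab : a ≤ b)
    (h : ∀ u ∈ Set.Icc a b, f u ≤ m) : ∫ u in a..b, f u ≤ (b - a) * m := by
  have := intervalIntegral.integral_mono_on (μ := MeasureTheory.volume) hab
    (hf.intervalIntegrable _ _) (continuous_const.intervalIntegrable _ _) h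
  rwa [intervalIntegral.integral_const, smul_eq_mul] at this

theorem gon_ge (h0 : 0 ≤ c0) (gap : ∀ l, c0 ≤ C (l + 1) - C l) (k j : ℕ) (ht : t ≤ C j) :
    c0 ^ k ≤ gon C k j t := by
  induction k generalizing j t with
  | zero => exact (pow_zero _).le
  | succ k ih =>
    have h1 := gap j
    refine le_trans ?_ (Gon_low (gon_cont C k (j + 1)) (by linarith) fun u hu => ih (j + 1) hu.2)
    rw [pow_succ']
    exact mul_le_mul_of_nonneg_right (by linarith) (pow_nonneg h0 _)

theorem gon_nonneg (hC : Monotone C) (k j : ℕ) (ht : t ≤ C (j + 1)) : 0 ≤ gon C k j t := by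
  induction k generalizing j t with
  | zero => exact zero_le_one
  | succ k ih =>
    exact intervalIntegral.integral_nonneg ht fun u hu =>
      ih (j + 1) (hu.2.trans (hC (Nat.le_succ _)))

theorem gon_le_one (hC : Monotone C) (k j : ℕ) (h1 : C (j + k) ≤ 1) (h0 : 0 ≤ t) (ht : t ≤ C (j + 1)) :
    gon C k j t ≤ 1 := by
  induction k generalizing j t with
  | zero => exact le_rfl
  | succ k ih =>
    have h2 : C (j + 1) ≤ C (j + (k + 1)) := hC (by omega)
    refine (Gon_up (gon_cont C k (j + 1)) ht fun u hu => ih (j + 1)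
      (by rwa [Nat.add_right_comm]) (h0.trans hu.1) (hu.2.trans (hC (Nat.le_succ _)))).trans ?_
    linarith

theorem gon_le_first (hC : Monotone C) (k j : ℕ) (h1 : C (j + (k + 1)) ≤ 1) (h0 : 0 ≤ t)
    (ht : t ≤ C (j + 1)) : gon C (k + 1) j t ≤ C (j + 1) - t :=
  (Gon_up (gon_cont C k (j + 1)) ht fun _ hu => gon_le_one hC k (j + 1)
    (by rwa [Nat.add_right_comm]) (h0.trans hu.1) (hu.2.trans (hC (Nat.le_succ _)))).trans_eq
      (mul_one _)

theorem gon_lip (hC : Monotone C) (k j : ℕ) (h1 : C (j + k) ≤ 1) (h0 : 0 ≤ t) (ht : t ≤ C (j + 1))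
    (h0' : 0 ≤ t') (ht' : t' ≤ C (j + 1)) : |gon C k j t - gon C k j t'| ≤ |t - t'| := by
  cases k with
  | zero => simp [gon]
  | succ k =>
    have hc := gon_cont C k (j + 1)
    have e : gon C (k + 1) j t - gon C (k + 1) j t' = ∫ u in t..t', gon C k (j + 1) u :=
      sub_eq_of_eq_add (intervalIntegral.integral_add_adjacent_intervals
        (hc.intervalIntegrable _ _) (hc.intervalIntegrable _ _)).symm
    rw [e, abs_sub_comm, ← one_mul |t' - t|, ← Real.norm_eq_abs]
    refine intervalIntegral.norm_integral_le_of_norm_le_const fun u hu => ?_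
    have h2 : u ≤ C (j + 1 + 1) := (hu.2.trans (max_le ht ht')).trans (hC (Nat.le_succ _))
    rw [Real.norm_of_nonneg (gon_nonneg hC k (j + 1) h2)]
    exact gon_le_one hC k (j + 1) (by rwa [Nat.add_right_comm]) ((le_min h0 h0').trans hu.1.le) h2

theorem Gon_split (C C' : ℕ → ℝ) (k j : ℕ) (t : ℝ) : gon C' (k + 1) j t =
    (∫ u in t..C (j + 1), gon C' k (j + 1) u) + ∫ u in C (j + 1)..C' (j + 1), gon C' k (j + 1) u :=
  (intervalIntegral.integral_add_adjacent_intervals ((gon_cont _ _ _).intervalIntegrable _ _)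
    ((gon_cont _ _ _).intervalIntegrable _ _)).symm

theorem gon_mono (hC : Monotone C) (hC' : Monotone C') (k j : ℕ)
    (h : ∀ l, j < l → l ≤ j + k → C l ≤ C' l) (ht : t ≤ C (j + 1)) : gon C k j t ≤ gon C' k j t := by
  induction k generalizing j t with
  | zero => exact le_rfl
  | succ k ih =>
    rw [Gon_split C C']
    refine le_add_of_le_of_nonneg (intervalIntegral.integral_mono_on ht
      ((gon_cont _ _ _).intervalIntegrable _ _) ((gon_cont _ _ _).intervalIntegrable _ _)
      fun u hu => ih (j + 1) (fun l a b => h l (by omega) (by omega))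
        (hu.2.trans (hC (Nat.le_succ _)))) ?_
    exact intervalIntegral.integral_nonneg (h _ (by omega) (by omega)) fun u hu =>
      gon_nonneg hC' k (j + 1) (hu.2.trans (hC' (Nat.le_succ _)))

theorem gon_strict (hC : Monotone C) (h0 : 0 < c0) (gap : ∀ l, c0 ≤ C' (l + 1) - C' l) (k j : ℕ)
    (h : ∀ l, j < l → l ≤ j + (k + 1) → C l ≤ C' l) (h1 : C (j + 1) < C' (j + 1)) (ht : t ≤ C (j + 1)) :
    gon C (k + 1) j t < gon C' (k + 1) j t := by
  have hC' : Monotone C' := monotone_nat_of_le_succ fun l => by linarith [gap l]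
  rw [Gon_split C C']
  refine lt_add_of_le_of_pos (intervalIntegral.integral_mono_on ht
    ((gon_cont _ _ _).intervalIntegrable _ _) ((gon_cont _ _ _).intervalIntegrable _ _)
    fun u hu => gon_mono hC hC' k (j + 1) (fun l a b => h l (by omega) (by omega))
      (hu.2.trans (hC (Nat.le_succ _)))) ?_
  exact (mul_pos (sub_pos.2 h1) (pow_pos h0 k)).trans_le (Gon_low (gon_cont C' k (j + 1)) h1.le
    fun u hu => gon_ge h0.le gap k (j + 1) hu.2)

theorem gon_const (T : ℝ) (k j : ℕ) (t : ℝ) : gon (fun _ => T) k j t = (T - t) ^ k / k.factorial := by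
  induction k generalizing j t with
  | zero => simp [gon]
  | succ k ih =>
    simp only [gon, ih]
    rw [intervalIntegral.integral_div, intervalIntegral.integral_comp_sub_left (fun u => u ^ k),
      integral_pow, sub_self, Nat.factorial_succ, zero_pow (Nat.succ_ne_zero k), sub_zero, div_div]
    push_cast
    rfl

end Vale.Agent.P209
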