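import Vale.Agent.P209.FDefs

/-! First hitting times.

`grow_of_local`: if `w ≤ F s` for some `s ∈ [t, t']`, take the last such `s` (closed set); if `s < t'` then
`F s ≤ w` by continuity and a short step gives a later point with `w ≤ F`. Otherwise `F < w` on `[t, t']`
and one adds steps of length `≤ r`. The set in `hit` is closed, bounded below, not empty
(`t = A + |u - F A| / l`). `continuous_hit`: upper and lower semicontinuity (`continuous_iff_lower_upper`
or `tendsto_order`). Upper: with `τ = hit` at `x0` and `η > 0`, near `x0` one has `A x ≤ τ + η`,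
`u x ≤ F x (τ + η) + l η` (at `x0`: `u ≤ F (τ + η)`), so `Grow` at `x` gives `u x ≤ F x (τ + 2 η)`.
Lower: if `t < τ` pick `t < t' < τ`; either `t' < A x0`, or `F x0 t' < u x0`, both persist near `x0`;
conclude with `hit_ge` or `hit_le_iff`. -/

namespace Vale.Agent.P209

variable {A w l r u u' t : ℝ} {F F' : ℝ → ℝ}

theorem grow_of_local (hF : Continuous F) (hr : 0 < r) (hl : 0 < l)
    (h : ∀ t Δ, A ≤ t → 0 ≤ Δ → Δ ≤ r → F t ≤ w → F t + l * Δ ≤ F (t + Δ)) : Grow A w l F := by
  intro t t' ht htt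
  have hc : IsClosed {x | min w (F t + l * (x - t)) ≤ F x} := isClosed_le (by fun_prop) hF
  have key : Set.Icc t t' ⊆ {x | min w (F t + l * (x - t)) ≤ F x} := by
    refine IsClosed.Icc_subset_of_forall_exists_gt (hc.inter isClosed_Icc) (by simp) ?_
    rintro x ⟨hx, hx1, -⟩ y hy
    have hy' : x < y := hy
    have hx' : min w (F t + l * (x - t)) ≤ F x := hx
    rcases le_or_gt (F x) w with h1 | h1
    · have hd : 0 < min r (y - x) := lt_min hr (by linarith)
      have hd1 := min_le_left r (y - x)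
      have hd2 := min_le_right r (y - x)
      generalize min r (y - x) = Δ at hd hd1 hd2
      have h2 := h x Δ (ht.trans hx1) hd.le hd1 h1
      refine ⟨x + Δ, ?_, by linarith, by linarith⟩
      have h3 := mul_pos hl hd
      change min w (F t + l * (x + Δ - t)) ≤ F (x + Δ)
      rcases min_le_iff.1 hx' with h4 | h4
      · exact (min_le_left _ _).trans (by linarith)
      · exact (min_le_right _ _).trans (by linarith)
    · have h2 : ∀ᶠ z in nhds x, w < F z := continuousAt_const.eventually_lt hF.continuousAt h1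
      obtain ⟨z, h3, h4⟩ := ((h2.filter_mono nhdsWithin_le_nhds).and (Ioc_mem_nhdsGT hy')).exists
      exact ⟨z, (min_le_left _ _).trans h3.le, h4⟩
  exact key ⟨htt, le_rfl⟩

theorem Hit_bdd (A : ℝ) (F : ℝ → ℝ) (u : ℝ) : BddBelow {t | A ≤ t ∧ u ≤ F t} :=
  ⟨A, fun _ h => h.1⟩

theorem Hit_ne (hG : Grow A w l F) (hl : 0 < l) (hu : u ≤ w) :
    Set.Nonempty {t | A ≤ t ∧ u ≤ F t} := by
  have h1 : 0 ≤ |u - F A| / l := by positivity
  refine ⟨A + |u - F A| / l, by linarith, le_trans (le_min hu ?_) (hG A _ le_rfl (by linarith))⟩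
  rw [add_sub_cancel_left, mul_div_cancel₀ _ hl.ne']
  linarith [le_abs_self (u - F A)]

theorem Hit_mem (hF : Continuous F) (hG : Grow A w l F) (hl : 0 < l) (hu : u ≤ w) :
    A ≤ hit A F u ∧ u ≤ F (hit A F u) := by
  have hc : IsClosed {t | A ≤ t ∧ u ≤ F t} :=
    (isClosed_le continuous_const continuous_id).inter (isClosed_le continuous_const hF)
  exact hc.csInf_mem (Hit_ne hG hl hu) (Hit_bdd A F u)

theorem hit_ge (hG : Grow A w l F) (hl : 0 < l) (hu : u ≤ w) : A ≤ hit A F u := by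
  exact le_csInf (Hit_ne hG hl hu) fun _ h => h.1

theorem hit_le_iff (hF : Continuous F) (hG : Grow A w l F) (hl : 0 < l) (hu : u ≤ w) (ht : A ≤ t) :
    hit A F u ≤ t ↔ u ≤ F t := by
  refine ⟨fun h => ?_, fun h => csInf_le (Hit_bdd A F u) ⟨ht, h⟩⟩
  obtain ⟨h1, h2⟩ := Hit_mem hF hG hl hu
  have h3 := mul_nonneg hl.le (sub_nonneg.2 h)
  exact (le_min hu (by linarith)).trans (hG _ _ h1 h)

theorem hit_eq (hF : Continuous F) (hG : Grow A w l F) (hl : 0 < l) (hu : u ≤ w) (hA : F A ≤ u) :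
    F (hit A F u) = u := by
  obtain ⟨h1, h2⟩ := Hit_mem hF hG hl hu
  obtain ⟨s, ⟨h3, h4⟩, h5⟩ := intermediate_value_Icc h1 hF.continuousOn ⟨hA, h2⟩
  have h6 : hit A F u ≤ s := csInf_le (Hit_bdd A F u) ⟨h3, h5.ge⟩
  rw [← le_antisymm h4 h6, h5]

theorem hit_lip (hF : Continuous F) (hG : Grow A w l F) (hl : 0 < l) (h : u ≤ u') (hu : u' ≤ w) :
    hit A F u ≤ hit A F u' ∧ hit A F u' ≤ hit A F u + (u' - u) / l := by
  refine ⟨csInf_le_csInf (Hit_bdd A F u) (Hit_ne hG hl hu) fun _ h1 => ⟨h1.1, h.trans h1.2⟩, ?_⟩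
  obtain ⟨h1, h2⟩ := Hit_mem hF hG hl (h.trans hu)
  have h3 : 0 ≤ (u' - u) / l := div_nonneg (sub_nonneg.2 h) hl.le
  refine (hit_le_iff hF hG hl hu (by linarith)).2 ?_
  refine le_trans (le_min hu ?_) (hG _ _ h1 (by linarith))
  rw [add_sub_cancel_left, mul_div_cancel₀ _ hl.ne']
  linarith

theorem hit_anti (hG' : Grow A w l F') (hl : 0 < l) (hu : u ≤ w) (h : ∀ t, A ≤ t → F' t ≤ F t) :
    hit A F u ≤ hit A F' u := by
  exact csInf_le_csInf (Hit_bdd A F u) (Hit_ne hG' hl hu) fun t h1 => ⟨h1.1, h1.2.trans (h t h1.1)⟩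

theorem continuous_hit {X : Type} [TopologicalSpace X] {A u w : X → ℝ} {F : X → ℝ → ℝ} (hl : 0 < l)
    (hA : Continuous A) (hu : Continuous u) (hF : Continuous fun p : X × ℝ => F p.1 p.2)
    (hG : ∀ x, Grow (A x) (w x) l (F x)) (hw : ∀ x, u x ≤ w x) :
    Continuous fun x => hit (A x) (F x) (u x) := by
  have hFx : ∀ x, Continuous (F x) := fun x => hF.comp (Continuous.prodMk_right x)
  have hFt : ∀ t, Continuous fun x => F x t := fun t => hF.comp (Continuous.prodMk_left t)
  refine continuous_iff_continuousAt.2 fun x0 => tendsto_order.2 ⟨fun a ha => ?_, fun b hb => ?_⟩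
  · obtain ⟨t, ht1, ht2⟩ := exists_between ha
    rcases lt_or_ge t (A x0) with h1 | h1
    · filter_upwards [continuousAt_const.eventually_lt hA.continuousAt h1] with x hx
      exact (ht1.trans hx).trans_le (hit_ge (hG x) hl (hw x))
    · have h2 : F x0 t < u x0 :=
        not_le.1 fun h => absurd ((hit_le_iff (hFx x0) (hG x0) hl (hw x0) h1).2 h) (not_le.2 ht2)
      filter_upwards [(hFt t).continuousAt.eventually_lt hu.continuousAt h2] with x hx
      rcases lt_or_ge t (A x) with h3 | h3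
      · exact (ht1.trans h3).trans_le (hit_ge (hG x) hl (hw x))
      · exact ht1.trans (not_le.1 fun h =>
          absurd ((hit_le_iff (hFx x) (hG x) hl (hw x) h3).1 h) (not_le.2 hx))
  · have h0 := hit_ge (hG x0) hl (hw x0)
    obtain ⟨t, ht1, ht2⟩ := exists_between hb
    obtain ⟨t', ht3, ht4⟩ := exists_between ht2
    have h1 : u x0 ≤ F x0 t := (hit_le_iff (hFx x0) (hG x0) hl (hw x0) (by linarith)).1 ht1.le
    have h2 := mul_pos hl (sub_pos.2 ht3)
    have h3 : ∀ᶠ x in nhds x0, u x < F x t + l * (t' - t) :=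
      hu.continuousAt.eventually_lt ((hFt t).add continuous_const).continuousAt (by linarith)
    have h4 : ∀ᶠ x in nhds x0, A x < t :=
      hA.continuousAt.eventually_lt continuousAt_const (by linarith)
    filter_upwards [h3, h4] with x hx3 hx4
    refine lt_of_le_of_lt ((hit_le_iff (hFx x) (hG x) hl (hw x) (by linarith)).2 ?_) ht4
    exact (le_min (hw x) hx3.le).trans (hG x t t' hx4.le ht3.le)

end Vale.Agent.P209
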