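import Vale.Agent.P209.GDefs

/-! The last coordinate: the balls are stacked.

`n = j + 1`, `gon C 1 j t = C (j + 1) - t`, so `∑ ρ i x + m ≤ C (j + 1) - T x`. Number the balls by
`e = Fintype.equivFin ι`, put `ε = m / (card ι + 1)` and `top i x = T x + ∑ k with e k < e i, (ρ k x + ε)`.
With `ex x l = if h : l < j + 1 then x ⟨l, h⟩ else 0` (continuous) let `b i l x = a i l (ex x)` for `l < j` and the constant
function `top i (ex x)` for `l = j`. For `x ∈ Kset` apply `key` with `η` extended by zero (`Fin.sum_univ_castSucc`,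
`Fin.sum_univ_eq_sum_range`): `η last ≤ ρ i`, so `x last ∈ [top i, top i + ρ i]`. These intervals are disjoint and lie in
`[T, C (j + 1)]`; `pv x l = pn (ex x) l` for `l ≤ j + 1`. -/

namespace Vale.Agent.P209

open Finset

variable {ι : Type} [Fintype ι] {j : ℕ} {c0 r : ℝ} {C : ℕ → ℝ} {rr : ι → ℝ} {lev : ι → ℕ}
  {ζ : ι → ℕ → ℝ} {T : (ℕ → ℝ) → ℝ} {ρ : ι → (ℕ → ℝ) → ℝ} {u : ℕ → (ℕ → ℝ) → ℝ}
  {a : ι → ℕ → (ℕ → ℝ) → ℝ → ℝ}

/-- Extension by zero. -/
def Last_ex {n : ℕ} (x : Fin n → ℝ) (l : ℕ) : ℝ := if h : l < n then x ⟨l, h⟩ else 0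

theorem Last_val {n : ℕ} (x : Fin n → ℝ) (l : Fin n) : Last_ex x l = x l := dif_pos l.2

theorem Last_cont {n : ℕ} : Continuous fun x : Fin n → ℝ => Last_ex x := by
  refine continuous_pi fun l => ?_
  unfold Last_ex
  split_ifs
  · exact continuous_apply _
  · exact continuous_const

theorem Last_dep {n : ℕ} {x y : Fin n → ℝ} {l : Fin n} (h : ∀ k, k < l → x k = y k) (k : ℕ)
    (hk : k < l) : Last_ex x k = Last_ex y k :=
  (Last_val x ⟨k, hk.trans l.2⟩).trans ((h _ hk).trans (Last_val y ⟨k, hk.trans l.2⟩).symm)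

theorem Last_pv {n : ℕ} (x : Fin n → ℝ) {l : ℕ} (hl : l ≤ n) : pv x l = pn (Last_ex x) l := by
  cases l with
  | zero => exact dif_neg (by simp)
  | succ l => exact (dif_pos ⟨l.succ_pos, hl⟩).trans (Last_val x ⟨l, hl⟩).symm

theorem Last_top (h : St (j + 1) c0 r C rr lev ζ j T ρ u a) :
    ∃ t : ι → (ℕ → ℝ) → ℝ, (∀ i, Continuous (t i)) ∧ (∀ i, Dep j (t i)) ∧
      (∀ i y, T y ≤ t i y ∧ t i y + ρ i y ≤ C (j + 1)) ∧
      ∀ i k, i ≠ k → ∀ y, t i y + ρ i y < t k y ∨ t k y + ρ k y < t i y := by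
  obtain ⟨m, m0, hm⟩ := h.vol
  obtain ⟨ε, hε⟩ : ∃ ε : ℝ, ε = m / (Fintype.card ι + 1) := ⟨_, rfl⟩
  have e0 : 0 < ε := by rw [hε]; positivity
  have e1 : ε * (Fintype.card ι + 1) = m := by rw [hε]; field_simp
  let e := Fintype.equivFin ι
  have key : ∀ i y (s : Finset ι), i ∈ s → (∀ k, e k < e i → k ∈ s) →
      ∑ k ∈ univ.filter fun k => e k < e i, (ρ k y + ε) + (ρ i y + ε) ≤ ∑ k ∈ s, (ρ k y + ε) := by
    intro i y s h1 h2
    classical
    rw [add_comm, ← sum_insert (f := fun k => ρ k y + ε) (by simp)]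
    exact sum_le_sum_of_subset_of_nonneg (insert_subset h1 fun k hk => h2 k (mem_filter.1 hk).2)
      fun k _ _ => add_nonneg (h.ρ01 k y).1 e0.le
  refine ⟨fun i y => T y + ∑ k ∈ univ.filter fun k => e k < e i, (ρ k y + ε), fun i =>
    h.cT.add (continuous_finsetSum _ fun k _ => (h.cρ k).add continuous_const),
    fun i x y hxy => ?_, fun i y => ⟨le_add_of_nonneg_right (sum_nonneg fun k _ =>
      add_nonneg (h.ρ01 k y).1 e0.le), ?_⟩, fun i k hik y => ?_⟩
  · simp only [h.dT x y hxy, fun k => h.dρ k x y hxy]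
  · have h1 := key i y univ (mem_univ _) fun k _ => mem_univ _
    have h2 := hm y
    simp only [Nat.add_sub_cancel_left, pow_one, Nat.factorial_one, Nat.cast_one, one_mul, gon,
      intervalIntegral.integral_const, smul_eq_mul, mul_one] at h2
    rw [sum_add_distrib (s := univ), sum_const, card_univ, nsmul_eq_mul] at h1
    linarith
  · rcases lt_or_gt_of_ne (e.injective.ne hik) with h1 | h1
    · have h2 := key i y (univ.filter fun l => e l < e k) (mem_filter.2 ⟨mem_univ _, h1⟩)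
        fun l hl => mem_filter.2 ⟨mem_univ _, hl.trans h1⟩
      exact Or.inl (by linarith)
    · have h2 := key k y (univ.filter fun l => e l < e i) (mem_filter.2 ⟨mem_univ _, h1⟩)
        fun l hl => mem_filter.2 ⟨mem_univ _, hl.trans h1⟩
      exact Or.inr (by linarith)

theorem St.last (h : St (j + 1) c0 r C rr lev ζ j T ρ u a) :
    ∃ b : ι → Fin (j + 1) → (Fin (j + 1) → ℝ) → ℝ → ℝ, (∀ i, Valley (b i)) ∧
      (∀ i, Kset (rr i) 0 (b i) ⊆ PS (j + 1) C) ∧
      Pairwise fun i k => Disjoint (Kset (rr i) 0 (b i)) (Kset (rr k) 0 (b k)) := by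
  obtain ⟨t, t1, t2, t3, t4⟩ := Last_top h
  obtain ⟨b, hb⟩ : ∃ b : ι → Fin (j + 1) → (Fin (j + 1) → ℝ) → ℝ → ℝ,
    b = fun i (l : Fin (j + 1)) (x : Fin (j + 1) → ℝ) => if (l : ℕ) < j then a i l (Last_ex x)
      else fun _ => t i (Last_ex x) := ⟨_, rfl⟩
  have b1 : ∀ i (l : Fin (j + 1)) x, (l : ℕ) < j → b i l x = a i l (Last_ex x) :=
    fun i l x hl => by rw [hb]; exact if_pos hl
  have b2 : ∀ i (l : Fin (j + 1)) x, ¬(l : ℕ) < j → b i l x = fun _ => t i (Last_ex x) :=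
    fun i l x hl => by rw [hb]; exact if_neg hl
  have key : ∀ i, ∀ x ∈ Kset (rr i) 0 (b i), (t i (Last_ex x) ≤ x (Fin.last j) ∧
      x (Fin.last j) ≤ t i (Last_ex x) + ρ i (Last_ex x)) ∧ T (Last_ex x) = pn (Last_ex x) j ∧
      ∀ l, l < j → pn (Last_ex x) l ≤ Last_ex x l ∧ Last_ex x l ≤ C (l + 1) := by
    rintro i x ⟨η, k0, k1, k2⟩
    simp only [add_zero, sub_zero] at k1 k2
    have k3 : ∑ l ∈ range j, Last_ex η l + η (Fin.last j) = ∑ l, η l := by
      rw [← Last_val η (Fin.last j), Fin.val_last, ← sum_range_succ, sum_range]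
      exact sum_congr rfl fun l _ => Last_val η l
    have k4 := k0 (Fin.last j)
    obtain ⟨k5, k6, k7⟩ := h.key i (Last_ex x) (Last_ex η)
      (fun l hl => (k0 _).trans_eq (Last_val η ⟨l, by omega⟩).symm) (by linarith) fun l hl => by
        have k8 := k2 ⟨l, by omega⟩
        rwa [b1 i _ x hl, ← Last_val x, ← Last_val η] at k8
    have k8 := k2 (Fin.last j)
    rw [b2 i _ x (by simp)] at k8
    exact ⟨⟨k8.1, by linarith [k8.2]⟩, k5, k7⟩
  refine ⟨b, fun i => ⟨fun l => ?_, fun l x y hxy => ?_, fun l x => ?_, fun l x => ?_,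
    max 1 (C (j + 1)), fun l x s => ?_⟩, fun i x hx l => ?_,
    fun i k hik => Set.disjoint_left.2 fun x h1 h2 => ?_⟩
  · by_cases hl : (l : ℕ) < j
    · simp only [b1 i l _ hl]
      exact (h.ca i l hl).comp ((Last_cont.comp continuous_fst).prodMk continuous_snd)
    · simp only [b2 i l _ hl]
      exact (t1 i).comp (Last_cont.comp continuous_fst)
  · by_cases hl : (l : ℕ) < j
    · rw [b1 i l _ hl, b1 i l _ hl, h.da i l hl _ _ (Last_dep hxy)]
    · rw [b2 i l _ hl, b2 i l _ hl, t2 i _ _ fun k hk => Last_dep hxy k (by omega)]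
  · by_cases hl : (l : ℕ) < j
    · exact b1 i l x hl ▸ h.anti i l _ hl
    · exact b2 i l x hl ▸ antitone_const
  · by_cases hl : (l : ℕ) < j
    · exact b1 i l x hl ▸ h.mono i l _ hl
    · rw [b2 i l x hl]
      exact fun s s' hs => add_le_add le_rfl hs
  · by_cases hl : (l : ℕ) < j
    · rw [b1 i l x hl, abs_of_nonneg (h.a01 i l _ s hl).1]
      exact le_max_of_le_left (h.a01 i l _ s hl).2
    · rw [b2 i l x hl, abs_of_nonneg ((h.T01 _).1.trans (t3 i _).1)]
      exact le_max_of_le_right ((le_add_of_nonneg_right (h.ρ01 i _).1).trans (t3 i _).2)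
  · obtain ⟨k1, k2, k3⟩ := key i x hx
    rw [Last_pv x l.2.le]
    by_cases hl : (l : ℕ) < j
    · exact Last_val x l ▸ k3 l hl
    · obtain rfl : l = Fin.last j := Fin.ext (by have := l.2; simp only [Fin.val_last]; omega)
      rw [Fin.val_last, ← k2]
      exact ⟨(t3 i _).1.trans k1.1, k1.2.trans (t3 i _).2⟩
  · have k1 := (key i x h1).1
    have k2 := (key k x h2).1
    rcases t4 i k hik (Last_ex x) with h3 | h3 <;> linarith [k1.1, k1.2, k2.1, k2.2]

end Vale.Agent.P209
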