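import Vale.Agent.P209.Step
import Vale.Agent.P209.Last
import Vale.Agent.P209.AsgE

/-! Filling one piece. `Γ` from `exists_asg`, `τ, δ` from `exists_small`; the state at level `0` is `T = 0`,
`ρ i = rr i`, `u = 0`, `a = 0`; induction with `St.step` up to level `n - 1`; `St.last`. -/

namespace Vale.Agent.P209

open Finset

theorem piece {n : ℕ} (hn : 1 ≤ n) {Λ c0 θ : ℝ} (hΛ : 1 ≤ Λ) (hc0 : 0 < c0) (hc1 : c0 ≤ 1)
    (hθ : 0 < θ) : ∃ δ : ℝ, 0 < δ ∧ ∀ r, 0 < r → r ≤ δ → ∀ (ι : Type) [Fintype ι] (rr : ι → ℝ)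
      (C : ℕ → ℝ), (∀ i, 0 ≤ rr i ∧ rr i ≤ r) → θ ≤ (univ.filter fun i => r / Λ ≤ rr i).card * r ^ n →
      Walls n c0 C → ∑ i, rr i ^ n < n.factorial * gon C n 0 0 →
      ∃ b : ι → Fin n → (Fin n → ℝ) → ℝ → ℝ, (∀ i, Valley (b i)) ∧ (∀ i, Kset (rr i) 0 (b i) ⊆ PS n C) ∧
        Pairwise fun i k => Disjoint (Kset (rr i) 0 (b i)) (Kset (rr k) 0 (b k)) := by
  obtain ⟨Γ, hΓ, hA⟩ := exists_asg n hΛ hc0
  obtain ⟨τ, δ, hδ, hτ, hS⟩ := exists_small n hc0 hc1 hΓ hθ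
  refine ⟨δ, hδ, fun r hr hrδ ι _ rr C hrr hbig hC hvol => ?_⟩
  have hs := hS r hr hrδ
  obtain ⟨lev, role, ζ, hasg⟩ := hA τ r hr hs.rτ hs.τ1 ι rr (hτ.trans hbig)
  have h0 : St n c0 r C rr lev ζ 0 (fun _ => 0) (fun i _ => rr i) (fun _ _ => 0)
      (fun _ _ _ _ => 0) :=
    { cT := continuous_const
      dT := fun _ _ _ => rfl
      T01 := fun _ => ⟨le_rfl, hC.C0.ge⟩
      cρ := fun _ => continuous_const
      dρ := fun _ _ _ _ => rfl
      ρ01 := fun i _ => hrr i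
      vol := ⟨n.factorial * gon C n 0 0 - ∑ i, rr i ^ n, by linarith, fun _ => by
        simp only [Nat.sub_zero]; linarith⟩
      u01 := fun _ _ => ⟨le_rfl, zero_le_one⟩
      lo := fun i _ _ => by simp
      hi := fun _ _ _ _ l hl => by simp at hl
      ca := fun _ _ hl => by omega
      da := fun _ _ hl => by omega
      anti := fun _ _ _ hl => by omega
      mono := fun _ _ _ hl => by omega
      a01 := fun _ _ _ _ hl => by omega
      key := fun i x η _ _ _ => ⟨rfl, by simp, fun l hl => by omega⟩ }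
  have hall : ∀ j, j < n → ∃ T ρ u a, St n c0 r C rr lev ζ j T ρ u a := by
    intro j
    induction j with
    | zero => exact fun _ => ⟨_, _, _, _, h0⟩
    | succ j ih =>
      intro hj
      obtain ⟨T, ρ, u, a, h⟩ := ih (by omega)
      exact h.step hs hj hΛ hC hasg
  obtain ⟨j, rfl⟩ : ∃ j, n = j + 1 := ⟨n - 1, by omega⟩
  obtain ⟨T, ρ, u, a, h⟩ := hall j (by omega)
  exact h.last

end Vale.Agent.P209
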