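import Vale.Agent.P209.VI

/-! Pieces with prescribed volumes.

Let `f m c = n! gon (cs c m) n 0 0`, continuous in `c` (`gon_cont2`). On the compact simplex `{c ≥ 0, ∑ c = T}`
maximise `φ c = min m, f m c / V m`; the maximum `φ*` is positive (centre, `gon_ge`). Suppose `φ* < 1`. Among
the maximisers take one with the least number of `m` in `I = {m | f m c = φ* V m}`. `I` is not empty and not
everything (`vol_cover`). All `c j > 0`: `f m c > 0` and `gon = 0` when `cs c m 1 = 0`. For small `η > 0` put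
`c' (ix (k + 1)) = c (ix (k + 1)) + η (χ k - χ (k + 1))`, `χ` the indicator of `I` read mod `n + 1`; then
`cs c' m l = cs c m l + η (χ m - χ (m + l))`, `∑ c' = T`, `c' > 0`. For `m ∈ I`, `f m` does not drop (`gon_mono`), and it
grows for an `m ∈ I` with `m + 1 ∉ I` (`gon_strict`); for `m ∉ I` use continuity. So `c'` is a maximiser with smaller `I`
or has larger `φ`. -/

namespace Vale.Agent.P209

open Finset

theorem VM_ix_self {n : ℕ} (m : Fin (n + 1)) : ix n m = m := by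
  apply Fin.ext
  simp [ix, Nat.mod_eq_of_lt m.2]

theorem VM_ix_add {n : ℕ} (a b : ℕ) : ix n ((ix n a : ℕ) + b) = ix n (a + b) := by
  apply Fin.ext
  simp [ix]

theorem VM_ix_per {n : ℕ} (a : ℕ) : ix n (a + (n + 1)) = ix n a := by
  apply Fin.ext
  simp [ix]

theorem VM_cs_mono {n : ℕ} {c : Fin (n + 1) → ℝ} (h0 : ∀ j, 0 ≤ c j) (m : Fin (n + 1)) :
    Monotone (cs c m) := by
  refine monotone_nat_of_le_succ fun l => ?_
  simp only [cs, sum_range_succ]
  linarith [h0 (ix n (m + 1 + l))]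

theorem VM_cs_gap {n : ℕ} {c : Fin (n + 1) → ℝ} {e : ℝ} (h0 : ∀ j, e ≤ c j) (m : Fin (n + 1)) (l : ℕ) :
    e ≤ cs c m (l + 1) - cs c m l := by
  simp only [cs, sum_range_succ]
  linarith [h0 (ix n (m + 1 + l))]

theorem VM_cs_zero {n : ℕ} (c : Fin (n + 1) → ℝ) (m : Fin (n + 1)) : cs c m 0 = 0 := by
  simp [cs]

theorem VM_cs_nonneg {n : ℕ} {c : Fin (n + 1) → ℝ} (h0 : ∀ j, 0 ≤ c j) (m : Fin (n + 1)) (l : ℕ) :
    0 ≤ cs c m l :=
  sum_nonneg fun _ _ => h0 _

theorem VM_cont {n : ℕ} (m : Fin (n + 1)) :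
    Continuous fun c : Fin (n + 1) → ℝ => (n.factorial : ℝ) * gon (cs c m) n 0 0 := by
  have h1 : Continuous fun c : Fin (n + 1) → ℝ => ((cs c m, (0 : ℝ)) : (ℕ → ℝ) × ℝ) := by
    refine Continuous.prodMk (continuous_pi fun l => ?_) continuous_const
    unfold cs
    exact continuous_finsetSum _ fun j _ => continuous_apply _
  exact continuous_const.mul ((gon_cont2 n 0).comp h1)

/-- The direction of the perturbation. -/
def VMd {n : ℕ} (x : Fin (n + 1) → ℝ) (j : Fin (n + 1)) : ℝ := x (ix n (j + n)) - x j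

theorem VM_cs_d {n : ℕ} (x : Fin (n + 1) → ℝ) (m : Fin (n + 1)) (l : ℕ) :
    cs (VMd x) m l = x m - x (ix n (m + l)) := by
  induction l with
  | zero => simp [cs, VM_ix_self]
  | succ l ih =>
    have e : cs (VMd x) m (l + 1) = cs (VMd x) m l + VMd x (ix n (m + 1 + l)) := by
      simp only [cs, sum_range_succ]
    rw [e, ih, VMd, VM_ix_add, show (m : ℕ) + 1 + l + n = m + l + (n + 1) by ring, VM_ix_per,
      show (m : ℕ) + 1 + l = m + (l + 1) by ring]
    ring

theorem VM_sum_d {n : ℕ} (x : Fin (n + 1) → ℝ) : ∑ j, VMd x j = 0 := by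
  have h := VM_cs_d x 0 (n + 1)
  rw [VM_ix_per, VM_ix_self, sub_self, cs, sum_ix] at h
  exact h

theorem VM_cs_add {n : ℕ} (c d : Fin (n + 1) → ℝ) (η : ℝ) (m : Fin (n + 1)) (l : ℕ) :
    cs (fun j => c j + η * d j) m l = cs c m l + η * cs d m l := by
  simp only [cs, sum_add_distrib, mul_sum]

theorem VM_exit {n : ℕ} {I : Finset (Fin (n + 1))} {m j : Fin (n + 1)} (hm : m ∈ I) (hj : j ∉ I) :
    ∃ k ∈ I, ix n (k + 1) ∉ I := by
  by_contra hc
  push Not at hc
  have key : ∀ l : ℕ, ix n (m + l) ∈ I := by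
    intro l
    induction l with
    | zero => simpa [VM_ix_self] using hm
    | succ l ih =>
      have := hc _ ih
      rwa [VM_ix_add, add_assoc] at this
  have := key (n + 1 - m + j)
  rw [show (m : ℕ) + (n + 1 - m + j) = j + (n + 1) by have := m.2; omega, VM_ix_per, VM_ix_self] at this
  exact hj this

theorem VM_pos {k : ℕ} {c : Fin (k + 1 + 1) → ℝ} (h0 : ∀ j, 0 ≤ c j)
    (hf : ∀ m, 0 < ((k + 1).factorial : ℝ) * gon (cs c m) (k + 1) 0 0) (j : Fin (k + 1 + 1)) : 0 < c j := by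
  rcases (h0 j).lt_or_eq with h | h
  · exact h
  · exfalso
    have h1 := hf (ix (k + 1) (j + (k + 1)))
    have h2 : cs c (ix (k + 1) (j + (k + 1))) (0 + 1) = 0 := by
      simp only [cs, zero_add, sum_range_one, add_zero]
      rw [VM_ix_add, add_assoc, VM_ix_per, VM_ix_self, ← h]
    rw [gon, h2, intervalIntegral.integral_same, mul_zero] at h1
    exact lt_irrefl _ h1

open Classical in
theorem VM_step {k : ℕ} {W : Fin (k + 1 + 1) → ℝ} (hW : ∀ m, 0 < W m) {c : Fin (k + 1 + 1) → ℝ}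
    (h0 : ∀ j, 0 ≤ c j) (hf : ∀ m, W m ≤ ((k + 1).factorial : ℝ) * gon (cs c m) (k + 1) 0 0)
    {m1 j1 : Fin (k + 1 + 1)} (hm1 : ((k + 1).factorial : ℝ) * gon (cs c m1) (k + 1) 0 0 ≤ W m1)
    (hj1 : W j1 < ((k + 1).factorial : ℝ) * gon (cs c j1) (k + 1) 0 0) :
    ∃ c' : Fin (k + 1 + 1) → ℝ, (∀ j, 0 ≤ c' j) ∧ ∑ j, c' j = ∑ j, c j ∧
      (∀ m, W m ≤ ((k + 1).factorial : ℝ) * gon (cs c' m) (k + 1) 0 0) ∧
      (univ.filter fun m => ((k + 1).factorial : ℝ) * gon (cs c' m) (k + 1) 0 0 ≤ W m).card <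
        (univ.filter fun m => ((k + 1).factorial : ℝ) * gon (cs c m) (k + 1) 0 0 ≤ W m).card := by
  set I := univ.filter fun m => ((k + 1).factorial : ℝ) * gon (cs c m) (k + 1) 0 0 ≤ W m with hI
  have hpos := VM_pos h0 fun m => (hW m).trans_le (hf m)
  obtain ⟨m0, hm0, hm0'⟩ := VM_exit (I := I) (m := m1) (j := j1) (by simpa [hI] using hm1)
    (by simpa [hI] using hj1)
  set x : Fin (k + 1 + 1) → ℝ := fun j => if j ∈ I then 1 else 0 with hx
  have hx1 : ∀ j, x j ≤ 1 := fun j => by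
    simp only [hx]
    split_ifs <;> norm_num
  have hcont : Continuous fun η : ℝ => fun j => c j + η * VMd x j := by fun_prop
  have e1 : ∀ᶠ η in nhds (0 : ℝ), ∀ j, 0 < c j + η * VMd x j := by
    rw [Filter.eventually_all]
    intro j
    have hc : Continuous fun η : ℝ => c j + η * VMd x j := by fun_prop
    exact hc.continuousAt.eventually (lt_mem_nhds (by simpa using hpos j))
  have e2 : ∀ᶠ η in nhds (0 : ℝ), ∀ m, m ∉ I →
      W m < ((k + 1).factorial : ℝ) * gon (cs (fun j => c j + η * VMd x j) m) (k + 1) 0 0 := by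
    rw [Filter.eventually_all]
    intro m
    by_cases hm : m ∈ I
    · exact Filter.Eventually.of_forall fun η h => absurd hm h
    · have hc := (VM_cont m).comp hcont
      have hlt : W m < ((k + 1).factorial : ℝ) * gon (cs c m) (k + 1) 0 0 := by simpa [hI] using hm
      have := hc.continuousAt (x := 0).eventually (lt_mem_nhds (a := W m) (by simpa using hlt))
      exact this.mono fun η h _ => h
  obtain ⟨η, ⟨h1, h2⟩, hη⟩ := (((e1.and e2).filter_mono (nhdsWithin_le_nhds (s := Set.Ioi 0))).and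
    self_mem_nhdsWithin).exists
  have hη : 0 < η := hη
  set c' : Fin (k + 1 + 1) → ℝ := fun j => c j + η * VMd x j with hc'
  have h0' : ∀ j, 0 ≤ c' j := fun j => (h1 j).le
  have hfac : (0 : ℝ) < ((k + 1).factorial : ℝ) := by exact_mod_cast Nat.factorial_pos _
  have hle : ∀ m ∈ I, ∀ l, cs c m l ≤ cs c' m l := by
    intro m hm l
    rw [hc', VM_cs_add, VM_cs_d]
    have : x m = 1 := by simp [hx, hm]
    have := hx1 (ix (k + 1) (m + l))
    nlinarith
  have hmono : ∀ m ∈ I, gon (cs c m) (k + 1) 0 0 ≤ gon (cs c' m) (k + 1) 0 0 := fun m hm =>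
    gon_mono (VM_cs_mono h0 m) (VM_cs_mono h0' m) _ _ (fun l _ _ => hle m hm l) (VM_cs_nonneg h0 m _)
  obtain ⟨j0, -, hj0⟩ := exists_min_image univ c' univ_nonempty
  have hstrict : gon (cs c m0) (k + 1) 0 0 < gon (cs c' m0) (k + 1) 0 0 := by
    refine gon_strict (c0 := c' j0) (VM_cs_mono h0 m0) (h1 j0)
      (VM_cs_gap (fun j => hj0 j (mem_univ j)) m0) k 0 (fun l _ _ => hle m0 hm0 l) ?_ (VM_cs_nonneg h0 m0 _)
    rw [hc', VM_cs_add, VM_cs_d]
    have a1 : x m0 = 1 := by simp [hx, hm0]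
    have a2 : x (ix (k + 1) (m0 + (0 + 1))) = 0 := by
      simp only [hx, zero_add]
      rw [if_neg hm0']
    rw [a1, a2]
    linarith
  refine ⟨c', h0', ?_, fun m => ?_, card_lt_card ⟨fun m hm => ?_, fun hsub => ?_⟩⟩
  · simp only [hc', sum_add_distrib, ← mul_sum, VM_sum_d, mul_zero, add_zero]
  · by_cases hm : m ∈ I
    · exact (hf m).trans (mul_le_mul_of_nonneg_left (hmono m hm) hfac.le)
    · exact (h2 m hm).le
  · by_contra hn
    exact absurd (mem_filter.1 hm).2 (not_le.2 (h2 m hn))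
  · have a1 := (mem_filter.1 (hsub hm0)).2
    have a2 := mul_lt_mul_of_pos_left hstrict hfac
    linarith [hf m0]

theorem vol_match {n : ℕ} (hn : 1 ≤ n) {T : ℝ} (hT : 0 < T) {V : Fin (n + 1) → ℝ} (hV : ∀ m, 0 < V m)
    (h : ∑ m, V m ≤ T ^ n) : ∃ c : Fin (n + 1) → ℝ, (∀ j, 0 ≤ c j) ∧ ∑ j, c j = T ∧
      ∀ m, V m ≤ (n.factorial : ℝ) * gon (cs c m) n 0 0 := by
  classical
  obtain ⟨k, rfl⟩ : ∃ k, n = k + 1 := ⟨n - 1, by omega⟩
  set K : Set (Fin (k + 1 + 1) → ℝ) := {c | (∀ j, 0 ≤ c j) ∧ ∑ j, c j = T} with hK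
  have hKc : IsCompact K := by
    refine (isCompact_Icc (a := fun _ => (0 : ℝ)) (b := fun _ => T)).of_isClosed_subset ?_ ?_
    · refine IsClosed.inter (s₁ := {c : Fin (k + 1 + 1) → ℝ | ∀ j, 0 ≤ c j}) ?_
        (isClosed_eq (continuous_finsetSum _ fun j _ => continuous_apply j) continuous_const)
      rw [Set.ofPred_forall]
      exact isClosed_iInter fun j => isClosed_le continuous_const (continuous_apply j)
    · rintro c ⟨h0, hs⟩
      refine ⟨fun j => h0 j, fun j => ?_⟩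
      rw [← hs]
      exact single_le_sum (fun i _ => h0 i) (mem_univ j)
  have hN : (0 : ℝ) < ((k + 1 + 1 : ℕ) : ℝ) := by positivity
  have hctr : (fun _ => T / ((k + 1 + 1 : ℕ) : ℝ)) ∈ K := by
    refine ⟨fun _ => by positivity, ?_⟩
    rw [sum_const, card_univ, Fintype.card_fin, nsmul_eq_mul]
    field_simp
  set φ : (Fin (k + 1 + 1) → ℝ) → ℝ := fun c => univ.inf' univ_nonempty fun m =>
    ((k + 1).factorial : ℝ) * gon (cs c m) (k + 1) 0 0 / V m with hφ
  have hφc : Continuous φ :=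
    Continuous.finset_inf'_apply _ fun m _ => (VM_cont m).div_const _
  obtain ⟨c1, hc1, hmax⟩ := hKc.exists_isMaxOn ⟨_, hctr⟩ hφc.continuousOn
  set a := φ c1 with ha
  have hfac : (0 : ℝ) < ((k + 1).factorial : ℝ) := by exact_mod_cast Nat.factorial_pos _
  have ha0 : 0 < a := by
    refine lt_of_lt_of_le ?_ (hmax hctr)
    simp only [hφ]
    rw [lt_inf'_iff]
    intro m _
    have e0 : (0 : ℝ) < T / ((k + 1 + 1 : ℕ) : ℝ) := by positivity
    have := gon_ge (C := cs (fun _ : Fin (k + 1 + 1) => T / ((k + 1 + 1 : ℕ) : ℝ)) m) (t := 0) e0.le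
      (VM_cs_gap (fun _ => le_rfl) m) (k + 1) 0 (VM_cs_zero _ m).ge
    exact div_pos (mul_pos hfac ((pow_pos e0 _).trans_le this)) (hV m)
  have h1 : ∀ m, a * V m ≤ ((k + 1).factorial : ℝ) * gon (cs c1 m) (k + 1) 0 0 := by
    intro m
    rw [← le_div_iff₀ (hV m)]
    exact inf'_le (fun m => ((k + 1).factorial : ℝ) * gon (cs c1 m) (k + 1) 0 0 / V m) (mem_univ m)
  have h2 : ∀ c ∈ K, ∃ m, ((k + 1).factorial : ℝ) * gon (cs c m) (k + 1) 0 0 ≤ a * V m := by
    intro c hc
    have := hmax hc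
    simp only [Set.mem_ofPred_eq, hφ] at this
    obtain ⟨m, -, hm⟩ := (inf'_le_iff _).1 (this.trans_eq ha.symm)
    exact ⟨m, (div_le_iff₀ (hV m)).1 hm⟩
  by_cases hone : 1 ≤ a
  · exact ⟨c1, hc1.1, hc1.2, fun m => le_trans (by nlinarith [hV m]) (h1 m)⟩
  exfalso
  push Not at hone
  have key : ∀ r : ℕ, ∀ c ∈ K, (∀ m, a * V m ≤ ((k + 1).factorial : ℝ) * gon (cs c m) (k + 1) 0 0) →
      (univ.filter fun m => ((k + 1).factorial : ℝ) * gon (cs c m) (k + 1) 0 0 ≤ a * V m).card = r →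
      False := by
    intro r
    induction r using Nat.strong_induction_on with
    | _ r ih =>
      intro c hc hf hr
      obtain ⟨m1, hm1⟩ := h2 c hc
      have : ∃ j1, a * V j1 < ((k + 1).factorial : ℝ) * gon (cs c j1) (k + 1) 0 0 := by
        by_contra hn
        push Not at hn
        have b1 := vol_cover hc.1
        rw [hc.2] at b1
        have b2 := sum_le_sum fun m (_ : m ∈ univ) => hn m
        rw [← mul_sum univ V a] at b2
        have b3 : 0 < ∑ m, V m := sum_pos (fun m _ => hV m) univ_nonempty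
        nlinarith
      obtain ⟨j1, hj1⟩ := this
      obtain ⟨c', h0', hs', hf', hlt⟩ := VM_step (W := fun m => a * V m)
        (fun m => mul_pos ha0 (hV m)) hc.1 hf hm1 hj1
      exact ih _ (by convert hlt using 1; rw [← hr]) c' ⟨h0', hs'.trans hc.2⟩ hf' (by congr)
  exact key _ c1 hc1 h1 rfl

end Vale.Agent.P209
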