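import Vale.Agent.P209.Glue
import Vale.Agent.P209.Piece
import Vale.Agent.P209.VM

/-! Many balls of comparable size.

`θ' = θ / (2 (n + 1))`, `c0 = min 1 (θ' / Λ ^ n / n!)`, `δ = min (δ of piece with θ') (min 1 θ')`. With `S` the set of big balls
and `N = S.card / (n + 1)`: `N r ^ n ≥ θ / (n + 1) - r ^ n ≥ θ'`. Groups from `exists_groups`. Pick `T < 1`, `T > 0` with
`∑ rr ^ n < T ^ n` (continuity of `T ^ n` at `1`), `ε = (1 - T) / (2 (n + 1))`,
`V m = ∑ over group m of rr ^ n + (T ^ n - ∑ rr ^ n) / (n + 1)` (`Finset.sum_fiberwise`), `c` from `vol_match`.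
`θ' / Λ ^ n ≤ V m ≤ n! c (ix (m + 1))` by `gon_le_first` (`cs c m n ≤ T ≤ 1` by `sum_ix`), and every index is some `ix (m + 1)`,
so `c0 ≤ c j` and `Walls n c0 (cs c m)`. Apply `piece` to the subtype `{i // g i = m}` and `glue`. -/

namespace Vale.Agent.P209

open Finset

theorem Hom_T {n : ℕ} {A : ℝ} (hA : A < 1) : ∃ T : ℝ, 0 < T ∧ T < 1 ∧ A < T ^ n := by
  have h1 : ∀ᶠ T in nhds (1 : ℝ), A < T ^ n :=
    (continuous_pow n).continuousAt.eventually (lt_mem_nhds (by simpa using hA))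
  have h2 : ∀ᶠ T in nhds (1 : ℝ), 0 < T := lt_mem_nhds one_pos
  obtain ⟨T, hT, h3⟩ := (((h1.and h2).filter_mono nhdsWithin_le_nhds).and
    (self_mem_nhdsWithin (a := (1 : ℝ)) (s := Set.Iio 1))).exists
  exact ⟨T, hT.2, h3, hT.1⟩

theorem Hom_mono {n : ℕ} {c : Fin (n + 1) → ℝ} (h0 : ∀ j, 0 ≤ c j) (m : Fin (n + 1)) :
    Monotone (cs c m) :=
  monotone_nat_of_le_succ fun l => by
    rw [cs, cs, sum_range_succ]
    exact le_add_of_nonneg_right (h0 _)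

theorem Hom_le {n : ℕ} {c : Fin (n + 1) → ℝ} (h0 : ∀ j, 0 ≤ c j) (h1 : ∑ j, c j ≤ 1)
    (m : Fin (n + 1)) : cs c m n ≤ 1 :=
  (Hom_mono h0 m (Nat.le_succ n)).trans ((sum_ix c _).trans_le h1)

theorem Hom_first {n : ℕ} (hn : 1 ≤ n) {c : Fin (n + 1) → ℝ} (h0 : ∀ j, 0 ≤ c j)
    (h1 : ∑ j, c j ≤ 1) (j : Fin (n + 1)) : ∃ m, gon (cs c m) n 0 0 ≤ c j := by
  obtain ⟨k, rfl⟩ : ∃ k, n = k + 1 := ⟨n - 1, by omega⟩
  refine ⟨ix (k + 1) (j + (k + 1)), ?_⟩
  have e : cs c (ix (k + 1) (j + (k + 1))) (0 + 1) = c j := by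
    rw [cs, sum_range_succ, sum_range_zero, zero_add]
    congr 1
    apply Fin.ext
    change ((j + (k + 1)) % (k + 1 + 1) + 1 + 0) % (k + 1 + 1) = j
    rw [add_zero, Nat.mod_add_mod, add_assoc, Nat.add_mod_right, Nat.mod_eq_of_lt j.2]
  have h := gon_le_first (t := 0) (Hom_mono h0 (ix (k + 1) (j + (k + 1)))) k 0
    (by rw [zero_add]; exact Hom_le h0 h1 _) le_rfl (by rw [e]; exact h0 j)
  rwa [e, sub_zero] at h

theorem Hom_count {n K : ℕ} (hn : 1 ≤ n) {θ r : ℝ} (hr : 0 < r) (h1 : r ≤ 1)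
    (h2 : r ≤ θ / (2 * (n + 1))) (h : θ ≤ K * r ^ n) :
    θ / (2 * (n + 1)) ≤ (K / (n + 1) : ℕ) * r ^ n := by
  have h3 : r ^ n ≤ r := pow_le_of_le_one hr.le h1 (by omega)
  have h4 : (K : ℝ) ≤ (n + 1) * ((K / (n + 1) : ℕ) + 1) := by
    exact_mod_cast (Nat.lt_mul_div_succ K (Nat.succ_pos n)).le
  have h5 : θ ≤ (n + 1) * (((K / (n + 1) : ℕ) + 1) * r ^ n) := by
    rw [← mul_assoc]
    exact h.trans (mul_le_mul_of_nonneg_right h4 (by positivity))
  have h6 : θ / (n + 1) ≤ ((K / (n + 1) : ℕ) + 1) * r ^ n := by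
    rw [div_le_iff₀' (by positivity)]
    exact h5
  have h7 : θ / (n + 1) = 2 * (θ / (2 * (n + 1))) := by
    field_simp
  linarith

theorem hom {n : ℕ} (hn : 1 ≤ n) {Λ θ : ℝ} (hΛ : 1 ≤ Λ) (hθ : 0 < θ) : ∃ δ : ℝ, 0 < δ ∧
    ∀ r, 0 < r → r ≤ δ → ∀ (ι : Type) [Fintype ι] (rr : ι → ℝ), (∀ i, 0 ≤ rr i ∧ rr i ≤ r) →
      θ ≤ (univ.filter fun i => r / Λ ≤ rr i).card * r ^ n → ∑ i, rr i ^ n < 1 → Packs n rr 1 := by
  have hΛ0 : 0 < Λ := one_pos.trans_le hΛ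
  have hf : (0 : ℝ) < n.factorial := by exact_mod_cast n.factorial_pos
  have hθ' : 0 < θ / (2 * (n + 1)) := by positivity
  have hc0 : 0 < min 1 (θ / (2 * (n + 1)) / Λ ^ n / n.factorial) := lt_min one_pos (by positivity)
  obtain ⟨δ, hδ, hP⟩ := piece hn hΛ hc0 (min_le_left _ _) hθ'
  refine ⟨min δ (min 1 (θ / (2 * (n + 1)))), lt_min hδ (lt_min one_pos hθ'), ?_⟩
  intro r hr hrδ ι _ rr hrr hS hsum
  obtain ⟨r1, r2, r3⟩ : r ≤ δ ∧ r ≤ 1 ∧ r ≤ θ / (2 * (n + 1)) := by simpa only [le_min_iff] using hrδ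
  have hN := Hom_count hn hr r2 r3 hS
  obtain ⟨g, hg⟩ := exists_groups (univ.filter fun i => r / Λ ≤ rr i) n _
    (Nat.mul_div_le _ (n + 1))
  have hcard : ∀ m, θ / (2 * (n + 1)) ≤
      (univ.filter fun i : {i // g i = m} => r / Λ ≤ rr i).card * r ^ n := fun m => by
    refine hN.trans (mul_le_mul_of_nonneg_right (Nat.cast_le.2 ((hg m).trans (le_of_eq ?_)))
      (by positivity))
    rw [← card_map (Function.Embedding.subtype _)]
    congr 1
    ext i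
    simp [and_comm]
  have hlow : ∀ m, θ / (2 * (n + 1)) / Λ ^ n ≤ ∑ i : {i // g i = m}, rr i ^ n := fun m => by
    have h1 := card_nsmul_le_sum (univ.filter fun i : {i // g i = m} => r / Λ ≤ rr i)
      (fun i => rr i ^ n) ((r / Λ) ^ n) fun i hi =>
        pow_le_pow_left₀ (by positivity) (mem_filter.1 hi).2 n
    rw [nsmul_eq_mul, div_pow, ← mul_div_assoc] at h1
    exact ((div_le_div_of_nonneg_right (hcard m) (by positivity)).trans h1).trans
      (sum_le_sum_of_subset_of_nonneg (filter_subset _ _) fun i _ _ => pow_nonneg (hrr i).1 n)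
  obtain ⟨T, T0, T1, hT⟩ := Hom_T (n := n) hsum
  have hsl : 0 < (T ^ n - ∑ i, rr i ^ n) / (n + 1) := div_pos (sub_pos.2 hT) (by positivity)
  obtain ⟨c, c0, cT, hc⟩ := vol_match hn T0
    (V := fun m => ∑ i : {i // g i = m}, rr i ^ n + (T ^ n - ∑ i, rr i ^ n) / (n + 1))
    (fun m => add_pos_of_nonneg_of_pos (sum_nonneg fun i _ => pow_nonneg (hrr i).1 n) hsl)
    (by
      rw [sum_add_distrib, Fintype.sum_fiberwise g fun i => rr i ^ n, sum_const, card_univ,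
        Fintype.card_fin, nsmul_eq_mul, Nat.cast_succ, mul_div_cancel₀ _ (by positivity)]
      linarith)
  have c1 : ∑ j, c j ≤ 1 := cT.trans_le T1.le
  have hlt : ∀ m, ∑ i : {i // g i = m}, rr i ^ n < n.factorial * gon (cs c m) n 0 0 := fun m =>
    (lt_add_of_pos_right _ hsl).trans_le (hc m)
  have hcj : ∀ j, min 1 (θ / (2 * (n + 1)) / Λ ^ n / n.factorial) ≤ c j := fun j => by
    obtain ⟨m, hm⟩ := Hom_first hn c0 c1 j
    refine (min_le_right _ _).trans ?_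
    rw [div_le_iff₀' hf]
    exact ((hlow m).trans (hlt m).le).trans (mul_le_mul_of_nonneg_left hm hf.le)
  have hW : ∀ m, Walls n (min 1 (θ / (2 * (n + 1)) / Λ ^ n / n.factorial)) (cs c m) := fun m =>
    ⟨sum_range_zero _, fun l => by
      rw [cs, cs, sum_range_succ, add_sub_cancel_left]
      exact hcj _, Hom_le c0 c1 m⟩
  choose b b1 b2 b3 using fun m => hP r hr r1 {i // g i = m} (fun i => rr i) (cs c m)
    (fun i => hrr i) (hcard m) (hW m) (hlt m)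
  have hb : ∀ k m (h : g k = m), b (g k) ⟨k, rfl⟩ = b m ⟨k, h⟩ := by
    rintro k _ rfl
    rfl
  refine glue g (ε := (1 - T) / (2 * (n + 1))) (div_pos (sub_pos.2 T1) (by positivity)) c0 ?_
    (b := fun i => b (g i) ⟨i, rfl⟩) (fun i => b1 _ _) (fun i => b2 (g i) ⟨i, rfl⟩) fun i k hik h => ?_
  · rw [sum_add_distrib, cT, sum_const, card_univ, Fintype.card_fin, nsmul_eq_mul, Nat.cast_succ]
    field_simp
    ring
  · rw [hb k (g i) h.symm]
    exact b3 (g i) (i := ⟨i, rfl⟩) (j := ⟨k, h.symm⟩) fun e => hik (congrArg Subtype.val e)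

end Vale.Agent.P209
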