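import Vale.Agent.P209.Base

/-! Compactness of the distorted simplices.

`Kset ρ ε a` is the projection of a closed bounded set of pairs `(x, η)`. `Kset_shrink`: the sets of pairs
for `ε = 1 / (k + 1)` with `x ∉ O` are compact, decrease, and have empty intersection
(`IsCompact.nonempty_iInter_of_sequence_nonempty_isCompact_isClosed`); or minimise a continuous defect function.
`disjoint_nhds`: `SeparatedNhds.of_isCompact_isCompact` for each ordered pair, then finite intersections. -/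

namespace Vale.Agent.P209

open Set

variable {n : ℕ} {a : Fin n → (Fin n → ℝ) → ℝ → ℝ}

/-- The triples `(ε, x, η)`. -/
def KcT (ρ lo hi : ℝ) (a : Fin n → (Fin n → ℝ) → ℝ → ℝ) :
    Set (ℝ × (Fin n → ℝ) × (Fin n → ℝ)) :=
  {q | (lo ≤ q.1 ∧ q.1 ≤ hi) ∧ (∀ j, 0 ≤ q.2.2 j) ∧ ∑ j, q.2.2 j ≤ ρ + q.1 ∧
    ∀ j, a j q.2.1 (q.2.2 j) - q.1 ≤ q.2.1 j ∧ q.2.1 j ≤ a j q.2.1 (q.2.2 j) + q.2.2 j + q.1}

theorem Kc_compact (ha : Valley a) (ρ lo hi : ℝ) : IsCompact (KcT ρ lo hi a) := by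
  obtain ⟨M, hM⟩ := ha.bdd
  have hc : ∀ j, Continuous fun q : ℝ × (Fin n → ℝ) × (Fin n → ℝ) => a j q.2.1 (q.2.2 j) :=
    fun j => (ha.cont j).comp (f := fun q : ℝ × (Fin n → ℝ) × (Fin n → ℝ) => (q.2.1, q.2.2 j))
      (by fun_prop)
  have hcl : IsClosed (KcT ρ lo hi a) := by
    simp only [KcT, ofPred_and, ofPred_forall]
    refine ((isClosed_le (by fun_prop) (by fun_prop)).inter
      (isClosed_le (by fun_prop) (by fun_prop))).inter
      ((isClosed_iInter fun j => isClosed_le (by fun_prop) (by fun_prop)).inter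
      ((isClosed_le (by fun_prop) (by fun_prop)).inter (isClosed_iInter fun j => ?_)))
    exact (isClosed_le ((hc j).sub continuous_fst) (by fun_prop)).inter
      (isClosed_le (by fun_prop) (((hc j).add (by fun_prop)).add continuous_fst))
  have hK : IsCompact (Icc lo hi ×ˢ (Icc (fun _ : Fin n => -M - hi) (fun _ => M + (ρ + hi) + hi) ×ˢ
      Icc (fun _ : Fin n => (0 : ℝ)) (fun _ => ρ + hi))) :=
    isCompact_Icc.prod (isCompact_Icc.prod isCompact_Icc)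
  refine hK.of_isClosed_subset hcl ?_
  rintro ⟨e, x, η⟩ ⟨h1, h2, h3, h4⟩
  have h5 : ∀ j, η j ≤ ρ + hi := fun j => by
    have := Finset.single_le_sum (f := η) (fun i _ => h2 i) (Finset.mem_univ j)
    have := h1.2
    simp only at *
    linarith
  refine ⟨h1, ⟨fun j => ?_, fun j => ?_⟩, fun j => h2 j, h5⟩
  · have := (h4 j).1
    have := (abs_le.1 (hM j x (η j))).1
    have := h1.2
    simp only at *
    linarith
  · have := (h4 j).2
    have := (abs_le.1 (hM j x (η j))).2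
    have := h1.2
    have := h5 j
    simp only at *
    linarith

theorem isCompact_Kset (ha : Valley a) (ρ ε : ℝ) : IsCompact (Kset ρ ε a) := by
  have e : Kset ρ ε a = (fun q : ℝ × (Fin n → ℝ) × (Fin n → ℝ) => q.2.1) '' KcT ρ ε ε a := by
    ext x
    constructor
    · rintro ⟨η, h⟩
      exact ⟨(ε, x, η), ⟨⟨le_rfl, le_rfl⟩, h⟩, rfl⟩
    · rintro ⟨⟨e, y, η⟩, ⟨h1, h⟩, rfl⟩
      have he : e = ε := le_antisymm h1.2 h1.1
      subst he
      exact ⟨η, h⟩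
  rw [e]
  exact (Kc_compact ha ρ ε ε).image (by fun_prop)

theorem Kset_shrink (ha : Valley a) (ρ : ℝ) {O : Set (Fin n → ℝ)} (hO : IsOpen O)
    (h : Kset ρ 0 a ⊆ O) : ∃ ε, 0 < ε ∧ Kset ρ ε a ⊆ O := by
  have hc : IsCompact (KcT ρ 0 1 a ∩
      (fun q : ℝ × (Fin n → ℝ) × (Fin n → ℝ) => q.2.1) ⁻¹' Oᶜ) :=
    (Kc_compact ha ρ 0 1).inter_right (hO.isClosed_compl.preimage (by fun_prop))
  rcases (KcT ρ 0 1 a ∩
      (fun q : ℝ × (Fin n → ℝ) × (Fin n → ℝ) => q.2.1) ⁻¹' Oᶜ).eq_empty_or_nonempty with h0 | h0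
  · refine ⟨1, one_pos, fun x hx => ?_⟩
    obtain ⟨η, hη⟩ := hx
    by_contra hx
    have : ((1 : ℝ), x, η) ∈ KcT ρ 0 1 a ∩
      (fun q : ℝ × (Fin n → ℝ) × (Fin n → ℝ) => q.2.1) ⁻¹' Oᶜ := ⟨⟨⟨zero_le_one, le_rfl⟩, hη⟩, hx⟩
    rw [h0] at this
    exact this
  · obtain ⟨⟨e, y, η⟩, ⟨⟨h1, h2⟩, h3⟩, hmin⟩ := hc.exists_isMinOn h0 continuous_fst.continuousOn
    have he : 0 < e := by
      refine lt_of_le_of_ne h1.1 fun h0 => h3 (h ⟨η, ?_⟩)
      have h4 : e = 0 := h0.symm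
      subst h4
      exact h2
    refine ⟨e / 2, half_pos he, fun x hx => ?_⟩
    obtain ⟨ξ, hξ⟩ := hx
    by_contra hx
    have h5 : e ≤ 1 := h1.2
    have h6 : ((e / 2 : ℝ), x, ξ) ∈ KcT ρ 0 1 a ∩
      (fun q : ℝ × (Fin n → ℝ) × (Fin n → ℝ) => q.2.1) ⁻¹' Oᶜ :=
      ⟨⟨⟨(half_pos he).le, by simp only; linarith⟩, hξ⟩, hx⟩
    have h7 : e ≤ e / 2 := hmin h6
    linarith

theorem disjoint_nhds {ι Y : Type} [Finite ι] [TopologicalSpace Y] [T2Space Y] {K : ι → Set Y}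
    (hK : ∀ i, IsCompact (K i)) (hd : Pairwise fun i j => Disjoint (K i) (K j)) :
    ∃ O : ι → Set Y, (∀ i, IsOpen (O i) ∧ K i ⊆ O i) ∧ Pairwise fun i j => Disjoint (O i) (O j) := by
  have h : ∀ i j, ∃ U V : Set Y, IsOpen U ∧ IsOpen V ∧ K i ⊆ U ∧ (i ≠ j → K j ⊆ V ∧ Disjoint U V) := by
    intro i j
    by_cases hij : i = j
    · exact ⟨univ, univ, isOpen_univ, isOpen_univ, subset_univ _, fun h => absurd hij h⟩
    · obtain ⟨U, V, h1, h2, h3, h4, h5⟩ := SeparatedNhds.of_isCompact_isCompact (hK i) (hK j) (hd hij)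
      exact ⟨U, V, h1, h2, h3, fun _ => ⟨h4, h5⟩⟩
  choose U V hU hV h1 h2 using h
  refine ⟨fun i => (⋂ j, U i j) ∩ ⋂ j : {j // j ≠ i}, V j i, fun i => ⟨?_, ?_⟩, fun i j hij => ?_⟩
  · exact (isOpen_iInter_of_finite fun j => hU i j).inter (isOpen_iInter_of_finite fun j => hV _ _)
  · exact subset_inter (subset_iInter fun j => h1 i j) (subset_iInter fun j => (h2 j i j.2).1)
  · refine (h2 i j hij).2.mono (inter_subset_left.trans (iInter_subset _ j)) ?_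
    exact inter_subset_right.trans (iInter_subset (fun k : {k // k ≠ j} => V k j) ⟨i, hij⟩)

end Vale.Agent.P209
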