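import Vale.Agent.P209.FDefs

/-! Two queues on `[A, B]` under the capacity `V`: the queue `L` runs to the right from `A`, the queue `R`
runs to the left from `B` (in the reflected time `-t`, wall `-B`). Near `B` the queue `L` has the small
nominal capacity `κ`, far from `B` the queue `R` has. `P` is a guess for the tail of `L`. -/

namespace Vale.Agent.P209

open Finset

noncomputable section

structure Num where
  d : ℕ
  r : ℝ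
  κ : ℝ
  μ : ℝ
  c0 : ℝ
  v0 : ℝ
  v1 : ℝ
  K : ℝ
  cF : ℕ

structure Num.Ok (c : Num) : Prop where
  hd : 1 ≤ c.d
  hr : 0 < c.r
  hμ : 0 < c.μ
  hc0 : 0 < c.c0
  hv0 : 0 < c.v0
  hK : 0 ≤ c.K
  n1 : c.K * c.r ≤ c.v0 / 4
  n2 : 2 * c.r * (c.v1 ^ 2 / c.μ + nu c.d c.r) ≤ c.κ
  n3 : c.κ ≤ c.v0 / 4
  n4 : c.r * (2 * c.d * c.r ^ (c.d - 1) * c.cF + nu c.d c.r) ≤ c.v0 / 4
  n5 : c.κ * c.c0 / 2 + 3 * c.r * c.v1 ≤ c.μ / 2
  n6 : 8 * c.r ≤ c.c0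

/-- Queue lengths; the tents `nL ≤ i < NL` and `nR ≤ i < NR` are the final groups. -/
structure Qs where
  nL : ℕ
  NL : ℕ
  nR : ℕ
  NR : ℕ

structure Var where
  A : ℝ
  B : ℝ
  V : ℝ → ℝ
  ρL : ℕ → ℝ
  ρR : ℕ → ℝ

structure Var.Ok (c : Num) (q : Qs) (v : Var) : Prop where
  num : c.Ok
  qL : q.nL ≤ q.NL
  qR : q.nR ≤ q.NR
  len0 : c.c0 ≤ v.B - v.A
  len1 : v.B - v.A ≤ 1
  cont : Continuous v.V
  V0 : ∀ t, c.v0 ≤ v.V t
  V1 : ∀ t, v.V t ≤ c.v1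
  lip : ∀ t t', |v.V t - v.V t'| ≤ c.K * |t - t'|
  sL : ∀ i, 0 ≤ v.ρL i ∧ v.ρL i ≤ c.r
  sR : ∀ i, 0 ≤ v.ρR i ∧ v.ρR i ≤ c.r
  slack : mass c.d v.ρL (range q.NL) + mass c.d v.ρR (range q.NR) < ∫ t in v.A..v.B, v.V t
  finL : 2 * c.κ * c.r ≤ mass c.d v.ρL (Ico q.nL q.NL)
  finR : 2 * c.κ * c.r ≤ mass c.d v.ρR (Ico q.nR q.NR)
  cntL : ((Ico q.nL q.NL).filter fun i => 0 < v.ρL i).card ≤ c.cF
  cntR : ((Ico q.nR q.NR).filter fun i => 0 < v.ρR i).card ≤ c.cF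
  bulk0 : c.μ ≤ mass c.d v.ρR (range q.NR)
  bulk1 : mass c.d v.ρR (range q.NR) + c.μ / 2 ≤ c.v0 * c.c0 / 8

variable (c : Num) (q : Qs) (v : Var)

def Kt : ℝ := 2 * c.d * c.r ^ (c.d - 1) * c.cF

def Mm : ℝ := mass c.d v.ρR (range q.NR) + c.μ / 2 - c.κ * c.c0 / 2

/-- The ramp, from `0` (left) to `1` (right). -/
def sig (t : ℝ) : ℝ := max 0 (min 1 ((Mm c q v - ∫ x in t..v.B, v.V x) / c.μ))

def beta : ℝ := v.B - 2 * c.r

def gam : ℝ := v.B - Mm c q v / c.v0 - c.r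

def nomL (t : ℝ) : ℝ := max c.κ (v.V t * (1 - sig c q v t))

def nomR (t : ℝ) : ℝ := max c.κ (v.V t * sig c q v t)

def pmin (t : ℝ) : ℝ := max 0 (min c.κ (c.κ * (beta c v + c.r - t) / c.r))

/-- Capacity of `R`, in reflected time. -/
def CR (P : ℝ → ℝ) (t : ℝ) : ℝ := min (nomR c q v (-t)) (v.V (-t) - P (-t))

def SR (P : ℝ → ℝ) (s : Finset ℕ) (t : ℝ) : ℝ := fS c.d (-v.B) (CR c q v P) v.ρR s (-t)

def PR (P : ℝ → ℝ) (t : ℝ) : ℝ := fP c.d (-v.B) (CR c q v P) v.ρR (range q.NR) (-t)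

def QQ (P : ℝ → ℝ) (t : ℝ) : ℝ := min c.κ (SR c q v P (range q.NR) t)

/-- Capacity of `L`. -/
def CL (P : ℝ → ℝ) (t : ℝ) : ℝ := min (nomL c q v t) (v.V t - QQ c q v P t)

def SL (P : ℝ → ℝ) (s : Finset ℕ) (t : ℝ) : ℝ := fS c.d v.A (CL c q v P) v.ρL s t

def PL (P : ℝ → ℝ) (t : ℝ) : ℝ := fP c.d v.A (CL c q v P) v.ρL (range q.NL) t

def step (P : ℝ → ℝ) (t : ℝ) : ℝ := max (min c.κ (SL c q v P (range q.NL) t)) (pmin c v t)

def iter : ℕ → ℝ → ℝ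
  | 0 => pmin c v
  | k + 1 => step c q v (iter k)

/-- Admissible guesses. -/
structure Adm (P : ℝ → ℝ) : Prop where
  cont : Continuous P
  lo : ∀ t, pmin c v t ≤ P t
  hi : ∀ t, P t ≤ c.κ
  anti : Antitone P
  lip : ∀ t t', t ≤ t' → P t ≤ P t' + (Kt c + c.κ / c.r) * (t' - t)

/-- Continuous families. -/
structure VCont {X : Type} [TopologicalSpace X] (v : X → Var) : Prop where
  cA : Continuous fun x => (v x).A
  cB : Continuous fun x => (v x).B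
  cV : Continuous fun p : X × ℝ => (v p.1).V p.2
  cL : ∀ i, Continuous fun x => (v x).ρL i
  cR : ∀ i, Continuous fun x => (v x).ρR i

end

end Vale.Agent.P209
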