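import Vale.Agent.P209.Mass

/-! Explicit tents with centre `z ∈ [A, B]`, cut off by the walls.

For `t ∈ [A, B]` and `0 ≤ s ≤ ρ ≤ B - A`: `oa s ≤ t ↔ min (2 (z - t)) (B - t) ≤ s` and
`t ≤ oa s + s ↔ min (2 (t - z)) (t - A) ≤ s`. So `oa s ≤ t ≤ oa s + s ↔ os t ≤ s`. Also
`|t - z| ≤ os t ≤ 2 |t - z|` there, and `os` is `2`-Lipschitz. `oh_int`: `mass_of_levels`. -/

namespace Vale.Agent.P209

noncomputable section

def clamp (A B t : ℝ) : ℝ := max A (min t B)

def oa (A B z ρ s : ℝ) : ℝ := max A (min (z - cl ρ s / 2) (B - cl ρ s))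

def os (A B z t : ℝ) : ℝ := max (min (2 * (t - z)) (t - A)) (min (2 * (z - t)) (B - t))

def oh (A B z ρ t : ℝ) : ℝ := max (ρ - os A B z (clamp A B t)) 0

variable {A B z ρ r t t' : ℝ} {d : ℕ}

theorem Obst_mem (h : A ≤ B) (t : ℝ) : A ≤ clamp A B t ∧ clamp A B t ≤ B :=
  ⟨le_max_left _ _, max_le h (min_le_right _ _)⟩

theorem Obst_clamp (h0 : A ≤ t) (h1 : t ≤ B) : clamp A B t = t := by
  rw [clamp, min_eq_left h1, max_eq_right h0]

theorem Obst_os (hz0 : A ≤ z) (hz1 : z ≤ B) (t : ℝ) : |t - z| ≤ os A B z t := by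
  rcases le_total t z with h | h
  · rw [abs_of_nonpos (by linarith)]
    exact le_max_of_le_right (le_min (by linarith) (by linarith))
  · rw [abs_of_nonneg (by linarith)]
    exact le_max_of_le_left (le_min (by linarith) (by linarith))

theorem Obst_le (h0 : 0 ≤ ρ) (hz0 : A ≤ z) (hz1 : z ≤ B) (t : ℝ) : oh A B z ρ t ≤ ρ :=
  max_le (by linarith [Obst_os hz0 hz1 (clamp A B t), abs_nonneg (clamp A B t - z)]) h0

theorem Obst_fit {s : ℝ} (h1 : ρ ≤ B - A) (s0 : 0 ≤ s) (s1 : s ≤ ρ) : oa A B z ρ s + s ≤ B := by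
  rw [oa, Tent_cl_eq s0 s1, ← le_sub_iff_add_le]
  exact max_le (by linarith) (min_le_right _ _)

theorem Obst_star {s : ℝ} (h1 : ρ ≤ B - A) (s0 : 0 ≤ s) (a1 : oa A B z ρ s ≤ t)
    (a2 : t ≤ oa A B z ρ s + s) : ρ - s ≤ oh A B z ρ t := by
  rcases le_total ρ s with s1 | s1
  · exact le_max_of_le_right (by linarith)
  rw [oh, Obst_clamp ((le_max_left _ _).trans a1) (a2.trans (Obst_fit h1 s0 s1))]
  rw [oa, Tent_cl_eq s0 s1] at a1 a2
  refine le_max_of_le_left (sub_le_sub_left (max_le ?_ ?_) _)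
  · rcases le_max_iff.1 (sub_le_iff_le_add.2 a2) with h | h
    · exact min_le_of_right_le (by linarith)
    · exact min_le_of_left_le (by linarith [(le_min_iff.1 h).1])
  · rcases min_le_iff.1 ((le_max_right _ _).trans a1) with h | h
    · exact min_le_of_left_le (by linarith)
    · exact min_le_of_right_le (by linarith)

theorem Obst_costar {s : ℝ} (s0 : 0 ≤ s) (s1 : s ≤ ρ) (t0 : A ≤ t) (t1 : t ≤ B)
    (h : ρ - s < oh A B z ρ t) : oa A B z ρ s ≤ t ∧ t ≤ oa A B z ρ s + s := by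
  rw [oh, Obst_clamp t0 t1] at h
  have h1 : os A B z t < s := by
    rcases lt_max_iff.1 h with h | h <;> linarith
  obtain ⟨h2, h3⟩ := max_lt_iff.1 h1
  rw [oa, Tent_cl_eq s0 s1, ← sub_le_iff_le_add]
  refine ⟨max_le t0 ?_, ?_⟩
  · rcases min_lt_iff.1 h3 with h | h
    · exact min_le_of_left_le (by linarith)
    · exact min_le_of_right_le (by linarith)
  · rcases min_lt_iff.1 h2 with h | h
    · exact le_max_of_le_right (le_min (by linarith) (by linarith))
    · exact le_max_of_le_left (by linarith)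

theorem Obst_lip (A B z ρ t t' : ℝ) : |oh A B z ρ t - oh A B z ρ t'| ≤ 2 * |t - t'| := by
  have h1 : |clamp A B t - clamp A B t'| ≤ |t - t'| :=
    (abs_max_sub_max_le_max _ _ _ _).trans (max_le (by simp)
      ((abs_min_sub_min_le_max _ _ _ _).trans (max_le le_rfl (by simp))))
  refine (abs_max_sub_max_le_abs _ _ _).trans ?_
  generalize clamp A B t = u at h1 ⊢
  generalize clamp A B t' = v at h1 ⊢
  have h2 := abs_le.1 h1
  have h3 := abs_nonneg (t - t')
  rw [sub_sub_sub_cancel_left]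
  refine (abs_max_sub_max_le_max _ _ _ _).trans (max_le ?_ ?_) <;>
    refine (abs_min_sub_min_le_max _ _ _ _).trans (max_le ?_ ?_) <;>
    exact abs_le.2 ⟨by linarith, by linarith⟩

theorem obst_tents {X : Type} [TopologicalSpace X] {A B z ρ : X → ℝ} (hA : Continuous A)
    (hB : Continuous B) (hz : Continuous z) (hρ : Continuous ρ) (h0 : ∀ x, 0 ≤ ρ x)
    (h1 : ∀ x, ρ x ≤ B x - A x) (hz0 : ∀ x, A x ≤ z x) (hz1 : ∀ x, z x ≤ B x) :
    Tents A B ρ (fun x => oa (A x) (B x) (z x) (ρ x)) fun x => oh (A x) (B x) (z x) (ρ x) := by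
  refine ⟨?_, ?_, fun x s s' hs => ?_, fun x s s' hs => ?_, fun x s => le_max_left _ _,
    fun x s => ?_, fun x s => Obst_fit (h1 x), fun x t => le_max_right _ _,
    fun x => Obst_le (h0 x) (hz0 x) (hz1 x), fun x s t => Obst_star (h1 x)⟩
  · unfold oa cl
    fun_prop
  · unfold oh os clamp
    fun_prop
  · have h := (Tent_cl_lip (ρ x) hs).1
    exact max_le_max le_rfl (min_le_min (by linarith) (by linarith))
  · have h := Tent_cl_lip (ρ x) hs
    simp only [oa, ← max_add_add_right, ← min_add_add_right]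
    exact max_le_max (by linarith) (min_le_min (by linarith [h.1, h.2]) (by linarith [h.2]))
  · exact max_le ((hz0 x).trans (hz1 x))
      (min_le_of_right_le (sub_le_self _ (le_max_left _ _)))

theorem oh_int (hd : 1 ≤ d) (h0 : 0 ≤ ρ) (h1 : ρ ≤ B - A) (hz0 : A ≤ z) (hz1 : z ≤ B) :
    ∫ t in A..B, oh A B z ρ t ^ d = ρ ^ (d + 1) / (d + 1) := by
  refine mass_of_levels hd h0 (a := oa A B z ρ) ?_ (fun t _ => pow_nonneg (le_max_right _ _) _)
    (fun t _ => pow_le_pow_left₀ (le_max_right _ _) (Obst_le h0 hz0 hz1 t) _)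
    (fun s hs => ⟨le_max_left _ _, Obst_fit h1 hs.1 hs.2⟩)
    (fun s hs t a1 a2 => pow_le_pow_left₀ (sub_nonneg.2 hs.2) (Obst_star h1 hs.1 a1 a2) _)
    fun s hs t ht h => Obst_costar hs.1 hs.2 ht.1 ht.2
      (lt_of_pow_lt_pow_left₀ d (le_max_right _ _) h)
  unfold oh os clamp
  fun_prop

theorem oh_ge (hz0 : A ≤ z) (hz1 : z ≤ B) (t : ℝ) : ρ - 2 * |clamp A B t - z| ≤ oh A B z ρ t := by
  have h1 := le_abs_self (clamp A B t - z)
  have h2 := neg_abs_le (clamp A B t - z)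
  exact le_max_of_le_left (sub_le_sub_left
    (max_le (min_le_of_left_le (by linarith)) (min_le_of_left_le (by linarith))) _)

theorem oh_pos (hz0 : A ≤ z) (hz1 : z ≤ B) (h : 0 < oh A B z ρ t) : |clamp A B t - z| < ρ := by
  have h1 := Obst_os hz0 hz1 (clamp A B t)
  rcases lt_max_iff.1 h with h | h <;> linarith

theorem oh_lip (hd : 1 ≤ d) (h0 : 0 ≤ ρ) (h1 : ρ ≤ r) (hz0 : A ≤ z) (hz1 : z ≤ B) (t t' : ℝ) :
    |oh A B z ρ t ^ d - oh A B z ρ t' ^ d| ≤ 2 * d * r ^ (d - 1) * |t - t'| := by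
  have h2 : ∀ t, |oh A B z ρ t| ≤ r := fun t => by
    rw [abs_of_nonneg (le_max_right _ _)]
    exact (Obst_le h0 hz0 hz1 t).trans h1
  refine (abs_pow_sub_pow_le _ _ _).trans (le_of_le_of_eq (mul_le_mul (mul_le_mul_of_nonneg_right
    (Obst_lip A B z ρ t t') (Nat.cast_nonneg _)) (pow_le_pow_left₀ (by positivity)
      (max_le (h2 t) (h2 t')) _) (by positivity) (by positivity)) (by ring))

end

end Vale.Agent.P209
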