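import Vale.Agent.P209.TS
import Vale.Agent.P209.Obst

/-! One level: obstacles are placed explicitly, the other tents fill the rest.

Obstacle `i` has centre `z = A + ζ i (B - A)`. Let `m1 = min m (v0 / 2) / 2`, `V = V0 - ∑ ob, oh ^ d - m1`. At a point `t`
with `u = (clamp t - A) / (B - A) ∈ [0, 1]` an obstacle with `oh > 0` has `0 < ρ` and `|u - ζ| ≤ r / c0` (`oh_pos`), so
at most `cO` terms are nonzero: `∑ oh ^ d ≤ cO r ^ d ≤ v0 / 2`, and at most `2 cO` terms change between `t` and `t'`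
(`oh_lip`). `∫ V = ∫ V0 - mass ob - m1 (B - A) > mass` of the others (`oh_int`). Apply `two_sided` with
`ε = m1 / 2`; the margin is `m' = m1 / 2`. For the last two claims `|t - z| = |u - ζ| (B - A)`, `c0 ≤ B - A ≤ 1`. -/

namespace Vale.Agent.P209

open Finset

variable {ι : Type}

theorem lv_sum [DecidableEq ι] {S N : Finset ι} {f : ι → ℝ} {b : ℝ} {k : ℕ} (hb : 0 ≤ b)
    (hN : N.card ≤ k) (h1 : ∀ i ∈ S, f i ≤ b) (h2 : ∀ i ∈ S, i ∉ N → f i = 0) :
    ∑ i ∈ S, f i ≤ k * b := by
  rw [← sum_subset (inter_subset_left (s₂ := N)) fun i hi hi' =>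
    h2 i hi fun h => hi' (mem_inter.2 ⟨hi, h⟩)]
  refine (sum_le_card_nsmul _ _ b fun i hi => h1 i (mem_inter.1 hi).1).trans ?_
  rw [nsmul_eq_mul]
  refine mul_le_mul_of_nonneg_right ?_ hb
  exact_mod_cast (card_le_card inter_subset_right).trans hN

theorem lv_u {A B : ℝ} (h : 0 < B - A) (t : ℝ) :
    0 ≤ (clamp A B t - A) / (B - A) ∧ (clamp A B t - A) / (B - A) ≤ 1 := by
  refine ⟨div_nonneg (sub_nonneg.2 (le_max_left _ _)) h.le, (div_le_one h).2 ?_⟩
  exact sub_le_sub_right (max_le (by linarith) (min_le_right _ _)) _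

theorem lv_abs {A B : ℝ} (h : 0 < B - A) (s ζ : ℝ) :
    |s - (A + ζ * (B - A))| = |(s - A) / (B - A) - ζ| * (B - A) := by
  rw [← abs_of_pos h, ← abs_mul, abs_of_pos h]
  refine congrArg _ ?_
  field_simp
  ring

theorem level [Fintype ι] {X : Type} [TopologicalSpace X] {c : Num} (hc : c.Ok) (role : ι → Role)
    (ζ : ι → ℝ) (hζ : ∀ i, 0 ≤ ζ i ∧ ζ i ≤ 1) {K0 m : ℝ} {cO : ℕ} (hm : 0 < m)
    (hK : K0 + 4 * c.d * c.r ^ (c.d - 1) * cO ≤ c.K) (hO : cO * c.r ^ c.d ≤ c.v0 / 2)
    {A B : X → ℝ} {V : X → ℝ → ℝ} {ρ : ι → X → ℝ} (hA : Continuous A) (hB : Continuous B)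
    (hV : Continuous fun p : X × ℝ => V p.1 p.2) (hρ : ∀ i, Continuous (ρ i))
    (len : ∀ x, c.c0 ≤ B x - A x ∧ B x - A x ≤ 1) (V01 : ∀ x t, 2 * c.v0 ≤ V x t ∧ V x t ≤ c.v1)
    (lip : ∀ x t t', |V x t - V x t'| ≤ K0 * |t - t'|) (size : ∀ i x, 0 ≤ ρ i x ∧ ρ i x ≤ c.r)
    (slack : ∀ x, mass c.d (fun i => ρ i x) univ + m ≤ ∫ t in A x..B x, V x t)
    (fin : ∀ x, ∀ p, p = Role.lf ∨ p = Role.rf →
      2 * c.κ * c.r ≤ mass c.d (fun i => ρ i x) (univ.filter fun i => role i = p) ∧
        (univ.filter fun i => role i = p ∧ 0 < ρ i x).card ≤ c.cF)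
    (bulk : ∀ x, c.μ ≤ mass c.d (fun i => ρ i x) (univ.filter fun i => role i = .rb ∨ role i = .rf) ∧
      mass c.d (fun i => ρ i x) (univ.filter fun i => role i = .rb ∨ role i = .rf) + c.μ / 2 ≤
        c.v0 * c.c0 / 8)
    (obs : ∀ x (u : ℝ), 0 ≤ u → u ≤ 1 →
      (univ.filter fun i => role i = .ob ∧ 0 < ρ i x ∧ |u - ζ i| ≤ c.r / c.c0).card ≤ cO) :
    ∃ (a h : ι → X → ℝ → ℝ) (m' : ℝ), 0 < m' ∧ (∀ i, Tents A B (ρ i) (a i) (h i)) ∧
      (∀ x t, A x ≤ t → t ≤ B x → ∑ i, h i x t ^ c.d + m' ≤ V x t) ∧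
      ∀ i, role i = .ob → ∀ x t, A x ≤ t → t ≤ B x →
        ρ i x - 2 * |(t - A x) / (B x - A x) - ζ i| ≤ h i x t ∧
          (0 < h i x t → 0 < ρ i x ∧ |(t - A x) / (B x - A x) - ζ i| ≤ c.r / c.c0) := by
  classical
  have hr := hc.hr
  have hc0 := hc.hc0
  have hv0 := hc.hv0
  have hd0 : c.d ≠ 0 := by have := hc.hd; omega
  have hBA : ∀ x, 0 < B x - A x := fun x => hc0.trans_le (len x).1
  let z : ι → X → ℝ := fun i x => A x + ζ i * (B x - A x)
  have z0 : ∀ i x, A x ≤ z i x := fun i x =>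
    le_add_of_nonneg_right (mul_nonneg (hζ i).1 (hBA x).le)
  have z1 : ∀ i x, z i x ≤ B x := fun i x => by
    have := mul_le_of_le_one_left (hBA x).le (hζ i).2
    simp only [z]
    linarith
  have hfit : ∀ i x, ρ i x ≤ B x - A x := fun i x => by
    linarith [(size i x).2, (len x).1, hc.n6]
  let O : ι → X → ℝ → ℝ := fun i x => oh (A x) (B x) (z i x) (ρ i x)
  have T : ∀ i, Tents A B (ρ i) (fun x => oa (A x) (B x) (z i x) (ρ i x)) (O i) := fun i =>
    obst_tents hA hB (hA.add (continuous_const.mul (hB.sub hA))) (hρ i) (fun x => (size i x).1)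
      (hfit i) (z0 i) (z1 i)
  have pos : ∀ i x t, 0 < O i x t →
      0 < ρ i x ∧ |(clamp (A x) (B x) t - A x) / (B x - A x) - ζ i| ≤ c.r / c.c0 := by
    intro i x t h
    have h1 := oh_pos (z0 i x) (z1 i x) h
    refine ⟨(abs_nonneg _).trans_lt h1, ?_⟩
    rw [lv_abs (hBA x)] at h1
    rw [le_div_iff₀ hc0]
    exact (mul_le_mul_of_nonneg_left (len x).1 (abs_nonneg _)).trans (h1.le.trans (size i x).2)
  let N : X → ℝ → Finset ι := fun x t => univ.filter fun i => role i = .ob ∧ 0 < ρ i x ∧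
    |(clamp (A x) (B x) t - A x) / (B x - A x) - ζ i| ≤ c.r / c.c0
  have hN : ∀ x t, (N x t).card ≤ cO := fun x t => obs x _ (lv_u (hBA x) t).1 (lv_u (hBA x) t).2
  have van : ∀ x t, ∀ i ∈ univ.filter fun i => role i = .ob, i ∉ N x t → O i x t ^ c.d = 0 := by
    intro x t i hi hi'
    refine pow_eq_zero_iff hd0 |>.2 (le_antisymm (not_lt.1 fun h => hi' ?_) ((T i).h0 x t))
    exact mem_filter.2 ⟨mem_univ _, (mem_filter.1 hi).2, pos i x t h⟩
  let G : X → ℝ → ℝ := fun x t => ∑ i ∈ univ.filter fun i => role i = .ob, O i x t ^ c.d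
  have G0 : ∀ x t, 0 ≤ G x t := fun x t => sum_nonneg fun i _ => pow_nonneg ((T i).h0 x t) _
  have G1 : ∀ x t, G x t ≤ c.v0 / 2 := fun x t =>
    (lv_sum (by positivity) (hN x t) (fun i _ => pow_le_pow_left₀ ((T i).h0 x t)
      (((T i).h1 x t).trans (size i x).2) _) (van x t)).trans hO
  have G2 : ∀ x t t', |G x t - G x t'| ≤ 4 * c.d * c.r ^ (c.d - 1) * cO * |t - t'| := by
    intro x t t'
    simp only [G]
    rw [← sum_sub_distrib]
    refine (abs_sum_le_sum_abs _ _).trans ((lv_sum (N := N x t ∪ N x t') (k := cO + cO)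
      (by positivity) ((card_union_le _ _).trans (add_le_add (hN x t) (hN x t')))
      (fun i _ => oh_lip hc.hd (size i x).1 (size i x).2 (z0 i x) (z1 i x) t t')
      fun i hi hi' => ?_).trans_eq ?_)
    · rw [van x t i hi fun h => hi' (mem_union_left _ h),
        van x t' i hi fun h => hi' (mem_union_right _ h), sub_zero, abs_zero]
    · push_cast
      ring
  have Gc : Continuous fun p : X × ℝ => G p.1 p.2 :=
    continuous_finsetSum _ fun i _ => (T i).ch.pow _
  obtain ⟨m1, p0, p1, p2⟩ : ∃ m1 : ℝ, 0 < m1 ∧ m1 ≤ m / 2 ∧ m1 ≤ c.v0 / 4 :=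
    ⟨min (m / 2) (c.v0 / 4), by positivity, min_le_left _ _, min_le_right _ _⟩
  obtain ⟨a, h, k1, k2⟩ := two_sided hc role (V := fun x t => V x t - G x t - m1) hA hB
    ((hV.sub Gc).sub continuous_const) hρ len
    (fun x t => ⟨by linarith [(V01 x t).1, G1 x t], by linarith [(V01 x t).2, G0 x t]⟩)
    (fun x t t' => by
      have h1 := abs_sub (V x t - V x t') (G x t - G x t')
      have h2 := mul_le_mul_of_nonneg_right hK (abs_nonneg (t - t'))
      rw [show V x t - G x t - m1 - (V x t' - G x t' - m1) =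
        V x t - V x t' - (G x t - G x t') by ring]
      linarith [lip x t t', G2 x t t'])
    size (fun x => by
      have c1 : Continuous (V x) := hV.comp (Continuous.prodMk_right x)
      have c2 : Continuous (G x) := Gc.comp (Continuous.prodMk_right x)
      have e : ∫ t in A x..B x, G x t =
          mass c.d (fun i => ρ i x) (univ.filter fun i => role i = .ob) := by
        simp only [G]
        rw [intervalIntegral.integral_finsetSum (f := fun i t => O i x t ^ c.d) fun i _ =>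
          ((((T i).ch.comp (Continuous.prodMk_right x)).pow _).intervalIntegrable _ _)]
        exact sum_congr rfl fun i _ => oh_int hc.hd (size i x).1 (hfit i x) (z0 i x) (z1 i x)
      have e2 : mass c.d (fun i => ρ i x) (univ.filter fun i => role i = .ob) +
          mass c.d (fun i => ρ i x) (univ.filter fun i => role i ≠ .ob) =
          mass c.d (fun i => ρ i x) univ := sum_filter_add_sum_filter_not _ _ _
      rw [intervalIntegral.integral_sub (f := fun t => V x t - G x t)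
        ((c1.sub c2).intervalIntegrable _ _) (by simp),
        intervalIntegral.integral_sub (c1.intervalIntegrable _ _) (c2.intervalIntegrable _ _), e,
        intervalIntegral.integral_const, smul_eq_mul]
      linarith [slack x, mul_le_of_le_one_left p0.le (len x).2])
    fin bulk (half_pos p0)
  refine ⟨fun i => if role i = .ob then fun x => oa (A x) (B x) (z i x) (ρ i x) else a i,
    fun i => if role i = .ob then O i else h i, m1 / 2, half_pos p0, fun i => ?_,
    fun x t ht ht' => ?_, fun i hi x t ht ht' => ?_⟩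
  · by_cases hi : role i = .ob
    · simp only [if_pos hi]
      exact T i
    · simp only [if_neg hi]
      exact k1 i hi
  · have e : ∑ i, (if role i = .ob then O i else h i) x t ^ c.d =
        G x t + ∑ i ∈ univ.filter fun i => role i ≠ .ob, h i x t ^ c.d := by
      rw [← sum_filter_add_sum_filter_not univ fun i => role i = .ob]
      exact congrArg₂ _ (sum_congr rfl fun i hi => by rw [if_pos (mem_filter.1 hi).2])
        (sum_congr rfl fun i hi => by rw [if_neg (mem_filter.1 hi).2])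
    have h1 := k2 x t ht ht'
    simp only [e]
    linarith
  · have e : clamp (A x) (B x) t = t := by rw [clamp, min_eq_left ht', max_eq_right ht]
    have h1 := oh_ge (ρ := ρ i x) (z0 i x) (z1 i x) t
    have h2 := pos i x t
    rw [e] at h1 h2
    rw [lv_abs (hBA x)] at h1
    simp only [if_pos hi]
    exact ⟨by linarith [mul_le_of_le_one_right (abs_nonneg ((t - A x) / (B x - A x) - ζ i)) (len x).2],
      h2⟩

end Vale.Agent.P209
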