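import Vale.Agent.P209.GDefs

/-! Counting grid points `k / G`, `0 ≤ k ≤ G`, and labelling a finite set.

`grid_near`: `k = ⌊u G⌋₊`. `grid_card`: the admissible `k` lie in an interval of length `2 w G`.
`sites_card`: the set is a `Fintype.piFinset` (or embeds in one), `Fintype.card_piFinset`.
`exists_label`: an embedding `κ ↪ S` (`Function.Embedding.nonempty_of_card_le`), `lab` is its one-sided inverse. -/

namespace Vale.Agent.P209

open Finset

theorem grid_near {G : ℕ} (hG : 0 < G) {u : ℝ} (h0 : 0 ≤ u) (h1 : u ≤ 1) :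
    ∃ k : Fin (G + 1), |u - (k : ℕ) / (G : ℝ)| ≤ 1 / G := by
  have hG' : (0 : ℝ) < G := Nat.cast_pos.2 hG
  have h2 : 0 ≤ u * G := by positivity
  have h3 : u * G ≤ G := mul_le_of_le_one_left hG'.le h1
  refine ⟨⟨⌊u * G⌋₊, Nat.lt_succ_of_le (Nat.floor_le_of_le h3)⟩, ?_⟩
  have h4 := Nat.floor_le h2
  have h5 := Nat.lt_floor_add_one (u * G)
  have e : u - (⌊u * G⌋₊ : ℕ) / (G : ℝ) = (u * G - (⌊u * G⌋₊ : ℕ)) / G := by field_simp
  rw [e, abs_div, abs_of_pos hG', abs_of_nonneg (by linarith)]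
  exact div_le_div_of_nonneg_right (by linarith) hG'.le

theorem grid_card {G : ℕ} (hG : 0 < G) (u : ℝ) {w : ℝ} (hw : 0 ≤ w) :
    ((univ.filter fun k : Fin (G + 1) => |u - (k : ℕ) / (G : ℝ)| ≤ w).card : ℝ) ≤ 2 * w * G + 1 := by
  have hG' : (0 : ℝ) < G := Nat.cast_pos.2 hG
  have h1 : (univ.filter fun k : Fin (G + 1) => |u - (k : ℕ) / (G : ℝ)| ≤ w).card ≤
      (Icc ⌈(u - w) * G⌉ ⌊(u + w) * G⌋).card := by
    refine card_le_card_of_injOn (fun k => ((k : ℕ) : ℤ)) (fun k hk => ?_) fun k _ k' _ e => ?_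
    · have h2 := abs_le.1 (mem_filter.1 (mem_coe.1 hk)).2
      refine mem_coe.2 (mem_Icc.2 ⟨Int.ceil_le.2 ?_, Int.le_floor.2 ?_⟩)
      · rw [Int.cast_natCast, ← le_div_iff₀ hG']
        linarith [h2.2]
      · rw [Int.cast_natCast, ← div_le_iff₀ hG']
        linarith [h2.1]
    · exact Fin.ext (Nat.cast_injective (R := ℤ) e)
  refine (Nat.cast_le.2 h1).trans ?_
  rw [Int.card_Icc]
  rcases le_total (⌊(u + w) * G⌋ + 1 - ⌈(u - w) * G⌉) 0 with h | h
  · rw [Int.toNat_of_nonpos h, Nat.cast_zero]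
    positivity
  · rw [← Int.cast_natCast, Int.toNat_of_nonneg h]
    push_cast
    linarith [Int.floor_le ((u + w) * G), Int.le_ceil ((u - w) * G)]

theorem sites_card {G : ℕ} (hG : 0 < G) (u : ℕ → ℝ) {w : ℝ} (hw : 0 ≤ w) {l m : ℕ} (hm : m ≤ l) :
    ((univ.filter fun s : Fin l → Fin (G + 1) =>
      ∀ j : Fin l, (j : ℕ) < m → |u j - (s j : ℕ) / (G : ℝ)| ≤ w).card : ℝ) ≤
        (2 * w * G + 1) ^ m * ((G : ℝ) + 1) ^ (l - m) := by
  have e : (univ.filter fun s : Fin l → Fin (G + 1) =>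
      ∀ j : Fin l, (j : ℕ) < m → |u j - (s j : ℕ) / (G : ℝ)| ≤ w) =
      Fintype.piFinset fun j : Fin l => univ.filter fun k : Fin (G + 1) =>
        (j : ℕ) < m → |u j - (k : ℕ) / (G : ℝ)| ≤ w := by
    ext s
    simp
  have c1 : (univ.filter fun j : Fin l => (j : ℕ) < m).card = m := by
    rw [Fin.card_filter_val_lt, min_eq_right hm]
  have c2 : (univ.filter fun j : Fin l => ¬ (j : ℕ) < m).card = l - m := by
    have := card_filter_add_card_filter_not (s := (univ : Finset (Fin l))) fun j => (j : ℕ) < m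
    rw [c1, card_univ, Fintype.card_fin] at this
    omega
  rw [e, Fintype.card_piFinset, Nat.cast_prod]
  calc _ ≤ ∏ j : Fin l, if (j : ℕ) < m then 2 * w * G + 1 else (G : ℝ) + 1 := by
        refine prod_le_prod (fun j _ => Nat.cast_nonneg _) fun j _ => ?_
        split_ifs with h
        · simpa only [h, true_imp_iff] using grid_card hG (u j) hw
        · refine (Nat.cast_le.2 (card_le_univ _)).trans (le_of_eq ?_)
          simp
    _ = _ := by rw [prod_ite, prod_const, prod_const, c1, c2]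

theorem exists_label {ι κ : Type} [Fintype κ] (S : Finset ι) (h : Fintype.card κ ≤ S.card) :
    ∃ (e : κ → ι) (lab : ι → Option κ), (∀ k, e k ∈ S) ∧ ∀ i k, lab i = some k ↔ e k = i := by
  classical
  obtain ⟨f⟩ : Nonempty (κ ↪ S) := Function.Embedding.nonempty_of_card_le (by simpa using h)
  refine ⟨fun k => f k, fun i => if hi : ∃ k, (f k : ι) = i then some hi.choose else none,
    fun k => (f k).2, fun i k => ?_⟩
  dsimp only
  split_ifs with hi
  · rw [Option.some_inj]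
    refine ⟨fun e => e ▸ hi.choose_spec, fun e => f.injective (Subtype.ext ?_)⟩
    rw [hi.choose_spec, e]
  · exact ⟨fun e => (by cases e), fun e => (hi ⟨k, e⟩).elim⟩

/-- Each of the `M + 1` groups gets `N` elements of `S`. -/
theorem exists_groups {ι : Type} [Fintype ι] (S : Finset ι) (M N : ℕ) (h : (M + 1) * N ≤ S.card) :
    ∃ g : ι → Fin (M + 1), ∀ m, N ≤ (S.filter fun i => g i = m).card := by
  classical
  obtain ⟨e, lab, h1, h2⟩ := exists_label (κ := Fin (M + 1) × Fin N) S (by simpa using h)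
  refine ⟨fun i => (lab i).elim 0 Prod.fst, fun m => ?_⟩
  refine le_trans (by simp) (card_le_card_of_injOn (s := (univ : Finset (Fin N)))
    (fun k => e (m, k)) (fun k _ => ?_) fun k _ k' _ hk => ?_)
  · refine mem_coe.2 (mem_filter.2 ⟨h1 _, ?_⟩)
    dsimp only
    rw [(h2 _ _).2 rfl]
    rfl
  · have h3 := ((h2 _ (m, k)).2 hk).symm.trans ((h2 _ (m, k')).2 rfl)
    exact (Prod.ext_iff.1 (Option.some_inj.1 h3)).2

end Vale.Agent.P209
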