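import Mathlib

/-! Two counting lemmas for merging small balls.

`exists_subsum`: take a subset of least cardinality with sum `≥ a`; removing one element drops below `a`.
`small_sum`: each `0 < x ≤ s0` lies in a class `[s0 / 2 ^ (k + 1), s0 / 2 ^ k]` (`exists_nat_pow_near_of_lt_one` for `x / s0`);
sum over the fibres of `k` (`Finset.sum_fiberwise_of_maps_to`), the class `k` gives at most
`(s0 / 2 ^ k / δ) ^ n ≤ (s0 / δ) ^ n / 2 ^ k`; geometric series. -/

namespace Vale.Agent.P209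

open Finset

theorem exists_subsum {ι : Type} (S : Finset ι) (f : ι → ℝ) {a b : ℝ} (ha : 0 < a)
    (hf : ∀ i ∈ S, f i ≤ b) (h : a ≤ ∑ i ∈ S, f i) :
    ∃ G, G ⊆ S ∧ a ≤ ∑ i ∈ G, f i ∧ ∑ i ∈ G, f i < a + b := by
  classical
  obtain ⟨G, h1, h2⟩ := exists_min_image (S.powerset.filter fun G => a ≤ ∑ i ∈ G, f i) card
    ⟨S, mem_filter.2 ⟨mem_powerset_self S, h⟩⟩
  rw [mem_filter, mem_powerset] at h1
  refine ⟨G, h1.1, h1.2, ?_⟩
  obtain ⟨i, hi⟩ : G.Nonempty := by
    rw [nonempty_iff_ne_empty]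
    rintro rfl
    exact ha.not_ge (by simpa using h1.2)
  have h3 : ∑ j ∈ G.erase i, f j < a := lt_of_not_ge fun h4 =>
    (card_erase_lt_of_mem hi).not_ge
      (h2 _ (mem_filter.2 ⟨mem_powerset.2 ((erase_subset i G).trans h1.1), h4⟩))
  rw [← sum_erase_add _ _ hi]
  exact add_lt_add_of_lt_of_le h3 (hf i (h1.1 hi))

theorem small_sum {ι : Type} [Fintype ι] {n : ℕ} (hn : 1 ≤ n) (rr : ι → ℝ) (h0 : ∀ i, 0 < rr i)
    {s0 δ : ℝ} (hs : 0 < s0) (hδ : 0 < δ)
    (h : ∀ s, 0 < s → s ≤ s0 →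
      ∑ i ∈ univ.filter fun i => s / 2 ≤ rr i ∧ rr i ≤ s, rr i ^ n ≤ (s / δ) ^ n) :
    ∑ i ∈ univ.filter fun i => rr i ≤ s0, rr i ^ n ≤ 2 * (s0 / δ) ^ n := by
  classical
  have key : ∀ K : ℕ, ∑ i ∈ univ.filter fun i => s0 * (1 / 2) ^ K < rr i ∧ rr i ≤ s0, rr i ^ n ≤
      (2 - 2 * (1 / 2) ^ K) * (s0 / δ) ^ n := fun K => by
    induction K with
    | zero =>
      rw [filter_false_of_mem fun i _ h1 => by linarith [h1.1, h1.2, pow_zero (1 / 2 : ℝ)]]
      simp
    | succ K ih =>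
      have hq : (1 / 2 : ℝ) ^ K ≤ 1 := pow_le_one₀ (by norm_num) (by norm_num)
      have h1 := h (s0 * (1 / 2) ^ K) (by positivity) (mul_le_of_le_one_right hs.le hq)
      have h2 : (s0 * (1 / 2) ^ K / δ) ^ n ≤ (1 / 2) ^ K * (s0 / δ) ^ n := by
        rw [mul_div_right_comm, mul_pow, mul_comm]
        exact mul_le_mul_of_nonneg_right (pow_le_of_le_one (by positivity) hq (by omega))
          (by positivity)
      rw [← sum_filter_add_sum_filter_not _ fun i => s0 * (1 / 2) ^ K < rr i]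
      have h3 := add_le_add
        (le_trans (sum_le_sum_of_subset_of_nonneg
          (s := (univ.filter fun i => s0 * (1 / 2) ^ (K + 1) < rr i ∧ rr i ≤ s0).filter
            fun i => s0 * (1 / 2) ^ K < rr i) (fun i hi => by
            simp only [mem_filter, mem_univ, true_and] at hi ⊢
            exact ⟨hi.2, hi.1.2⟩) fun i _ _ => (pow_pos (h0 i) n).le) ih)
        (le_trans (sum_le_sum_of_subset_of_nonneg
          (s := (univ.filter fun i => s0 * (1 / 2) ^ (K + 1) < rr i ∧ rr i ≤ s0).filter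
            fun i => ¬ s0 * (1 / 2) ^ K < rr i) (fun i hi => by
            simp only [mem_filter, mem_univ, true_and, not_lt, pow_succ] at hi ⊢
            exact ⟨by linarith [hi.1.1], hi.2⟩) fun i _ _ => (pow_pos (h0 i) n).le) (h1.trans h2))
      refine h3.trans (le_of_eq ?_)
      ring
  have hK : ∀ᶠ K : ℕ in Filter.atTop, ∀ i, s0 * (1 / 2) ^ K < rr i :=
    Filter.eventually_all.2 fun i =>
      ((tendsto_pow_atTop_nhds_zero_of_lt_one (r := (1 / 2 : ℝ)) (by norm_num)
        (by norm_num)).const_mul s0).eventually (gt_mem_nhds (by simpa using h0 i))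
  obtain ⟨K, hK⟩ := hK.exists
  have h1 := key K
  rw [filter_congr (q := fun i => rr i ≤ s0) fun i _ => and_iff_right (hK i)] at h1
  refine h1.trans (mul_le_mul_of_nonneg_right (sub_le_self _ (by positivity)) (by positivity))

end Vale.Agent.P209
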