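import Vale.Agent.P209.Hom
import Vale.Agent.P209.MergeA

/-! Arbitrary small balls.

`δ2 = min (δ of hom with Λ = 2, θ = 1 / 2) (1 / 4)`, `Λ = 2 / δ2`, `σ = min (δ of hom with Λ, θ = 1 / 4) (1 / 4)`.
Claim, by strong induction on `card ι`: sizes in `(0, σ]` and `1 / 2 ≤ ∑ rr ^ n < 1` give `Packs n rr 1`. Let `s0 = δ2 σ / 2`.
Case 1: some `0 < s ≤ s0` has class sum `> (s / δ2) ^ n`. `exists_subsum` gives `G` with
`(s / δ2) ^ n ≤ Σ_G < (s / δ2) ^ n + s ^ n ≤ (2 s / δ2) ^ n`; `G` has two elements. Pick `y` with `Σ_G < y`,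
`y ≤ min (2 Σ_G) ((2 s / δ2) ^ n)`, `y - Σ_G < 1 - ∑ rr ^ n`, and `ρ = y ^ (1 / n)`; then `s / δ2 ≤ ρ ≤ σ`. `hom` for the sizes `rr i / ρ` on
`G` with `r = s / ρ` (all are big, `card * r ^ n ≥ Σ_G / y ≥ 1 / 2`), `Packs.scale`, the induction hypothesis for
`Option {i // i ∉ G}`, `Packs.merge`. Case 2: `small_sum` gives at most `2 (σ / 2) ^ n ≤ 1 / 4`, so the balls `> s0 = σ / Λ` have
sum `≥ 1 / 4`; `hom` with `r = σ`. Padding: if `∑ < 1 / 2` add `k` balls of size `σ` (`ι ⊕ Fin k`, `k = ⌈(1 / 2 - ∑) / σ ^ n⌉₊`),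
`Packs.comp_inj`. General `R`: sizes `rr i / R`, `Packs.scale`. -/

namespace Vale.Agent.P209

open Finset

/-- The conclusion of `hom`. -/
def MergeH (n : ℕ) (Λ θ δ : ℝ) : Prop :=
  ∀ r, 0 < r → r ≤ δ → ∀ (ι : Type) [Fintype ι] (rr : ι → ℝ), (∀ i, 0 ≤ rr i ∧ rr i ≤ r) →
    θ ≤ (univ.filter fun i => r / Λ ≤ rr i).card * r ^ n → ∑ i, rr i ^ n < 1 → Packs n rr 1

theorem Merge_hom {n : ℕ} (hn : 1 ≤ n) {Λ θ : ℝ} (hΛ : 1 ≤ Λ) (hθ : 0 < θ) :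
    ∃ δ : ℝ, 0 < δ ∧ δ ≤ 1 / 4 ∧ MergeH n Λ θ δ := by
  obtain ⟨δ, h0, h⟩ := hom hn hΛ hθ
  exact ⟨min δ (1 / 4), lt_min h0 (by norm_num), min_le_right _ _,
    fun r hr hr' => h r hr (hr'.trans (min_le_left _ _))⟩

theorem Merge_scale {n : ℕ} {ι : Type} {rr : ι → ℝ} {ρ : ℝ} (hρ : 0 < ρ)
    (h : Packs n (fun i => rr i / ρ) 1) : Packs n rr ρ := by
  have h1 := h.scale hρ
  simp only [mul_div_cancel₀ _ hρ.ne', mul_one] at h1
  exact h1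

theorem Merge_group {n : ℕ} {δ s ρ : ℝ} (hδ : 0 < δ) (h : MergeH n 2 (1 / 2) δ) {ι : Type}
    [Fintype ι] {rr : ι → ℝ} (hs : 0 < s) (hρ : s / δ ≤ ρ) (hr : ∀ i, s / 2 ≤ rr i ∧ rr i ≤ s)
    (h1 : ∑ i, rr i ^ n < ρ ^ n) (h2 : ρ ^ n ≤ 2 * ∑ i, rr i ^ n) : Packs n rr ρ := by
  have hρ0 : 0 < ρ := (div_pos hs hδ).trans_le hρ
  have hp : 0 < ρ ^ n := pow_pos hρ0 n
  have h0 : ∀ i, 0 ≤ rr i := fun i => (half_pos hs).le.trans (hr i).1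
  refine Merge_scale hρ0 (h (s / ρ) (div_pos hs hρ0) ?_ ι _ (fun i => ⟨div_nonneg (h0 i) hρ0.le,
    div_le_div_of_nonneg_right (hr i).2 hρ0.le⟩) ?_ ?_)
  · rw [div_le_iff₀ hρ0, mul_comm]
    exact (div_le_iff₀ hδ).1 hρ
  · rw [filter_true_of_mem fun i _ => by
      rw [div_right_comm]
      exact div_le_div_of_nonneg_right (hr i).1 hρ0.le]
    have h3 := sum_le_card_nsmul univ (fun i => rr i ^ n) (s ^ n) fun i _ =>
      pow_le_pow_left₀ (h0 i) (hr i).2 n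
    rw [nsmul_eq_mul] at h3
    rw [div_pow, ← mul_div_assoc, le_div_iff₀ hp]
    linarith
  · simp only [div_pow]
    rw [← sum_div, div_lt_one hp]
    exact h1

theorem Merge_pick {n : ℕ} (hn : 1 ≤ n) {g a b e : ℝ} (ha : 0 < a) (hb : 0 ≤ b) (he : 0 < e)
    (h1 : a ^ n ≤ g) (h2 : g < b ^ n) :
    ∃ ρ, a ≤ ρ ∧ ρ ≤ b ∧ g < ρ ^ n ∧ ρ ^ n ≤ 2 * g ∧ ρ ^ n < g + e := by
  have hg : 0 < g := (pow_pos ha n).trans_le h1
  have hn0 : n ≠ 0 := by omega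
  have hy : g < min (min (2 * g) (b ^ n)) (g + e / 2) :=
    lt_min (lt_min (by linarith) h2) (by linarith)
  have e1 := Real.rpow_inv_natCast_pow (hg.trans hy).le hn0
  have e0 := Real.rpow_nonneg (hg.trans hy).le (n⁻¹ : ℝ)
  generalize min (min (2 * g) (b ^ n)) (g + e / 2) ^ (n⁻¹ : ℝ) = ρ at e1 e0
  have k1 : ρ ^ n ≤ 2 * g := e1.trans_le ((min_le_left _ _).trans (min_le_left _ _))
  have k2 : ρ ^ n ≤ b ^ n := e1.trans_le ((min_le_left _ _).trans (min_le_right _ _))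
  have k3 : ρ ^ n ≤ g + e / 2 := e1.trans_le (min_le_right _ _)
  have k4 : g < ρ ^ n := hy.trans_eq e1.symm
  exact ⟨ρ, (lt_of_pow_lt_pow_left₀ n e0 (h1.trans_lt k4)).le,
    (pow_le_pow_iff_left₀ e0 hb hn0).1 k2, k4, k1, by linarith⟩

theorem Merge_big {n : ℕ} (hn : 1 ≤ n) {δ σ : ℝ} (hδ : 0 < δ) (hσ : 0 < σ) (hσ1 : σ ≤ 1 / 4)
    (h : MergeH n (2 / δ) (1 / 4) σ) {ι : Type} [Fintype ι] {rr : ι → ℝ}
    (hr : ∀ i, 0 < rr i ∧ rr i ≤ σ) (h1 : 1 / 2 ≤ ∑ i, rr i ^ n) (h2 : ∑ i, rr i ^ n < 1)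
    (hc : ∀ s, 0 < s → s ≤ δ * σ / 2 →
      ∑ i ∈ univ.filter fun i => s / 2 ≤ rr i ∧ rr i ≤ s, rr i ^ n ≤ (s / δ) ^ n) :
    Packs n rr 1 := by
  refine h σ hσ le_rfl ι rr (fun i => ⟨(hr i).1.le, (hr i).2⟩) ?_ h2
  have h3 := small_sum hn rr (fun i => (hr i).1) (by positivity) hδ hc
  have e1 : δ * σ / 2 / δ = σ / 2 := by field_simp
  have e2 : σ / (2 / δ) = δ * σ / 2 := by field_simp
  have h4 : (σ / 2) ^ n ≤ σ / 2 := pow_le_of_le_one (by positivity) (by linarith) (by omega)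
  have h5 := sum_filter_add_sum_filter_not univ (fun i => rr i ≤ δ * σ / 2) fun i => rr i ^ n
  have h6 : ∑ i ∈ univ.filter fun i => ¬rr i ≤ δ * σ / 2, rr i ^ n ≤
      ∑ i ∈ univ.filter fun i => δ * σ / 2 ≤ rr i, rr i ^ n :=
    sum_le_sum_of_subset_of_nonneg
      (fun i hi => mem_filter.2 ⟨mem_univ _, (not_le.1 (mem_filter.1 hi).2).le⟩)
      fun i _ _ => pow_nonneg (hr i).1.le n
  have h7 := sum_le_card_nsmul (univ.filter fun i => δ * σ / 2 ≤ rr i) (fun i => rr i ^ n) (σ ^ n)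
    fun i _ => pow_le_pow_left₀ (hr i).1.le (hr i).2 n
  rw [nsmul_eq_mul] at h7
  rw [e1] at h3
  rw [e2]
  linarith

theorem Merge_ind {n : ℕ} (hn : 1 ≤ n) {δ σ : ℝ} (hδ : 0 < δ) (hδ1 : δ ≤ 1 / 4) (hσ : 0 < σ)
    (hσ1 : σ ≤ 1 / 4) (ha : MergeH n 2 (1 / 2) δ) (hb : MergeH n (2 / δ) (1 / 4) σ) (N : ℕ) :
    ∀ (ι : Type) [Fintype ι] (rr : ι → ℝ), Fintype.card ι = N → (∀ i, 0 < rr i ∧ rr i ≤ σ) →
      1 / 2 ≤ ∑ i, rr i ^ n → ∑ i, rr i ^ n < 1 → Packs n rr 1 := by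
  classical
  induction N using Nat.strong_induction_on with
  | _ N ih =>
  intro ι _ rr hN hr h1 h2
  by_contra hP
  obtain ⟨s, hs, hs0, hc⟩ : ∃ s, 0 < s ∧ s ≤ δ * σ / 2 ∧
      (s / δ) ^ n < ∑ i ∈ univ.filter fun i => s / 2 ≤ rr i ∧ rr i ≤ s, rr i ^ n := by
    by_contra hc
    exact hP (Merge_big hn hδ hσ hσ1 hb hr h1 h2 fun s k1 k2 =>
      not_lt.1 fun k3 => hc ⟨s, k1, k2, k3⟩)
  have hq : 0 < s / δ := div_pos hs hδ
  obtain ⟨G, hG, g1, g2⟩ := exists_subsum _ (fun i => rr i ^ n) (b := s ^ n) (pow_pos hq n)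
    (fun i hi => pow_le_pow_left₀ (hr i).1.le (mem_filter.1 hi).2.2 n) hc.le
  have k1 : s ^ n < (s / δ) ^ n := by
    refine pow_lt_pow_left₀ ?_ hs.le (by omega)
    rw [lt_div_iff₀ hδ]
    nlinarith
  have k2 : 2 * (s / δ) ^ n ≤ (2 * (s / δ)) ^ n := by
    rw [mul_pow]
    exact mul_le_mul_of_nonneg_right (le_self_pow₀ one_le_two (by omega)) (pow_pos hq n).le
  have k3 : 2 * (s / δ) ≤ σ := by
    rw [← mul_div_assoc, div_le_iff₀ hδ]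
    linarith
  have k4 : 2 ≤ G.card := by
    by_contra k5
    have k6 := sum_le_card_nsmul G (fun i => rr i ^ n) (s ^ n) fun i hi =>
      pow_le_pow_left₀ (hr i).1.le (mem_filter.1 (hG hi)).2.2 n
    have k7 : (G.card : ℝ) ≤ 1 := by exact_mod_cast (by omega : G.card ≤ 1)
    rw [nsmul_eq_mul] at k6
    nlinarith [pow_pos hs n]
  obtain ⟨ρ, r1, r2, r3, r4, r5⟩ := Merge_pick hn (b := 2 * (s / δ)) hq (by positivity)
    (sub_pos.2 h2) g1 (by linarith)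
  have e1 : ∑ i : G, rr i ^ n = ∑ i ∈ G, rr i ^ n := sum_coe_sort G fun i => rr i ^ n
  have p1 : Packs n (fun i : G => rr i) ρ := Merge_group hδ ha hs r1
    (fun i => (mem_filter.1 (hG i.2)).2) (by rw [e1]; exact r3) (by rw [e1]; exact r4)
  have e2 : ∑ o : Option {i // i ∉ G}, (o.elim ρ fun i => rr i) ^ n =
      ρ ^ n + ∑ i ∈ Gᶜ, rr i ^ n := by
    rw [Fintype.sum_option, sum_subtype Gᶜ (fun _ => mem_compl) fun i => rr i ^ n]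
    rfl
  have e3 := sum_add_sum_compl G fun i => rr i ^ n
  have e4 : Fintype.card (Option {i // i ∉ G}) < N := by
    rw [Fintype.card_option, Fintype.card_of_subtype Gᶜ fun _ => mem_compl]
    have := card_add_card_compl G
    omega
  refine hP (Packs.merge G p1 (ih _ e4 _ _ rfl (fun o => ?_) (by rw [e2]; linarith)
    (by rw [e2]; linarith)))
  cases o with
  | none => exact ⟨hq.trans_le r1, r2.trans k3⟩
  | some i => exact hr i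

theorem stable {n : ℕ} (hn : 1 ≤ n) : ∃ δ : ℝ, 0 < δ ∧ δ ≤ 1 / 4 ∧ ∀ (ι : Type) [Fintype ι] (rr : ι → ℝ)
    (R : ℝ), 0 < R → (∀ i, 0 < rr i ∧ rr i ≤ δ * R) → ∑ i, rr i ^ n < R ^ n → Packs n rr R := by
  obtain ⟨δ, hδ, hδ1, ha⟩ := Merge_hom hn (Λ := 2) (θ := 1 / 2) one_le_two (by norm_num)
  obtain ⟨σ, hσ, hσ1, hb⟩ := Merge_hom hn (Λ := 2 / δ) (θ := 1 / 4)
    (by rw [one_le_div hδ]; linarith) (by norm_num)
  have key : ∀ (ι : Type) [Fintype ι] (rr : ι → ℝ), (∀ i, 0 < rr i ∧ rr i ≤ σ) →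
      ∑ i, rr i ^ n < 1 → Packs n rr 1 := by
    intro ι _ rr hr h2
    rcases le_or_gt (1 / 2) (∑ i, rr i ^ n) with h1 | h1
    · exact Merge_ind hn hδ hδ1 hσ hσ1 ha hb _ ι rr rfl hr h1 h2
    have hp : 0 < σ ^ n := pow_pos hσ n
    have h3 : σ ^ n ≤ σ := pow_le_of_le_one hσ.le (by linarith) (by omega)
    have h4 := Nat.le_ceil ((1 / 2 - ∑ i, rr i ^ n) / σ ^ n)
    have h5 := Nat.ceil_lt_add_one (div_nonneg (sub_pos.2 h1).le hp.le)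
    generalize ⌈(1 / 2 - ∑ i, rr i ^ n) / σ ^ n⌉₊ = k at h4 h5
    rw [div_le_iff₀ hp] at h4
    rw [← sub_lt_iff_lt_add, lt_div_iff₀ hp] at h5
    have e : ∑ i : ι ⊕ Fin k, (Sum.elim rr (fun _ => σ) i) ^ n = ∑ i, rr i ^ n + k * σ ^ n := by
      simp [Fintype.sum_sum_type]
    have h6 := Merge_ind hn hδ hδ1 hσ hσ1 ha hb _ (ι ⊕ Fin k) (Sum.elim rr fun _ => σ) rfl
      (fun i => by
        cases i with
        | inl i => exact hr i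
        | inr i => exact ⟨hσ, le_rfl⟩) (by rw [e]; linarith) (by rw [e]; linarith)
    exact h6.comp_inj Sum.inl_injective
  refine ⟨σ, hσ, hσ1, fun ι _ rr R hR hr h => Merge_scale hR (key ι _ (fun i =>
    ⟨div_pos (hr i).1 hR, (div_le_iff₀ hR).2 (hr i).2⟩) ?_)⟩
  simp only [div_pow]
  rw [← sum_div, div_lt_one (pow_pos hR n)]
  exact h

end Vale.Agent.P209
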