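import Vale.Agent.P209.Tray

/-! The volume condition is necessary.

A real linear map `A` that keeps `omega` has `|det A| = 1`: in a real basis `Aᵀ J A = J` with `det J ≠ 0`
(`LinearMap.BilinForm.toMatrix`, `LinearMap.BilinForm.toMatrix_comp` or `Matrix.det_mul`; nondegenerate
forms have nonzero determinant). `MeasureTheory.lintegral_abs_det_fderiv_eq_addHaar_image` gives
`vol (f '' ball r) = vol (ball r)`, and `vol (ball r) = r ^ n * vol (ball 1)` (`ball r = √r • ball 1`,
`Measure.addHaar_smul`, real dimension `2 n`), with `0 < vol (ball 1) < ∞`. The union `K` of the images is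
compact; the function `π ∑ ‖z j‖ ^ 2` is `< R` on the interior of `ball R` (push the point outwards), so it
has a bound `0 < R' < R` on `K`, and `K ⊆ ball R'`. Hence `∑ r ^ n ≤ R' ^ n < R ^ n`. -/

namespace Vale.Agent.P209

open Set

open MeasureTheory
open scoped Pointwise

/-- The symplectic form as a bilinear form. -/
noncomputable def necB (n : ℕ) : LinearMap.BilinForm ℝ (E n) :=
  LinearMap.mk₂ ℝ omega
    (fun a b c => by
      simp only [omega, Pi.add_apply, Complex.add_re, Complex.add_im, ← Finset.sum_add_distrib]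
      exact Finset.sum_congr rfl fun _ _ => by ring)
    (fun t a c => by
      simp only [omega, Pi.smul_apply, Complex.smul_re, Complex.smul_im, smul_eq_mul,
        Finset.mul_sum]
      exact Finset.sum_congr rfl fun _ _ => by ring)
    (fun a b c => by
      simp only [omega, Pi.add_apply, Complex.add_re, Complex.add_im, ← Finset.sum_add_distrib]
      exact Finset.sum_congr rfl fun _ _ => by ring)
    (fun t a c => by
      simp only [omega, Pi.smul_apply, Complex.smul_re, Complex.smul_im, smul_eq_mul,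
        Finset.mul_sum]
      exact Finset.sum_congr rfl fun _ _ => by ring)

theorem nec_nondeg (n : ℕ) : (necB n).Nondegenerate := by
  refine LinearMap.BilinForm.Nondegenerate.ofSeparatingLeft fun v hv => ?_
  have h : omega v (fun j => Complex.I * v j) = 0 := hv _
  have e : omega v (fun j => Complex.I * v j) = ∑ j, Complex.normSq (v j) :=
    Finset.sum_congr rfl fun j _ => by simp [Complex.normSq_apply]
  rw [e, Finset.sum_eq_zero_iff_of_nonneg fun j _ => Complex.normSq_nonneg _] at h
  funext j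
  exact Complex.normSq_eq_zero.1 (h j (Finset.mem_univ j))

theorem nec_det {n : ℕ} (A : E n →L[ℝ] E n) (h : ∀ v w, omega (A v) (A w) = omega v w) :
    |A.det| = 1 := by
  classical
  let b := Module.finBasis ℝ (E n)
  have e : (necB n).comp (A : E n →ₗ[ℝ] E n) A = necB n := by
    refine LinearMap.ext fun v => LinearMap.ext fun w => h v w
  have h1 := LinearMap.BilinForm.toMatrix_comp b b (necB n) (A : E n →ₗ[ℝ] E n) A
  have h2 := (LinearMap.BilinForm.nondegenerate_iff_det_ne_zero b).1 (nec_nondeg n)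
  rw [e] at h1
  have h3 := congrArg Matrix.det h1
  rw [Matrix.det_mul, Matrix.det_mul, Matrix.det_transpose, LinearMap.det_toMatrix] at h3
  have h4 : A.det ^ 2 = 1 := by
    apply mul_left_cancel₀ h2
    rw [mul_one]
    refine Eq.trans ?_ h3.symm
    rw [ContinuousLinearMap.det]
    ring
  rcases sq_eq_one_iff.1 h4 with h5 | h5 <;> simp [h5]

theorem nec_image {n : ℕ} {U S : Set (E n)} {f : E n → E n} (h : IsSympEmb U f) (hS : S ⊆ U)
    (hm : MeasurableSet S) : volume (f '' S) = volume S := by
  have hi : InjOn f S := fun x hx y hy e =>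
    congrArg Subtype.val (h.emb.injective (a₁ := ⟨x, hS hx⟩) (a₂ := ⟨y, hS hy⟩) e)
  rw [← lintegral_abs_det_fderiv_eq_addHaar_image volume hm (f' := fderiv ℝ f) (fun x hx =>
    ((h.smooth.contDiffAt (h.isOpen.mem_nhds (hS hx))).differentiableAt
      (by simp)).hasFDerivAt.hasFDerivWithinAt) hi,
    setLIntegral_congr_fun hm (g := fun _ => 1) fun x hx => by
      simp [nec_det _ (h.symp x (hS hx))]]
  simp

theorem nec_smul (n : ℕ) (t : ℝ) (S : Set (E n)) :
    volume (t • S) = ENNReal.ofReal ((t ^ 2) ^ n) * volume S := by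
  have e : Module.finrank ℝ (E n) = 2 * n := by
    rw [Module.finrank_pi_fintype]
    simp [mul_comm]
  rw [Measure.addHaar_smul, e, pow_mul, abs_of_nonneg (by positivity)]

theorem nec_ball (n : ℕ) {r : ℝ} (hr : 0 < r) :
    volume (ball n r) = ENNReal.ofReal (r ^ n) * volume (ball n 1) := by
  have hs := Real.sqrt_pos.2 hr
  have e : ball n r = √r • ball n 1 := by
    ext z
    rw [mem_smul_set_iff_inv_smul_mem₀ hs.ne']
    simp only [ball, mem_setOf_eq, Pi.smul_apply, norm_smul, mul_pow, norm_inv, Real.norm_eq_abs,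
      inv_pow, sq_abs, Real.sq_sqrt hr.le, ← Finset.mul_sum]
    rw [mul_left_comm, inv_mul_le_iff₀ hr, mul_one]
  rw [e, nec_smul, Real.sq_sqrt hr.le]

theorem nec_pos (n : ℕ) : volume (ball n 1) ≠ 0 := by
  have h : IsOpen {z : E n | Real.pi * ∑ j, ‖z j‖ ^ 2 < 1} := isOpen_lt (by fun_prop) continuous_const
  exact ((h.measure_pos volume ⟨0, by simp⟩).trans_le (measure_mono fun z hz =>
    (le_of_lt hz : Real.pi * ∑ j, ‖z j‖ ^ 2 ≤ 1))).ne'

theorem Packs.volume_lt {n : ℕ} (hn : 1 ≤ n) {ι : Type} [Fintype ι] {r : ι → ℝ} {R : ℝ}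
    (hr : ∀ i, 0 < r i) (hR : 0 < R) (h : Packs n r R) : ∑ i, r i ^ n < R ^ n := by
  obtain ⟨U, f, h1, h2⟩ := h
  have hc : ∀ i, IsCompact (f i '' ball n (r i)) := fun i =>
    (isCompact_ball n (r i)).image_of_continuousOn
      ((h1 i).2.1.smooth.continuousOn.mono (h1 i).1)
  have hK : IsCompact (⋃ i, f i '' ball n (r i)) := isCompact_iUnion hc
  have hV : volume (⋃ i, f i '' ball n (r i)) =
      ENNReal.ofReal (∑ i, r i ^ n) * volume (ball n 1) := by
    rw [measure_iUnion h2 fun i => (hc i).measurableSet, tsum_fintype,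
      ENNReal.ofReal_sum_of_nonneg fun i _ => (pow_pos (hr i) n).le, Finset.sum_mul]
    refine Finset.sum_congr rfl fun i _ => ?_
    rw [nec_image (h1 i).2.1 (h1 i).1 (isCompact_ball n _).measurableSet, nec_ball n (hr i)]
  have hT : ∀ᶠ t in nhds (1 : ℝ), ∀ y ∈ ⋃ i, f i '' ball n (r i), t • y ∈ interior (ball n R) := by
    refine hK.eventually_forall_of_forall_eventually fun y hy => ?_
    have hy' : y ∈ interior (ball n R) := iUnion_subset (fun i => (h1 i).2.2) hy
    exact (continuous_smul.tendsto' ((1 : ℝ), y) y (one_smul _ _)).eventually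
      (isOpen_interior.mem_nhds hy')
  obtain ⟨t, ht, ht1⟩ := ((hT.filter_mono nhdsWithin_le_nhds).and
    (self_mem_nhdsWithin (a := (1 : ℝ)) (s := Ioi 1))).exists
  have ht2 : 1 < (t ^ 2) ^ n := one_lt_pow₀ (one_lt_pow₀ ht1 two_ne_zero) (by omega)
  have h3 : volume (t • ⋃ i, f i '' ball n (r i)) ≤ volume (ball n R) := measure_mono (by
    rintro _ ⟨y, hy, rfl⟩
    exact interior_subset (ht y hy))
  rw [nec_smul, hV, nec_ball n hR, ← mul_assoc,
    ENNReal.mul_le_mul_iff_left (nec_pos n) (isCompact_ball n 1).measure_lt_top.ne,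
    ← ENNReal.ofReal_mul (by positivity),
    ENNReal.ofReal_le_ofReal_iff (pow_pos hR n).le] at h3
  have h4 : 0 ≤ ∑ i, r i ^ n := Finset.sum_nonneg fun i _ => (pow_pos (hr i) n).le
  by_contra h5
  nlinarith [pow_pos hR n, not_lt.1 h5]

end Vale.Agent.P209
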