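import Vale.Agent.P209.Pair

/-! Action-angle coordinates and integral affine charts.

`sy_polar`: `sy_pi` with `D = {0 < re}`. With `ρ = √(λ / π)`, `θ = 2 π φ` the Jacobian is `ρ ρ' * 2 π = 1`.
`chart`: let `M` be the matrix of `L` (integer entries, invertible). The map
`x + i y ↦ (L x + b) + i (M⁻¹)ᵀ y` is symplectic (`sy_affine`); compose with `polar`. If two points have
the same image, then `L x = L x'` and `φ - φ'` is an integer vector, so `y - y' = Mᵀ (φ - φ')` is one too. -/

namespace Vale.Agent.P209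

open scoped ContDiff
open Set

variable {n : ℕ}

theorem isOpen_pos : IsOpen (Pos n) := by
  have h : Pos n = ⋂ j, {p : E n | 0 < (p j).re} := by
    ext p; simp [Pos]
  rw [h]
  exact isOpen_iInter_of_finite fun j =>
    isOpen_lt continuous_const (Complex.continuous_re.comp (continuous_apply j))

theorem isOpen_strip : IsOpen (Strip n) := by
  have h : Strip n = ⋂ j, ({p : E n | 0 < (p j).re} ∩ ({p : E n | (p j).re < 1} ∩
      {p : E n | 0 < (p j).im})) := by
    ext p; simp [Strip]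
  rw [h]
  refine isOpen_iInter_of_finite fun j => IsOpen.inter ?_ (IsOpen.inter ?_ ?_)
  · exact isOpen_lt continuous_const (Complex.continuous_re.comp (continuous_apply j))
  · exact isOpen_lt (Complex.continuous_re.comp (continuous_apply j)) continuous_const
  · exact isOpen_lt continuous_const (Complex.continuous_im.comp (continuous_apply j))

/-- The one dimensional action-angle map. -/
noncomputable def Polar_phi (z : ℂ) : ℂ :=
  (Real.sqrt (z.re / Real.pi) : ℂ) * Complex.exp (2 * Real.pi * Complex.I * (z.im : ℂ))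

theorem Polar_norm_exp (y : ℝ) : ‖Complex.exp (2 * Real.pi * Complex.I * (y : ℂ))‖ = 1 := by
  have h : 2 * (Real.pi : ℂ) * Complex.I * (y : ℂ) = ((2 * Real.pi * y : ℝ) : ℂ) * Complex.I := by
    push_cast; ring
  rw [h, Complex.norm_exp_ofReal_mul_I]

theorem Polar_smooth : ContDiffOn ℝ ∞ Polar_phi {z : ℂ | 0 < z.re} := by
  intro z hz
  have hz' : 0 < z.re := hz
  have h1 : ContDiffAt ℝ ∞ (fun w : ℂ => w.re / Real.pi) z :=
    (Complex.reCLM.contDiff.contDiffAt).div_const _
  have h2 : ContDiffAt ℝ ∞ (fun w : ℂ => Real.sqrt (w.re / Real.pi)) z :=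
    h1.sqrt (div_pos hz' Real.pi_pos).ne'
  have h3 : ContDiffAt ℝ ∞ (fun w : ℂ => ((Real.sqrt (w.re / Real.pi) : ℝ) : ℂ)) z :=
    Complex.ofRealCLM.contDiff.contDiffAt.comp z h2
  have h4 : ContDiffAt ℝ ∞ (fun w : ℂ => ((w.im : ℝ) : ℂ)) z :=
    Complex.ofRealCLM.contDiff.contDiffAt.comp z Complex.imCLM.contDiff.contDiffAt
  have h5 : ContDiffAt ℝ ∞ (fun w : ℂ => 2 * (Real.pi : ℂ) * Complex.I * ((w.im : ℝ) : ℂ)) z :=
    contDiffAt_const.mul h4
  exact (h3.mul h5.cexp).contDiffWithinAt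

theorem Polar_jac_aux (a b : ℝ) (e : ℂ) (he : ‖e‖ = 1) :
    ((a : ℂ) * e).re * ((b : ℂ) * Complex.I * e).im -
      ((a : ℂ) * e).im * ((b : ℂ) * Complex.I * e).re = a * b := by
  have h : e.re * e.re + e.im * e.im = 1 := by
    rw [← Complex.normSq_apply, Complex.normSq_eq_norm_sq, he]; norm_num
  simp only [Complex.mul_re, Complex.mul_im, Complex.ofReal_re, Complex.ofReal_im, Complex.I_re,
    Complex.I_im]
  linear_combination (a * b) * h

theorem Polar_jac (z : ℂ) (hz : 0 < z.re) :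
    (fderiv ℝ Polar_phi z 1).re * (fderiv ℝ Polar_phi z Complex.I).im -
      (fderiv ℝ Polar_phi z 1).im * (fderiv ℝ Polar_phi z Complex.I).re = 1 := by
  have hpos : 0 < z.re / Real.pi := div_pos hz Real.pi_pos
  have hs : 0 < Real.sqrt (z.re / Real.pi) := Real.sqrt_pos.2 hpos
  have h1 : HasFDerivAt (fun w : ℂ => w.re / Real.pi) (Real.pi⁻¹ • Complex.reCLM) z := by
    have := Complex.reCLM.hasFDerivAt (x := z) |>.const_smul Real.pi⁻¹
    refine this.congr_of_eventuallyEq (Filter.Eventually.of_forall fun w => ?_)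
    simp [div_eq_inv_mul]
  have h2 := h1.sqrt hpos.ne'
  have h3 := Complex.ofRealCLM.hasFDerivAt.comp z h2
  have h4 := Complex.ofRealCLM.hasFDerivAt.comp z (Complex.imCLM.hasFDerivAt (x := z))
  have h5 := (h4.const_mul (2 * (Real.pi : ℂ) * Complex.I)).cexp
  have h6 : HasFDerivAt Polar_phi _ z := h3.mul h5
  rw [h6.fderiv]
  set e : ℂ := Complex.exp (2 * Real.pi * Complex.I * (z.im : ℂ)) with he
  set r : ℝ := Real.sqrt (z.re / Real.pi) with hr
  have key := Polar_jac_aux (1 / (2 * r) * Real.pi⁻¹) (r * (2 * Real.pi)) e (Polar_norm_exp _)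
  have hv : 1 / (2 * r) * Real.pi⁻¹ * (r * (2 * Real.pi)) = 1 := by
    field_simp
  rw [hv] at key
  refine Eq.trans ?_ key
  have e1 : ∀ A B C D : ℂ, A = C → B = D → A.re * B.im - A.im * B.re = C.re * D.im - C.im * D.re := by
    intro A B C D h h'; rw [h, h']
  apply e1
  · simp [he, hr]
    ring
  · simp [he, hr]
    ring

theorem sy_polar : Sy (Pos n) polar :=
  sy_pi (D := {z : ℂ | 0 < z.re}) (φ := Polar_phi)
    (isOpen_lt continuous_const Complex.continuous_re) Polar_smooth fun z hz => Polar_jac z hz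

theorem mom_polar {p : E n} (hp : p ∈ Pos n) : mom (polar p) = reP p := by
  funext j
  have hpos : 0 ≤ (p j).re / Real.pi := (div_pos (hp j) Real.pi_pos).le
  simp only [mom, polar, reP, norm_mul, Polar_norm_exp, mul_one, Complex.norm_real, Real.norm_eq_abs,
    sq_abs, Real.sq_sqrt hpos]
  field_simp

theorem polar_eq {p q : E n} (hp : p ∈ Pos n) (hq : q ∈ Pos n) (h : polar p = polar q) :
    reP p = reP q ∧ ∀ j, ∃ k : ℤ, (p j).im - (q j).im = k := by
  have hre : reP p = reP q := by rw [← mom_polar hp, ← mom_polar hq, h]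
  refine ⟨hre, fun j => ?_⟩
  have h1 : (p j).re = (q j).re := congrFun hre j
  have h2 := congrFun h j
  simp only [polar] at h2
  rw [h1] at h2
  have hs : ((Real.sqrt ((q j).re / Real.pi) : ℝ) : ℂ) ≠ 0 :=
    Complex.ofReal_ne_zero.2 (Real.sqrt_pos.2 (div_pos (hq j) Real.pi_pos)).ne'
  obtain ⟨k, hk⟩ := Complex.exp_eq_exp_iff_exists_int.1 (mul_left_cancel₀ hs h2)
  refine ⟨k, ?_⟩
  have h3 : (2 * (Real.pi : ℂ) * Complex.I) ≠ 0 := Complex.two_pi_I_ne_zero
  have h4 : (((p j).im - (q j).im : ℝ) : ℂ) = ((k : ℝ) : ℂ) := by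
    apply mul_left_cancel₀ h3
    push_cast
    linear_combination hk
  exact Complex.ofReal_injective h4

/-- The vector of imaginary parts. -/
def Polar_imP (p : E n) : Fin n → ℝ := fun j => (p j).im

open Matrix in
/-- The map `x + i y ↦ M x + i N y`. -/
noncomputable def Polar_lin (M N : Matrix (Fin n) (Fin n) ℝ) : E n →ₗ[ℝ] E n where
  toFun z := fun k => ⟨(M *ᵥ reP z) k, (N *ᵥ Polar_imP z) k⟩
  map_add' v w := by
    have h1 : reP (v + w) = reP v + reP w := by funext j; simp [reP]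
    have h2 : Polar_imP (v + w) = Polar_imP v + Polar_imP w := by funext j; simp [Polar_imP]
    funext k
    apply Complex.ext <;> simp [h1, h2, Matrix.mulVec_add]
  map_smul' c v := by
    have h1 : reP (c • v) = c • reP v := by funext j; simp [reP]
    have h2 : Polar_imP (c • v) = c • Polar_imP v := by funext j; simp [Polar_imP]
    funext k
    apply Complex.ext <;> simp [h1, h2, Matrix.mulVec_smul]

open Matrix in
theorem Polar_omega (v w : E n) :
    omega v w = reP v ⬝ᵥ Polar_imP w - reP w ⬝ᵥ Polar_imP v := by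
  simp only [omega, dotProduct, reP, Polar_imP, Finset.sum_sub_distrib]
  congr 1
  exact Finset.sum_congr rfl fun j _ => mul_comm _ _

open Matrix in
theorem Polar_lin_omega (M A : Matrix (Fin n) (Fin n) ℝ) (h : A * M = 1) (v w : E n) :
    omega (Polar_lin M Aᵀ v) (Polar_lin M Aᵀ w) = omega v w := by
  have key : ∀ x y : Fin n → ℝ, (M *ᵥ x) ⬝ᵥ (Aᵀ *ᵥ y) = x ⬝ᵥ y := by
    intro x y
    rw [Matrix.dotProduct_mulVec, Matrix.vecMul_transpose, Matrix.mulVec_mulVec, h, Matrix.one_mulVec]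
  have h1 : ∀ z, reP (Polar_lin M Aᵀ z) = M *ᵥ reP z := fun z => rfl
  have h2 : ∀ z, Polar_imP (Polar_lin M Aᵀ z) = Aᵀ *ᵥ Polar_imP z := fun z => rfl
  rw [Polar_omega, Polar_omega v w, h1, h1, h2, h2, key, key]

open Matrix in
theorem chart (L : (Fin n → ℝ) →ₗ[ℝ] (Fin n → ℝ)) (hL : Function.Injective L) (hZ : Intg L)
    (b : Fin n → ℝ) {U : Set (E n)} {f : E n → E n} (hf : Sy U f) (hi : InjMod U f)
    (hp : ∀ p ∈ U, ∀ k, 0 < (L (reP (f p)) + b) k) :
    ∃ g, Sy U g ∧ InjOn g U ∧ ∀ p ∈ U, mom (g p) = L (reP (f p)) + b := by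
  set M : Matrix (Fin n) (Fin n) ℝ := LinearMap.toMatrix' L with hM
  have hML : ∀ x, M *ᵥ x = L x := fun x => by rw [hM, LinearMap.toMatrix'_mulVec]
  have hinj : Function.Injective M.mulVec := fun x y hxy => hL (by rw [← hML, ← hML]; exact hxy)
  have hu : IsUnit M := Matrix.mulVec_injective_iff_isUnit.1 hinj
  have hA : M⁻¹ * M = 1 := Matrix.nonsing_inv_mul M ((Matrix.isUnit_iff_isUnit_det M).1 hu)
  choose Z hZ' using hZ
  have hMZ : ∀ k j, M k j = Z j k := fun k j => by rw [hM, LinearMap.toMatrix'_apply, hZ']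
  let T : E n →L[ℝ] E n := LinearMap.toContinuousLinearMap (Polar_lin M (M⁻¹)ᵀ)
  let c : E n := fun k => (b k : ℂ)
  have hT : Sy univ fun z => T z + c := sy_affine T c (Polar_lin_omega M M⁻¹ hA)
  have hre : ∀ z, reP (T z + c) = L (reP z) + b := by
    intro z
    funext k
    have : (T z k).re = (M *ᵥ reP z) k := rfl
    simp [reP, c, this, hML]
  have him : ∀ z, Polar_imP (T z + c) = (M⁻¹)ᵀ *ᵥ Polar_imP z := by
    intro z
    funext k
    have : (T z k).im = ((M⁻¹)ᵀ *ᵥ Polar_imP z) k := rfl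
    simp [Polar_imP, c, this]
  have hpos : ∀ p ∈ U, T (f p) + c ∈ Pos n := by
    intro p hpU k
    have := hp p hpU k
    rw [← hre] at this
    exact this
  have h1 : Sy U ((fun z => T z + c) ∘ f) := hf.comp hT (mapsTo_univ _ _)
  have h2 : Sy U (polar ∘ ((fun z => T z + c) ∘ f)) := h1.comp sy_polar hpos
  refine ⟨_, h2, fun p hpU q hqU hpq => ?_, fun p hpU => ?_⟩
  · obtain ⟨e1, e2⟩ := polar_eq (hpos p hpU) (hpos q hqU) hpq
    rw [hre, hre] at e1
    refine hi p hpU q hqU (hL (add_right_cancel e1)) fun j => ?_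
    choose K hK using e2
    have e3 : (M⁻¹)ᵀ *ᵥ (Polar_imP (f p) - Polar_imP (f q)) = fun k => (K k : ℝ) := by
      rw [Matrix.mulVec_sub, ← him, ← him]
      funext k
      exact hK k
    have e4 : Polar_imP (f p) - Polar_imP (f q) = Mᵀ *ᵥ fun k => (K k : ℝ) := by
      rw [← e3, Matrix.mulVec_mulVec, ← Matrix.transpose_mul, hA, Matrix.transpose_one,
        Matrix.one_mulVec]
    refine ⟨∑ k, Z j k * K k, ?_⟩
    have e5 := congrFun e4 j
    simp only [Pi.sub_apply, Polar_imP, Matrix.mulVec, dotProduct, Matrix.transpose_apply, hMZ] at e5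
    rw [e5]
    push_cast
    rfl
  · rw [← hre]
    exact mom_polar (hpos p hpU)

end Vale.Agent.P209
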