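import Vale.Agent.P209.GenDefs

/-! Smoothing a valley.

Convolve `(x, s) ↦ a j x s` on `(Fin n → ℝ) × ℝ` with a normed bump `φ` of small radius:
`b j x s = ∫ φ q * a j (x - q.1) (s - q.2)` (`ContDiffBump.normed`, `HasCompactSupport.contDiff_convolution_left`,
`ContDiffBump.dist_normed_convolution_le`; the product space needs an additive Haar measure, for example
`volume` or `Measure.addHaar` with `borel`). `dep`, `anti`, the bound pass to the integral pointwise in `q`;
for `mono` use `a (s' - q) - a (s - q) ≥ -(s' - s)` and total mass one. Uniform continuity on the compact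
set `‖x‖ ≤ M + 1`, `|s| ≤ M + 1` gives the radius (one radius for the finitely many `j`, or one per `j`). -/

namespace Vale.Agent.P209

open scoped ContDiff

variable {n : ℕ} {a : Fin n → (Fin n → ℝ) → ℝ → ℝ}

section Aux

open MeasureTheory Metric

variable {G : Type} [NormedAddCommGroup G] [NormedSpace ℝ G] [FiniteDimensional ℝ G]
  [MeasurableSpace G] [BorelSpace G] (μ : Measure G) [μ.IsAddHaarMeasure]

theorem Smooth_ex {g : G → ℝ} (hg : Continuous g) (M : ℝ) {ε : ℝ} (hε : 0 < ε) :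
    ∃ ψ : G → ℝ, Continuous ψ ∧ HasCompactSupport ψ ∧ (∀ q, 0 ≤ ψ q) ∧ ∫ q, ψ q ∂μ = 1 ∧
      (ContDiff ℝ ∞ fun p => ∫ q, ψ q * g (p - q) ∂μ) ∧
      ∀ p, ‖p‖ ≤ M → |∫ q, ψ q * g (p - q) ∂μ - g p| ≤ ε := by
  have : ProperSpace G := FiniteDimensional.proper_real G
  obtain ⟨δ, hδ, hd⟩ := Metric.uniformContinuousOn_iff.1
    ((isCompact_closedBall (0 : G) (M + 1)).uniformContinuousOn_of_continuous hg.continuousOn) ε hε
  have h0 : 0 < min δ 1 := lt_min hδ one_pos
  let φ : ContDiffBump (0 : G) := ⟨min δ 1 / 2, min δ 1, half_pos h0, half_lt_self h0⟩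
  refine ⟨φ.normed μ, φ.continuous_normed, φ.hasCompactSupport_normed, φ.nonneg_normed,
    φ.integral_normed, ?_, fun p hp => ?_⟩
  · exact φ.hasCompactSupport_normed.contDiff_convolution_left (ContinuousLinearMap.lsmul ℝ ℝ)
      φ.contDiff_normed hg.locallyIntegrable
  · refine φ.dist_normed_convolution_le (μ := μ) hg.aestronglyMeasurable fun q hq => ?_
    have h1 : dist q p < min δ 1 := hq
    refine (hd q ?_ p ?_ (h1.trans_le (min_le_left _ _))).le
    · rw [mem_closedBall_zero_iff]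
      have h2 := norm_le_norm_add_norm_sub' q p
      rw [dist_eq_norm] at h1
      linarith [min_le_right δ 1]
    · rw [mem_closedBall_zero_iff]
      linarith

omit [NormedSpace ℝ G] [FiniteDimensional ℝ G] in
theorem Smooth_le {ψ : G → ℝ} (h1 : Continuous ψ) (h2 : HasCompactSupport ψ) (h3 : ∀ q, 0 ≤ ψ q)
    (h4 : ∫ q, ψ q ∂μ = 1) {f g : G → ℝ} (hf : Continuous f) (hg : Continuous g) {c : ℝ}
    (h : ∀ q, f q ≤ g q + c) : ∫ q, ψ q * f q ∂μ ≤ ∫ q, ψ q * g q ∂μ + c := by
  have i1 : Integrable (fun q => ψ q * f q) μ :=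
    (h1.mul hf).integrable_of_hasCompactSupport h2.mul_right
  have i2 : Integrable (fun q => ψ q * g q) μ :=
    (h1.mul hg).integrable_of_hasCompactSupport h2.mul_right
  have i3 : Integrable (fun q => ψ q * c) μ := (h1.integrable_of_hasCompactSupport h2).mul_const c
  have e : ∫ q, ψ q * c ∂μ = c := by rw [integral_mul_const, h4, one_mul]
  rw [← e, ← integral_add i2 i3]
  refine integral_mono i1 (i2.add i3) fun q => ?_
  change ψ q * f q ≤ ψ q * g q + ψ q * c
  rw [← mul_add]
  exact mul_le_mul_of_nonneg_left (h q) (h3 q)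

end Aux

theorem Valley.smoothing (ha : Valley a) {M0 : ℝ} (hM : ∀ j x s, |a j x s| ≤ M0) (M : ℝ) {ε : ℝ}
    (hε : 0 < ε) :
    ∃ b, SV b ∧ (∀ j x s, |b j x s| ≤ M0) ∧
      ∀ j x s, ‖x‖ ≤ M → |s| ≤ M → |b j x s - a j x s| ≤ ε := by
  let μ : MeasureTheory.Measure ((Fin n → ℝ) × ℝ) := MeasureTheory.Measure.addHaar
  choose ψ h1 h2 h3 h4 h5 h6 using fun j => Smooth_ex μ (ha.cont j) M hε
  have hc : ∀ j x s, Continuous fun q : (Fin n → ℝ) × ℝ => a j (x - q.1) (s - q.2) := fun j x s =>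
    (ha.cont j).comp (f := fun q : (Fin n → ℝ) × ℝ => (x, s) - q)
      (continuous_const.sub continuous_id)
  have hb : ∀ j x s, |∫ q, ψ j q * a j (x - q.1) (s - q.2) ∂μ| ≤ M0 := fun j x s => by
    have k1 := Smooth_le μ (h1 j) (h2 j) (h3 j) (h4 j) (hc j x s) (continuous_const (y := 0))
      (c := M0) fun q => by linarith [(abs_le.1 (hM j (x - q.1) (s - q.2))).2]
    have k2 := Smooth_le μ (h1 j) (h2 j) (h3 j) (h4 j) (continuous_const (y := 0)) (hc j x s)
      (c := M0) fun q => by linarith [(abs_le.1 (hM j (x - q.1) (s - q.2))).1]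
    simp only [mul_zero, MeasureTheory.integral_zero] at k1 k2
    exact abs_le.2 ⟨by linarith, by linarith⟩
  refine ⟨fun j x s => ∫ q, ψ j q * a j (x - q.1) (s - q.2) ∂μ,
    ⟨⟨fun j => (h5 j).continuous, fun j x y hxy => ?_, fun j x s s' hs => ?_,
      fun j x s s' hs => ?_, M0, hb⟩, h5⟩, hb, fun j x s hx hs => h6 j (x, s) ?_⟩
  · have e : ∀ q : (Fin n → ℝ) × ℝ, a j (x - q.1) = a j (y - q.1) := fun q =>
      ha.dep j _ _ fun l hl => by rw [Pi.sub_apply, Pi.sub_apply, hxy l hl]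
    simp only [e]
  · have k := Smooth_le μ (h1 j) (h2 j) (h3 j) (h4 j) (hc j x s') (hc j x s) (c := 0) fun q => by
      rw [add_zero]
      exact ha.anti j _ (sub_le_sub_right hs _)
    rwa [add_zero] at k
  · have k := Smooth_le μ (h1 j) (h2 j) (h3 j) (h4 j) (hc j x s) (hc j x s') (c := s' - s)
      fun q => by
        have k := ha.mono j (x - q.1) (sub_le_sub_right hs q.2)
        linarith
    linarith
  · exact max_le hx hs

end Vale.Agent.P209
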