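import Vale.Agent.P209.Tray
import Vale.Agent.P209.GenD
import Vale.Agent.P209.Smooth
import Vale.Agent.P209.Kc

/-! A ball embeds over any neighbourhood of a distorted simplex.

`ε` from `Kset_shrink` (shrink it to `ε ≤ 1`; `Kset` grows with `ε`), `M0` from `bdd`; `T, U, μ` from `traynor`
with `ε`; `b` from `Valley.smoothing` with `M = M0 + |ρ| + 3`, `ε / 2`; `Φ` from `genfun` with `ε / 2`.
For `z` in the ball, `x = reP (Φ (T z))` has `‖x‖ ≤ M` and lies in `Kset ρ ε a` with `η j = (T z j).im`.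
Shrink `U` to the open set `U ∩ (fun z => reP (Φ (T z))) ⁻¹' O` (`ContinuousOn.isOpen_inter_preimage`),
apply `chart` and `Sy.emb`. -/

namespace Vale.Agent.P209

open Set

variable {n : ℕ} {a : Fin n → (Fin n → ℝ) → ℝ → ℝ}

theorem Realize_mono (ρ : ℝ) {ε ε' : ℝ} (h : ε ≤ ε') : Kset ρ ε a ⊆ Kset ρ ε' a := by
  rintro x ⟨η, h0, h1, h2⟩
  exact ⟨η, h0, by linarith, fun j => ⟨by linarith [(h2 j).1], by linarith [(h2 j).2]⟩⟩

theorem Realize_mem {b : Fin n → (Fin n → ℝ) → ℝ → ℝ} {ρ ε M0 : ℝ} (hε1 : ε ≤ 1)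
    (hM0 : 0 ≤ M0) (hb : ∀ j x s, |b j x s| ≤ M0)
    (hab : ∀ j x s, ‖x‖ ≤ M0 + |ρ| + 3 → |s| ≤ M0 + |ρ| + 3 → |b j x s - a j x s| ≤ ε / 2)
    {x η : Fin n → ℝ} (h0 : ∀ j, 0 ≤ η j) (h1 : ∑ j, η j ≤ ρ + ε)
    (h2 : ∀ j, b j x (η j) - ε / 2 ≤ x j ∧ x j ≤ b j x (η j) + η j + ε / 2) : x ∈ Kset ρ ε a := by
  have hρ := le_abs_self ρ
  have hρ0 := abs_nonneg ρ
  have h3 : ∀ j, η j ≤ |ρ| + 1 := fun j => by
    have h4 := Finset.single_le_sum (f := η) (fun i _ => h0 i) (Finset.mem_univ j)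
    linarith
  have hx : ‖x‖ ≤ M0 + |ρ| + 3 := by
    refine (pi_norm_le_iff_of_nonneg (by positivity)).2 fun j => ?_
    obtain ⟨h4, h5⟩ := abs_le.1 (hb j x (η j))
    rw [Real.norm_eq_abs, abs_le]
    constructor <;> linarith [(h2 j).1, (h2 j).2, h3 j]
  refine ⟨η, h0, h1, fun j => ?_⟩
  obtain ⟨h4, h5⟩ := abs_le.1 (hab j x (η j) hx (by rw [abs_of_nonneg (h0 j)]; linarith [h3 j]))
  constructor <;> linarith [(h2 j).1, (h2 j).2]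

theorem realize (ha : Valley a) (ρ : ℝ) {O : Set (Fin n → ℝ)} (hO : IsOpen O) (hK : Kset ρ 0 a ⊆ O)
    (L : (Fin n → ℝ) →ₗ[ℝ] (Fin n → ℝ)) (hL : Function.Injective L) (hZ : Intg L) (b : Fin n → ℝ)
    (hp : ∀ x ∈ O, ∀ k, 0 < (L x + b) k) :
    ∃ (U : Set (E n)) (g : E n → E n), ball n ρ ⊆ U ∧ IsSympEmb U g ∧
      ∀ z ∈ ball n ρ, ∃ x ∈ O, mom (g z) = L x + b := by
  obtain ⟨ε₀, hε₀, hK₀⟩ := Kset_shrink ha ρ hO hK
  have hε : 0 < min ε₀ 1 := lt_min hε₀ one_pos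
  obtain ⟨M0, hM0⟩ := ha.bdd
  obtain ⟨U, T, μ, hμ, hU, hT, hTi, hTs, hTb⟩ := traynor n ρ hε
  obtain ⟨c, hc, hcb, hca⟩ := ha.smoothing (M0 := |M0|)
    (fun j x s => (hM0 j x s).trans (le_abs_self _)) (|M0| + |ρ| + 3) (half_pos hε)
  obtain ⟨Φ, hΦ, hΦi, hΦb⟩ := genfun hc hμ (half_pos hε)
  have hF : Sy U (Φ ∘ T) := hT.comp hΦ hTs
  have hre : Continuous (reP : E n → Fin n → ℝ) :=
    continuous_pi fun j => Complex.continuous_re.comp (continuous_apply j)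
  have hV : IsOpen (U ∩ (fun z => reP ((Φ ∘ T) z)) ⁻¹' O) :=
    (hre.comp_continuousOn hF.smooth.continuousOn).isOpen_inter_preimage hF.isOpen hO
  have hB : ball n ρ ⊆ U ∩ (fun z => reP ((Φ ∘ T) z)) ⁻¹' O := fun z hz =>
    ⟨hU hz, hK₀ (Realize_mono ρ (min_le_left _ _) (Realize_mem (min_le_right _ _)
      (abs_nonneg _) hcb hca (η := fun j => (T z j).im) (fun j => (hTs (hU hz) j).2.2.le)
      (hTb z hz).1 (hΦb (T z) (hTs (hU hz)) (hTb z hz).2)))⟩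
  obtain ⟨g, hg, hgi, hgm⟩ := chart L hL hZ b (hF.mono hV inter_subset_left)
    (fun p hp q hq h1 h2 => hTi hp.1 hq.1 (hΦi _ (hTs hp.1) _ (hTs hq.1) h1 h2))
    (fun p hp' k => hp _ hp'.2 k)
  exact ⟨_, g, hB, hg.emb hgi, fun z hz => ⟨_, (hB hz).2, hgm z (hB hz)⟩⟩

end Vale.Agent.P209
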