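import Vale.Agent.P209.Pair

/-! An area preserving map that pushes a large disc off the ray `[0, ∞)` and hardly moves norms.

For `z = u + i v` put `ψ z = (u - γ (f' v - 1)) / f' v + i f v`, where `f v = v + κ arctan (v / κ')`,
`f' v = 1 + κ κ' / (κ' ^ 2 + v ^ 2) ≥ 1`. The Jacobian is `(1 / f') * f' = 1` (`sy_pi` with `D = univ`).
`|re ψ| ≤ |u| + γ`, `|im ψ| ≤ |v| + κ π / 2`. `f` is strictly increasing, `f 0 = 0`, so `ψ` is injective
and `im ψ = 0` forces `v = 0`; there `f' 0 - 1 = κ / κ'`, and `κ'` is so small that `γ κ / κ' > |Rb|`. -/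

namespace Vale.Agent.P209

open scoped ContDiff
open Set

theorem shear_sy (n : ℕ) {p q f : ℝ → ℝ} (hp : ContDiff ℝ ∞ p) (hq : ContDiff ℝ ∞ q)
    (hf : ContDiff ℝ ∞ f) (h : ∀ v, p v * deriv f v = 1) :
    Sy univ fun (z : E n) j =>
      ((p (z j).im * (z j).re + q (z j).im : ℝ) : ℂ) + (f (z j).im : ℂ) * Complex.I := by
  have hre : ContDiff ℝ ∞ fun z : ℂ => z.re := Complex.reCLM.contDiff
  have him : ContDiff ℝ ∞ fun z : ℂ => z.im := Complex.imCLM.contDiff
  have hA : ContDiff ℝ ∞ fun z : ℂ => p z.im * z.re + q z.im :=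
    ((hp.comp him).mul hre).add (hq.comp him)
  have key := sy_pi (n := n) (D := univ) isOpen_univ
    (φ := fun z : ℂ => ((p z.im * z.re + q z.im : ℝ) : ℂ) + (f z.im : ℂ) * Complex.I)
    (((Complex.ofRealCLM.contDiff.comp hA).add
      ((Complex.ofRealCLM.contDiff.comp (hf.comp him)).mul contDiff_const)).contDiffOn) ?_
  · simpa using key
  · intro z _
    have d : ∀ {g : ℝ → ℝ}, ContDiff ℝ ∞ g →
        HasFDerivAt (fun z : ℂ => g z.im) (deriv g z.im • Complex.imCLM) z := fun hg =>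
      (hg.differentiable (by simp) z.im).hasDerivAt.comp_hasFDerivAt z Complex.imCLM.hasFDerivAt
    have h1 := ((d hp).fun_mul (Complex.reCLM.hasFDerivAt (x := z))).fun_add (d hq)
    have h2 := (Complex.ofRealCLM.hasFDerivAt.comp z h1).fun_add
      ((Complex.ofRealCLM.hasFDerivAt.comp z (d hf)).mul_const Complex.I)
    have h3 : fderiv ℝ (fun z : ℂ => ((p z.im * z.re + q z.im : ℝ) : ℂ) +
        (f z.im : ℂ) * Complex.I) z = _ := h2.fderiv
    rw [h3]
    simpa using h z.im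

theorem shear_norm {w z : ℂ} {γ δ : ℝ} (hγ : 0 ≤ γ) (hδ : 0 ≤ δ) (h1 : |w.re| ≤ |z.re| + γ)
    (h2 : |w.im| ≤ |z.im| + δ) : ‖w‖ ≤ ‖z‖ + (γ + δ) := by
  have a1 := Complex.abs_re_le_norm z
  have a2 := Complex.abs_im_le_norm z
  have b1 : ‖w‖ ^ 2 = |w.re| ^ 2 + |w.im| ^ 2 := by
    rw [Complex.sq_norm, Complex.normSq_apply, sq_abs, sq_abs]
    ring
  have b2 : ‖z‖ ^ 2 = |z.re| ^ 2 + |z.im| ^ 2 := by
    rw [Complex.sq_norm, Complex.normSq_apply, sq_abs, sq_abs]
    ring
  have c1 := pow_le_pow_left₀ (abs_nonneg _) h1 2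
  have c2 := pow_le_pow_left₀ (abs_nonneg _) h2 2
  refine abs_le_of_sq_le_sq' ?_ (by positivity) |>.2
  nlinarith [mul_le_mul_of_nonneg_left a1 hγ, mul_le_mul_of_nonneg_left a2 hδ, mul_nonneg hγ hδ]

theorem shear (n : ℕ) (Rb : ℝ) {ε : ℝ} (hε : 0 < ε) :
    ∃ ψ : E n → E n, Sy univ ψ ∧ Function.Injective ψ ∧
      (∀ z j, ‖z j‖ < Rb → (ψ z j).im ≠ 0 ∨ (ψ z j).re < 0) ∧ ∀ z j, ‖ψ z j‖ ≤ ‖z j‖ + ε := by
  obtain ⟨γ, hγ⟩ : ∃ γ : ℝ, γ = ε / 2 := ⟨_, rfl⟩
  obtain ⟨κ, hκ⟩ : ∃ κ : ℝ, κ = ε / 4 := ⟨_, rfl⟩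
  have γ0 : 0 < γ := by rw [hγ]; positivity
  have κ0 : 0 < κ := by rw [hκ]; positivity
  obtain ⟨c, hc⟩ : ∃ c : ℝ, c = (|Rb| + 1) / (γ * κ) := ⟨_, rfl⟩
  have c0 : 0 < c := by rw [hc]; positivity
  have hc1 : γ * (κ * c) = |Rb| + 1 := by rw [hc]; field_simp
  let f : ℝ → ℝ := fun v => v + κ * Real.arctan (c * v)
  let g : ℝ → ℝ := fun v => 1 + κ * c / (1 + (c * v) ^ 2)
  have g1 : ∀ v, 1 ≤ g v := fun v => le_add_of_nonneg_right (by positivity)
  have g0 : ∀ v, 0 < g v := fun v => one_pos.trans_le (g1 v)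
  have hd : ∀ v, HasDerivAt f (g v) v := fun v => by
    have h1 := (hasDerivAt_id v).fun_add
      ((((hasDerivAt_id v).const_mul c).arctan).const_mul κ)
    refine h1.congr_deriv ?_
    simp only [g, id]
    ring
  have hf : ContDiff ℝ ∞ f :=
    contDiff_id.add (contDiff_const.mul (Real.contDiff_arctan.comp (contDiff_const.mul contDiff_id)))
  have hg : ContDiff ℝ ∞ g := contDiff_const.add (contDiff_const.div
    (contDiff_const.add ((contDiff_const.mul contDiff_id).pow 2)) fun v => by positivity)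
  have hp : ContDiff ℝ ∞ fun v => (g v)⁻¹ := hg.inv fun v => (g0 v).ne'
  have hq : ContDiff ℝ ∞ fun v => -(γ * (g v - 1)) * (g v)⁻¹ :=
    (contDiff_const.mul (hg.sub contDiff_const)).neg.mul hp
  have hm : StrictMono f := strictMono_of_deriv_pos fun v => by
    rw [(hd v).deriv]
    exact g0 v
  refine ⟨_, shear_sy n hp hq hf fun v => ?_, fun z w h => funext fun j => ?_, fun z j hz => ?_,
    fun z j => ?_⟩
  · rw [(hd v).deriv, inv_mul_cancel₀ (g0 v).ne']
  · have h1 := congrFun h j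
    have h2 : (z j).im = (w j).im := hm.injective (by simpa using congrArg Complex.im h1)
    have h3 := congrArg Complex.re h1
    simp only [Complex.add_re, Complex.ofReal_re, Complex.mul_re, Complex.I_re,
      Complex.ofReal_im, Complex.I_im, mul_zero, mul_one, sub_zero, add_zero, h2,
      add_left_inj] at h3
    exact Complex.ext (mul_left_cancel₀ (inv_pos.2 (g0 (w j).im)).ne' h3) h2
  · by_cases h0 : (z j).im = 0
    · right
      have h1 : (z j).re < γ * (κ * c) :=
        (((le_abs_self _).trans (Complex.abs_re_le_norm _)).trans_lt hz).trans_le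
          (by rw [hc1]; linarith [le_abs_self Rb])
      have h2 : g 0 - 1 = κ * c := by simp [g]
      have h3 := inv_pos.2 (g0 0)
      simp only [h0, h2, Complex.add_re, Complex.ofReal_re, Complex.mul_re, Complex.I_re,
        Complex.ofReal_im, Complex.I_im, mul_zero, mul_one, sub_zero, add_zero]
      nlinarith
    · left
      have h1 : f 0 = 0 := by simp [f]
      have h2 : f (z j).im ≠ 0 := fun e => h0 (hm.injective (e.trans h1.symm))
      simpa using h2
  · have hπ : κ * (Real.pi / 2) ≤ ε / 2 := by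
      rw [hκ]
      nlinarith [Real.pi_le_four]
    refine (shear_norm (z := z j) (γ := γ) (δ := κ * (Real.pi / 2)) γ0.le (by positivity) ?_ ?_).trans
      (by linarith)
    · simp only [Complex.add_re, Complex.ofReal_re, Complex.mul_re, Complex.I_re,
        Complex.ofReal_im, Complex.I_im, mul_zero, mul_one, sub_zero, add_zero]
      have h1 := g1 (z j).im
      have h2 := inv_pos.2 (g0 (z j).im)
      have h3 : (g (z j).im)⁻¹ ≤ 1 := inv_le_one_of_one_le₀ h1
      have h4 : (g (z j).im - 1) * (g (z j).im)⁻¹ = 1 - (g (z j).im)⁻¹ := by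
        rw [sub_mul, mul_inv_cancel₀ (g0 _).ne', one_mul]
      refine (abs_add_le _ _).trans (add_le_add ?_ ?_)
      · rw [abs_mul, abs_of_pos h2]
        exact mul_le_of_le_one_left (abs_nonneg _) h3
      · rw [neg_mul, abs_neg, mul_assoc, h4, abs_of_nonneg (mul_nonneg γ0.le (by linarith))]
        exact mul_le_of_le_one_right γ0.le (by linarith)
    · simp only [Complex.add_im, Complex.ofReal_re, Complex.mul_im, Complex.I_re,
        Complex.ofReal_im, Complex.I_im, mul_zero, mul_one, add_zero, zero_add]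
      refine (abs_add_le _ _).trans (add_le_add le_rfl ?_)
      rw [abs_mul, abs_of_pos κ0]
      exact mul_le_mul_of_nonneg_left (abs_le.2 ⟨(Real.neg_pi_div_two_lt_arctan _).le,
        (Real.arctan_lt_pi_div_two _).le⟩) κ0.le

end Vale.Agent.P209
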