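import Vale.Agent.P209.StepA
import Vale.Agent.P209.LV
import Vale.Agent.P209.Gon
import Vale.Agent.P209.Obst

/-! From level `j` to level `j + 1`; `d = n - 1 - j`.

Apply `level` with `X = ℕ → ℝ`, `c = numAt ..`, `role = roleAt lev role j`, `ζ = (ζ · j)`, `A = T`, `B = C (j + 1)`,
`V x t = d! gon C d (j + 1) (clamp (T x) (C (j + 1)) t)`, `K0 = n!`, `cO = cAt ..`, margin `m / (d + 1)`
(`gon_ge`, `gon_le_one`, `gon_lip`; on `[A, B]` the clamp is the identity, `intervalIntegral.integral_congr`).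
Let `π x l = if l < j then x l else 0` (continuous; `T (π x) = T x`, `ρ i (π x) = ρ i x`). New data:
`T' x = clamp (T x) (C (j + 1)) (x j)`, `ρ' i x = h i (π x) (T' x)`, `u' l x = u l (π x)` for `l ≠ j`,
`u' j x = (T' x - T x) / (C (j + 1) - T x)`, `a' i = update (a i) j (fun x => a0 i (π x))`.
`lo`, `hi` at `j + 1 ≤ lev i`: use the old `lo`, `hi` at the point `π x`. `key`: the old `key` gives
`η j ≤ rr i - ∑ l < j, η l ≤ ρ i x`, so `fit` and `lo` put `x j` in `[T x, C (j + 1)]`, and `star` gives the size. -/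

namespace Vale.Agent.P209

open Finset

variable {ι : Type} [Fintype ι] {n j : ℕ} {Λ c0 τ Γ r : ℝ} {C : ℕ → ℝ} {rr : ι → ℝ} {lev : ι → ℕ}
  {role : ι → Role} {ζ : ι → ℕ → ℝ} {T : (ℕ → ℝ) → ℝ} {ρ : ι → (ℕ → ℝ) → ℝ} {u : ℕ → (ℕ → ℝ) → ℝ}
  {a : ι → ℕ → (ℕ → ℝ) → ℝ → ℝ}

/-- Forget the coordinates `≥ j`. -/
noncomputable def StepP (j : ℕ) (x : ℕ → ℝ) : ℕ → ℝ := fun l => if l < j then x l else 0

theorem Step_cont (j : ℕ) : Continuous (StepP j) := by
  refine continuous_pi fun l => ?_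
  unfold StepP
  split_ifs
  · exact continuous_apply l
  · exact continuous_const

theorem Step_dep {x y : ℕ → ℝ} (h : ∀ l, l < j → x l = y l) : StepP j x = StepP j y := by
  funext l
  unfold StepP
  split_ifs with hl
  · exact h l hl
  · rfl

theorem Step_eq {Y : Type} {f : (ℕ → ℝ) → Y} (h : Dep j f) (x : ℕ → ℝ) : f (StepP j x) = f x :=
  h _ _ fun _ hl => if_pos hl

theorem Step_clamp (A B t t' : ℝ) : |clamp A B t - clamp A B t'| ≤ |t - t'| :=
  (abs_max_sub_max_le_max _ _ _ _).trans (max_le (by simp)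
    ((abs_min_sub_min_le_max _ _ _ _).trans (max_le le_rfl (by simp))))

theorem Step_mono (hs : Small n c0 τ Γ r) (hC : Walls n c0 C) : Monotone C :=
  monotone_nat_of_le_succ fun l => by linarith [hC.gap l, hs.hc0]

theorem Step_level (hs : Small n c0 τ Γ r) (hj : j + 1 < n) (hΛ : 1 ≤ Λ) (hC : Walls n c0 C)
    (hA : Asg n Λ c0 τ Γ r rr lev role ζ) (h : St n c0 r C rr lev ζ j T ρ u a) :
    ∃ (a0 h0 : ι → (ℕ → ℝ) → ℝ → ℝ) (m' : ℝ), 0 < m' ∧
      (∀ i, Tents T (fun _ => C (j + 1)) (ρ i) (a0 i) (h0 i)) ∧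
      (∀ x t, T x ≤ t → t ≤ C (j + 1) → ∑ i, h0 i x t ^ (n - (j + 1)) + m' ≤
        (n - (j + 1)).factorial * gon C (n - (j + 1)) (j + 1) t) ∧
      ∀ i, j + 1 ≤ lev i → ∀ x t, T x ≤ t → t ≤ C (j + 1) →
        ρ i x - 2 * |(t - T x) / (C (j + 1) - T x) - ζ i j| ≤ h0 i x t ∧
          (0 < h0 i x t → 0 < ρ i x ∧ |(t - T x) / (C (j + 1) - T x) - ζ i j| ≤ r / c0) := by
  have mono := Step_mono hs hC
  have e1 : n - j = n - 1 - j + 1 := by omega
  have e2 : n - (j + 1) = n - 1 - j := by omega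
  have c1 : C (j + 1 + (n - 1 - j)) ≤ 1 := by
    rw [show j + 1 + (n - 1 - j) = n by omega]
    exact hC.C1
  have c2 : C (j + 1) ≤ 1 := (mono (Nat.le_add_right _ _)).trans c1
  have hT : ∀ x, T x ≤ C (j + 1) := fun x => (h.T01 x).2.trans (mono (Nat.le_succ j))
  have k0 : ∀ x t, 0 ≤ clamp (T x) (C (j + 1)) t := fun x t =>
    (h.T01 x).1.trans (Obst_mem (hT x) t).1
  have k1 : ∀ x t, clamp (T x) (C (j + 1)) t ≤ C (j + 1 + 1) := fun x t =>
    (Obst_mem (hT x) t).2.trans (mono (Nat.le_succ _))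
  have f1 : (1 : ℝ) ≤ (n - 1 - j).factorial := Nat.one_le_cast.2 (Nat.factorial_pos _)
  have f2 : ((n - 1 - j).factorial : ℝ) ≤ n.factorial :=
    Nat.cast_le.2 (Nat.factorial_le (by omega))
  obtain ⟨m, hm, hv⟩ := h.vol
  have hd : (0 : ℝ) < ((n - 1 - j : ℕ) : ℝ) + 1 := by positivity
  obtain ⟨a0, h0, m', p1, p2, p3, p4⟩ := level (X := ℕ → ℝ) (numAt_ok hs hj).1
    (roleAt lev role j) (fun i => ζ i j) (fun i => hA.z01 i j) (K0 := n.factorial)
    (m := m / (((n - 1 - j : ℕ) : ℝ) + 1)) (cO := cAt n τ Γ r j) (div_pos hm hd) le_rfl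
    (numAt_ok hs hj).2 (A := T) (B := fun _ => C (j + 1))
    (V := fun x t => (n - 1 - j).factorial *
      gon C (n - 1 - j) (j + 1) (clamp (T x) (C (j + 1)) t)) (ρ := ρ) h.cT continuous_const
    (continuous_const.mul ((gon_cont C _ _).comp ((h.cT.comp continuous_fst).max
      (continuous_snd.min continuous_const)))) h.cρ
    (fun x => ⟨(hC.gap j).trans (sub_le_sub_left (h.T01 x).2 _), by linarith [(h.T01 x).1]⟩)
    (fun x t => by
      have g1 := gon_ge hs.hc0.le hC.gap (n - 1 - j) (j + 1) (Obst_mem (hT x) t).2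
      have g2 := gon_le_one mono (n - 1 - j) (j + 1) c1 (k0 x t) (k1 x t)
      have g3 : c0 ^ n ≤ c0 ^ (n - 1 - j) := pow_le_pow_of_le_one hs.hc0.le hs.c1 (by omega)
      have g4 := (pow_nonneg hs.hc0.le _).trans g1
      have g5 := le_mul_of_one_le_left g4 f1
      have g6 := mul_le_of_le_one_right (zero_le_one.trans f1) g2
      change 2 * (c0 ^ n / 2) ≤ _ ∧ _ ≤ (n.factorial : ℝ)
      constructor <;> linarith)
    (fun x t t' => by
      rw [← mul_sub, abs_mul, abs_of_nonneg (zero_le_one.trans f1)]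
      exact mul_le_mul f2 ((gon_lip mono _ _ c1 (k0 x t) (k1 x t) (k0 x t') (k1 x t')).trans
        (Step_clamp _ _ _ _)) (abs_nonneg _) (Nat.cast_nonneg _))
    h.ρ01
    (fun x => by
      have g1 := hv x
      rw [e1, Nat.factorial_succ, gon] at g1
      rw [intervalIntegral.integral_const_mul, intervalIntegral.integral_congr
        (g := gon C (n - 1 - j) (j + 1)) fun t ht => by
          rw [Set.uIcc_of_le (hT x)] at ht
          exact congrArg _ (Obst_clamp ht.1 ht.2)]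
      change ∑ i, ρ i x ^ (n - 1 - j + 1) / (((n - 1 - j : ℕ) : ℝ) + 1) + _ ≤ _
      rw [← sum_div, ← add_div, div_le_iff₀ hd]
      push_cast at g1
      linarith)
    (step_fin hs hj hΛ hA h) (step_bulk hs hj hΛ hA h) fun x w _ _ => step_obs hs hj hA h x w
  refine ⟨a0, h0, m', p1, p2, fun x t t0 t1 => ?_, fun i hi => p4 i (if_pos hi)⟩
  have g1 := p3 x t t0 t1
  rw [Obst_clamp t0 t1] at g1
  rw [e2]
  exact g1

theorem St.step (hs : Small n c0 τ Γ r) (hj : j + 1 < n) (hΛ : 1 ≤ Λ) (hC : Walls n c0 C)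
    (hA : Asg n Λ c0 τ Γ r rr lev role ζ) (h : St n c0 r C rr lev ζ j T ρ u a) :
    ∃ T' ρ' u' a', St n c0 r C rr lev ζ (j + 1) T' ρ' u' a' := by
  obtain ⟨a0, h0, m', p1, p2, p3, p4⟩ := Step_level hs hj hΛ hC hA h
  have mono := Step_mono hs hC
  have c2 : C (j + 1) ≤ 1 := (mono hj.le).trans hC.C1
  have hT : ∀ x, T x ≤ C (j + 1) := fun x => (h.T01 x).2.trans (mono (Nat.le_succ j))
  have hL : ∀ x, 0 < C (j + 1) - T x := fun x =>
    hs.hc0.trans_le ((hC.gap j).trans (sub_le_sub_left (h.T01 x).2 _))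
  have eT := Step_eq h.dT
  have k0 : ∀ x, T (StepP j x) ≤ clamp (T x) (C (j + 1)) (x j) := fun x =>
    (eT x).trans_le (Obst_mem (hT x) _).1
  have k1 : ∀ x, clamp (T x) (C (j + 1)) (x j) ≤ C (j + 1) := fun x => (Obst_mem (hT x) _).2
  have cT : Continuous fun x : ℕ → ℝ => clamp (T x) (C (j + 1)) (x j) :=
    h.cT.max ((continuous_apply j).min continuous_const)
  have dT : Dep (j + 1) fun x : ℕ → ℝ => clamp (T x) (C (j + 1)) (x j) := fun x y hxy => by
    simp only [h.dT x y fun l hl => hxy l (Nat.lt_succ_of_lt hl), hxy j (Nat.lt_succ_self j)]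
  have lt : ∀ {l}, l < j + 1 → l ≠ j → l < j := fun h1 h2 => by omega
  refine ⟨fun x => clamp (T x) (C (j + 1)) (x j),
    fun i x => h0 i (StepP j x) (clamp (T x) (C (j + 1)) (x j)),
    fun l x => if l = j then (clamp (T x) (C (j + 1)) (x j) - T x) / (C (j + 1) - T x)
      else u l (StepP j x),
    fun i l => if l = j then fun x => a0 i (StepP j x) else a i l,
    cT, dT, fun x => ⟨(h.T01 _).1.trans (k0 x), k1 x⟩,
    fun i => (p2 i).ch.comp ((Step_cont j).prodMk cT), fun i x y hxy => ?_,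
    fun i x => ⟨(p2 i).h0 _ _, ((p2 i).h1 _ _).trans (h.ρ01 i _).2⟩,
    ⟨m', p1, fun x => p3 _ _ (k0 x) (k1 x)⟩, fun l x => ?_, fun i x hi => ?_,
    fun i x hi h1 l hl => ?_, fun i l hl => ?_, fun i l hl => ?_, fun i l x hl => ?_,
    fun i l x hl => ?_, fun i l x s hl => ?_, fun i x η h1 h2 h3 => ?_⟩
  · exact congrArg₂ (h0 i) (Step_dep fun l hl => hxy l (Nat.lt_succ_of_lt hl)) (dT x y hxy)
  · split_ifs
    · exact lv_u (hL x) _
    · exact h.u01 l _
  · have g1 := h.lo i (StepP j x) (Nat.le_of_succ_le hi)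
    have g2 := (p4 i hi _ _ (k0 x) (k1 x)).1
    rw [eT] at g2
    rw [sum_range_succ, if_pos rfl, sum_congr rfl fun l hl => by
      rw [if_neg (mem_range.1 hl).ne]]
    linarith
  · obtain ⟨g1, g2⟩ := (p4 i hi _ _ (k0 x) (k1 x)).2 h1
    split_ifs with h2
    · rw [eT] at g2
      rw [h2]
      exact g2
    · exact h.hi i _ (Nat.le_of_succ_le hi) g1 l (mem_range.2 (lt (mem_range.1 hl) h2))
  · split_ifs with h2
    · exact (p2 i).ca.comp (((Step_cont j).comp continuous_fst).prodMk continuous_snd)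
    · exact h.ca i l (lt hl h2)
  · split_ifs with h2
    · exact fun x y hxy => congrArg (a0 i) (Step_dep fun k hk => hxy k (h2 ▸ hk))
    · exact h.da i l (lt hl h2)
  · split_ifs with h2
    · exact (p2 i).anti _
    · exact h.anti i l x (lt hl h2)
  · split_ifs with h2
    · exact (p2 i).mono _
    · exact h.mono i l x (lt hl h2)
  · split_ifs with h2
    · exact ⟨(h.T01 _).1.trans ((p2 i).lo _ s), ((p2 i).hi _ s).trans c2⟩
    · exact h.a01 i l x s (lt hl h2)
  · rw [sum_range_succ] at h2 ⊢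
    have g0 := h1 j (Nat.lt_succ_self j)
    obtain ⟨g1, g2, g3⟩ := h.key i x η (fun l hl => h1 l (Nat.lt_succ_of_lt hl)) (by linarith)
      fun l hl => by
        have g := h3 l (Nat.lt_succ_of_lt hl)
        rwa [if_neg hl.ne] at g
    have g4 := h3 j (Nat.lt_succ_self j)
    rw [if_pos rfl] at g4
    rw [← Step_eq (h.dρ i) x] at g2
    have g5 : T x ≤ x j := (eT x).symm.trans_le (((p2 i).lo _ _).trans g4.1)
    have g6 : x j ≤ C (j + 1) := g4.2.trans ((p2 i).fit _ _ g0 (by linarith))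
    have g7 := (p2 i).star _ _ _ g0 g4.1 g4.2
    rw [Obst_clamp g5 g6]
    refine ⟨rfl, by linarith, fun l hl => ?_⟩
    by_cases h4 : l = j
    · rw [h4, ← g1]
      exact ⟨g5, g6⟩
    · exact g3 l (lt hl h4)

end Vale.Agent.P209
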