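import Vale.Agent.P209.GDefs
import Vale.Agent.P209.LDefs

/-! The numbers and the counts at level `j`; `d = n - 1 - j ≥ 1`, `n - j = d + 1`.

`numAt_ok`: `r ≤ 1`, `d ≤ n`, `cF r ^ d ≤ τ Γ` (`Nat.floor_le`), `r * r ^ (d - 1) = r ^ d ≤ r`, `nu d r ≤ 2 n + 1`.
Counts: `roleAt = p` with `p ∈ {lf, rf, rb}` means `lev i = j ∧ role i = p`; `roleAt = ob` means `j < lev i` (`nob`).
A ball counted in `Asg.lo` for `u l = u l x` has `ρ ≥ r / Λ - 2 j r / (4 Λ n) ≥ r / (2 Λ)` (`St.lo`). A ball with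
`0 < ρ` is counted in `Asg.hi` (`St.hi`); mass `≤ card * r ^ (d + 1)`. For `obs` update `u j`. `Nat.le_floor`. -/

namespace Vale.Agent.P209

open Finset

noncomputable section

def cAt (n : ℕ) (τ Γ r : ℝ) (j : ℕ) : ℕ := ⌊τ * Γ / r ^ (n - 1 - j)⌋₊

def numAt (n : ℕ) (c0 τ Γ r : ℝ) (j : ℕ) : Num where
  d := n - 1 - j
  r := r
  κ := τ / 2
  μ := τ
  c0 := c0
  v0 := c0 ^ n / 2
  v1 := n.factorial
  K := n.factorial + 4 * (n - 1 - j : ℕ) * r ^ (n - 1 - j - 1) * cAt n τ Γ r j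
  cF := cAt n τ Γ r j

variable {ι : Type} [Fintype ι] {n j : ℕ} {Λ c0 τ Γ r : ℝ} {C : ℕ → ℝ} {rr : ι → ℝ} {lev : ι → ℕ}
  {role : ι → Role} {ζ : ι → ℕ → ℝ} {T : (ℕ → ℝ) → ℝ} {ρ : ι → (ℕ → ℝ) → ℝ} {u : ℕ → (ℕ → ℝ) → ℝ}
  {a : ι → ℕ → (ℕ → ℝ) → ℝ → ℝ}

theorem stepA_pos (hs : Small n c0 τ Γ r) : 0 < τ * Γ := mul_pos (hs.hr.trans_le hs.rτ) hs.hΓ

theorem stepA_floor (hs : Small n c0 τ Γ r) (j : ℕ) :
    (cAt n τ Γ r j : ℝ) * r ^ (n - 1 - j) ≤ τ * Γ :=
  (le_div_iff₀ (pow_pos hs.hr _)).1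
    (Nat.floor_le (div_nonneg (stepA_pos hs).le (pow_pos hs.hr _).le))

theorem stepA_le (hs : Small n c0 τ Γ r) {m : ℕ} (h : (m : ℝ) * r ^ (n - 1 - j) ≤ τ * Γ) :
    m ≤ cAt n τ Γ r j :=
  Nat.le_floor ((le_div_iff₀ (pow_pos hs.hr _)).2 h)

theorem numAt_ok (hs : Small n c0 τ Γ r) (hj : j + 1 < n) : (numAt n c0 τ Γ r j).Ok ∧
    (cAt n τ Γ r j : ℝ) * r ^ (n - 1 - j) ≤ c0 ^ n / 2 / 2 := by
  have hX := stepA_pos hs
  have hF := stepA_floor hs j
  have hr := hs.hr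
  have hτ : 0 < τ := hr.trans_le hs.rτ
  have hc := hs.hc0
  have r1 : r ≤ 1 := hs.rτ.trans hs.τ1
  have hp : 0 < c0 ^ n := pow_pos hc n
  have hq : c0 ^ (n + 1) ≤ c0 ^ n := pow_le_pow_of_le_one hc.le hs.c1 (Nat.le_succ n)
  have hd : ((n - 1 - j : ℕ) : ℝ) ≤ n := by exact_mod_cast (by omega : n - 1 - j ≤ n)
  have hd0 : (0 : ℝ) ≤ (n - 1 - j : ℕ) := Nat.cast_nonneg _
  have e : r ^ (n - 1 - j - 1) * r = r ^ (n - 1 - j) := by
    rw [← pow_succ]
    congr 1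
    omega
  have hF0 : 0 ≤ (cAt n τ Γ r j : ℝ) * r ^ (n - 1 - j) := by positivity
  have hm : ((n - 1 - j : ℕ) : ℝ) * ((cAt n τ Γ r j : ℝ) * r ^ (n - 1 - j)) ≤ n * (τ * Γ) :=
    mul_le_mul hd hF hF0 (Nat.cast_nonneg _)
  have hn : nu (n - 1 - j) r ≤ 2 * n + 1 := by
    have h1 : r ^ (n - 1 - j - 1) ≤ 1 := pow_le_one₀ hr.le r1
    exact (mul_le_of_le_one_right (by positivity) h1).trans (by linarith)
  have s6 := hs.s6
  refine ⟨⟨?_, hr, hτ, hc, ?_, ?_, ?_, ?_, ?_, ?_, ?_, hs.s5⟩, by linarith⟩ <;> simp only [numAt]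
  · omega
  · positivity
  · positivity
  · have := hs.s1
    rw [← e] at hm
    linarith
  · have := mul_le_mul_of_nonneg_left hn hr.le
    have := hs.s2
    linarith
  · linarith
  · have := mul_le_mul_of_nonneg_left hn hr.le
    have := hs.s3
    rw [← e] at hm
    linarith
  · have := mul_le_mul_of_nonneg_left hs.c1 hτ.le
    have := hs.s4
    linarith

theorem stepA_role {p : Role} (hp : p = Role.lf ∨ p = Role.rf ∨ p = Role.rb) (i : ι) :
    roleAt lev role j i = p ↔ lev i = j ∧ role i = p := by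
  unfold roleAt
  split_ifs with h1 h2
  · refine ⟨fun h => ?_, fun h => by omega⟩
    rcases hp with rfl | rfl | rfl <;> cases h
  · exact ⟨fun h => ⟨h2.symm, h⟩, fun h => h.2⟩
  · refine ⟨fun h => ?_, fun h => (h2 h.1.symm).elim⟩
    rcases hp with rfl | rfl | rfl <;> cases h

theorem stepA_mono {d : ℕ} {f : ι → ℝ} (hf : ∀ i, 0 ≤ f i) {s t : Finset ι} (h : s ⊆ t) :
    mass d f s ≤ mass d f t :=
  sum_le_sum_of_subset_of_nonneg h fun i _ _ => by
    have := hf i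
    positivity

theorem stepA_lo (hs : Small n c0 τ Γ r) (hj : j + 1 < n) (hΛ : 1 ≤ Λ)
    (hA : Asg n Λ c0 τ Γ r rr lev role ζ) (h : St n c0 r C rr lev ζ j T ρ u a) (x : ℕ → ℝ)
    {p : Role} (hp : p = Role.lf ∨ p = Role.rf ∨ p = Role.rb) :
    (if p = Role.rb then τ else τ * r) ≤
      mass (n - 1 - j) (fun i => ρ i x) (univ.filter fun i => roleAt lev role j i = p) := by
  have h1 := hA.lo j hj p hp (fun l => u l x) fun l => h.u01 l x
  have hr := hs.hr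
  have hΛ0 : 0 < Λ := one_pos.trans_le hΛ
  have e : n - j = n - 1 - j + 1 := by omega
  have hn : (0 : ℝ) < n := by exact_mod_cast (by omega : 0 < n)
  have hjn : (j : ℝ) ≤ n := by exact_mod_cast (by omega : j ≤ n)
  rw [e, Nat.cast_succ, mul_comm, ← le_div_iff₀ (by positivity), mul_div_assoc,
    ← nsmul_eq_mul] at h1
  refine h1.trans (le_trans (card_nsmul_le_sum _ (fun i => ρ i x ^ (n - 1 - j + 1) /
    ((n - 1 - j : ℕ) + 1)) _ fun i hi => ?_) (stepA_mono (fun i => (h.ρ01 i x).1) fun i hi => ?_))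
  · obtain ⟨a1, -, a3, a4⟩ := (mem_filter.1 hi).2
    have a5 := h.lo i x a1.ge
    have a6 := sum_le_card_nsmul _ _ _ a4
    rw [card_range, nsmul_eq_mul] at a6
    have a7 : (j : ℝ) * (r / (4 * Λ * n)) ≤ r / (4 * Λ) := by
      refine (mul_le_mul_of_nonneg_right hjn (by positivity)).trans_eq ?_
      field_simp
    have a8 : r / (2 * Λ) = r / Λ - 2 * (r / (4 * Λ)) := by
      field_simp
      ring
    gcongr
    linarith
  · obtain ⟨a1, a2, -⟩ := (mem_filter.1 hi).2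
    exact mem_filter.2 ⟨mem_univ _, (stepA_role hp i).2 ⟨a1, a2⟩⟩

theorem stepA_hi (hs : Small n c0 τ Γ r) (hj : j + 1 < n)
    (hA : Asg n Λ c0 τ Γ r rr lev role ζ) (h : St n c0 r C rr lev ζ j T ρ u a) (x : ℕ → ℝ)
    {p : Role} (hp : p = Role.lf ∨ p = Role.rf ∨ p = Role.rb) :
    ((univ.filter fun i => roleAt lev role j i = p ∧ 0 < ρ i x).card : ℝ) * r ^ (n - 1 - j + 1) ≤
      if p = Role.rb then τ * Γ else τ * Γ * r := by
  have h1 := hA.hi j hj p hp fun l => u l x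
  have e : n - j = n - 1 - j + 1 := by omega
  rw [e] at h1
  refine le_trans (mul_le_mul_of_nonneg_right (Nat.cast_le.2 (card_le_card fun i hi => ?_))
    (pow_pos hs.hr _).le) h1
  obtain ⟨a1, a2⟩ := (mem_filter.1 hi).2
  obtain ⟨a3, a4⟩ := (stepA_role hp i).1 a1
  exact mem_filter.2 ⟨mem_univ _, a3, a4, h.hi i x a3.ge a2⟩

theorem stepA_mass {d : ℕ} {f : ι → ℝ} (hf : ∀ i, 0 ≤ f i ∧ f i ≤ r) (P : ι → Prop)
    [DecidablePred P] : mass d f (univ.filter P) ≤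
      ((univ.filter fun i => P i ∧ 0 < f i).card : ℝ) * r ^ (d + 1) := by
  have e : mass d f (univ.filter P) = mass d f (univ.filter fun i => P i ∧ 0 < f i) := by
    refine (sum_subset (fun i hi => mem_filter.2 ⟨mem_univ _, (mem_filter.1 hi).2.1⟩)
      fun i hi hi' => ?_).symm
    have : f i = 0 := (hf i).1.eq_or_lt.elim Eq.symm fun h =>
      (hi' (mem_filter.2 ⟨mem_univ _, (mem_filter.1 hi).2, h⟩)).elim
    simp [this]
  rw [e, ← nsmul_eq_mul]
  refine sum_le_card_nsmul _ _ _ fun i _ => ?_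
  have h1 := (hf i).1
  refine (div_le_self (by positivity) (by linarith [Nat.cast_nonneg (α := ℝ) d])).trans ?_
  exact pow_le_pow_left₀ h1 (hf i).2 _

theorem step_fin (hs : Small n c0 τ Γ r) (hj : j + 1 < n) (hΛ : 1 ≤ Λ)
    (hA : Asg n Λ c0 τ Γ r rr lev role ζ) (h : St n c0 r C rr lev ζ j T ρ u a) (x : ℕ → ℝ) (p : Role)
    (hp : p = Role.lf ∨ p = Role.rf) :
    2 * (τ / 2) * r ≤ mass (n - 1 - j) (fun i => ρ i x) (univ.filter fun i => roleAt lev role j i = p) ∧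
      (univ.filter fun i => roleAt lev role j i = p ∧ 0 < ρ i x).card ≤ cAt n τ Γ r j := by
  have hp' : p = Role.lf ∨ p = Role.rf ∨ p = Role.rb := hp.imp_right Or.inl
  have hb : p ≠ Role.rb := by rcases hp with rfl | rfl <;> decide
  have h1 := stepA_lo hs hj hΛ hA h x hp'
  have h2 := stepA_hi hs hj hA h x hp'
  rw [if_neg hb] at h1 h2
  refine ⟨by linarith, stepA_le hs (le_of_mul_le_mul_right ?_ hs.hr)⟩
  rwa [mul_assoc, ← pow_succ]

theorem step_bulk (hs : Small n c0 τ Γ r) (hj : j + 1 < n) (hΛ : 1 ≤ Λ)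
    (hA : Asg n Λ c0 τ Γ r rr lev role ζ) (h : St n c0 r C rr lev ζ j T ρ u a) (x : ℕ → ℝ) :
    τ ≤ mass (n - 1 - j) (fun i => ρ i x)
        (univ.filter fun i => roleAt lev role j i = .rb ∨ roleAt lev role j i = .rf) ∧
      mass (n - 1 - j) (fun i => ρ i x)
        (univ.filter fun i => roleAt lev role j i = .rb ∨ roleAt lev role j i = .rf) + τ / 2 ≤
        c0 ^ n / 2 * c0 / 8 := by
  classical
  have h1 := stepA_lo hs hj hΛ hA h x (p := .rb) (Or.inr (Or.inr rfl))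
  have h2 := stepA_hi hs hj hA h x (p := .rb) (Or.inr (Or.inr rfl))
  have h3 := stepA_hi hs hj hA h x (p := .rf) (Or.inr (Or.inl rfl))
  rw [if_pos rfl] at h1 h2
  rw [if_neg (by decide)] at h3
  refine ⟨h1.trans (stepA_mono (fun i => (h.ρ01 i x).1) fun i hi =>
    mem_filter.2 ⟨mem_univ _, Or.inl (mem_filter.1 hi).2⟩), ?_⟩
  have h4 := stepA_mass (d := n - 1 - j) (fun i => h.ρ01 i x) fun i => roleAt lev role j i = .rb
  have h5 := stepA_mass (d := n - 1 - j) (fun i => h.ρ01 i x) fun i => roleAt lev role j i = .rf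
  have h6 : mass (n - 1 - j) (fun i => ρ i x)
      (univ.filter fun i => roleAt lev role j i = .rb ∨ roleAt lev role j i = .rf) =
      mass (n - 1 - j) (fun i => ρ i x) (univ.filter fun i => roleAt lev role j i = .rb) +
        mass (n - 1 - j) (fun i => ρ i x) (univ.filter fun i => roleAt lev role j i = .rf) := by
    rw [filter_or]
    refine sum_union (disjoint_filter.2 fun i _ b1 b2 => ?_)
    rw [b1] at b2
    cases b2
  have h7 := mul_le_of_le_one_right (stepA_pos hs).le (hs.rτ.trans hs.τ1)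
  have h8 := hs.s6
  rw [pow_succ] at h8
  linarith

theorem step_obs (hs : Small n c0 τ Γ r) (hj : j + 1 < n) (hA : Asg n Λ c0 τ Γ r rr lev role ζ)
    (h : St n c0 r C rr lev ζ j T ρ u a) (x : ℕ → ℝ) (w : ℝ) :
    (univ.filter fun i => roleAt lev role j i = .ob ∧ 0 < ρ i x ∧ |w - ζ i j| ≤ r / c0).card ≤
      cAt n τ Γ r j := by
  refine stepA_le hs (le_trans (mul_le_mul_of_nonneg_right (Nat.cast_le.2
    (card_le_card fun i hi => ?_)) (pow_pos hs.hr _).le)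
    (hA.obs j hj (Function.update (fun l => u l x) j w)))
  obtain ⟨a1, a2, a3⟩ := (mem_filter.1 hi).2
  have a4 : j < lev i := by
    unfold roleAt at a1
    split_ifs at a1 with b1 b2
    exacts [b1, (hA.nob i a1).elim]
  refine mem_filter.2 ⟨mem_univ _, a4, by rwa [Function.update_self], fun l hl => ?_⟩
  rw [Function.update_of_ne (mem_range.1 hl).ne]
  exact h.hi i x a4.le a2 l hl

theorem stepA_ev (p : ℝ) {q : ℝ} (hq : 0 < q) : ∀ᶠ x in nhds (0 : ℝ), p * x ≤ q := by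
  have h : Filter.Tendsto (fun x : ℝ => p * x) (nhds 0) (nhds (p * 0)) :=
    (continuous_const.mul continuous_id).tendsto 0
  exact h.eventually_le_const (by rwa [mul_zero])

theorem exists_small (n : ℕ) {c0 Γ θ : ℝ} (hc0 : 0 < c0) (hc1 : c0 ≤ 1) (hΓ : 0 < Γ) (hθ : 0 < θ) :
    ∃ τ δ : ℝ, 0 < δ ∧ τ * Γ ≤ θ ∧ ∀ r, 0 < r → r ≤ δ → Small n c0 τ Γ r := by
  have hp : 0 < c0 ^ n / 16 := by positivity
  have hq : 0 < c0 ^ (n + 1) / 16 := by positivity
  obtain ⟨τ, ⟨t1, t2, t3, t4⟩, t0⟩ := ((((stepA_ev 1 one_pos).and ((stepA_ev Γ hθ).and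
    ((stepA_ev (4 * n * Γ) hp).and (stepA_ev (2 * Γ + 1 / 2) hq)))).filter_mono
      (nhdsWithin_le_nhds (s := Set.Ioi 0))).and self_mem_nhdsWithin).exists
  have t0 : 0 < τ := t0
  obtain ⟨ε, hε, h⟩ := Metric.eventually_nhds_iff.1 ((stepA_ev 1 t0).and
    ((stepA_ev n.factorial hp).and ((stepA_ev (2 * ((n.factorial : ℝ) ^ 2 / τ + (2 * n + 1)))
      (half_pos t0)).and ((stepA_ev (2 * n + 1) hp).and ((stepA_ev (12 * n.factorial) t0).and
        (stepA_ev 8 hc0))))))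
  refine ⟨τ, ε / 2, half_pos hε, by linarith, fun r h0 h1 => ?_⟩
  obtain ⟨r1, r2, r3, r4, r5, r6⟩ := h (y := r) (by
    rw [Real.dist_eq, sub_zero, abs_of_pos h0]
    linarith)
  have t5 : 0 ≤ n * (τ * Γ) := by positivity
  exact ⟨h0, by linarith, by linarith, hc0, hc1, hΓ, by linarith, by linarith, by linarith,
    by linarith, r6, by linarith⟩

end

end Vale.Agent.P209
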