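import Vale.Agent.P209.E8

/-! The two queues, indexed by a finite type with roles.

`enum_two`: list `S` first and then `T` (`Finset.equivFin`, or the list `S.toList ++ T.toList`). Use it for
(`lo`, `lf`) and for (`rb`, `rf`); `ρL k x = (e k).elim 0 (ρ · x)`; transfer sums, masses and counts with the
sum identities of `enum_two`; `a i`, `h i` are `aL (idx i)`, `hL (idx i)` or the same for `R`. -/

namespace Vale.Agent.P209

open Finset

variable {ι : Type}

theorem enum_two [DecidableEq ι] (S T : Finset ι) (hd : Disjoint S T) :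
    ∃ (e : ℕ → Option ι) (idx : ι → ℕ),
      (∀ i ∈ S ∪ T, idx i < S.card + T.card ∧ e (idx i) = some i) ∧
      (∀ f : Option ι → ℝ, ∑ k ∈ range (S.card + T.card), f (e k) = ∑ i ∈ S ∪ T, f (some i)) ∧
      (∀ f : ℕ → ℝ, ∑ k ∈ range (S.card + T.card), f k = ∑ i ∈ S ∪ T, f (idx i)) ∧
      ∀ f : Option ι → ℝ, ∑ k ∈ Ico S.card (S.card + T.card), f (e k) = ∑ i ∈ T, f (some i) := by
  have hnd : (S.toList ++ T.toList).Nodup :=
    List.nodup_append.2 ⟨S.nodup_toList, T.nodup_toList, fun a ha b hb hab =>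
      Finset.disjoint_left.1 hd (Finset.mem_toList.1 ha) (hab ▸ Finset.mem_toList.1 hb)⟩
  have hlen : (S.toList ++ T.toList).length = S.card + T.card := by simp
  have hmem : ∀ i, i ∈ S.toList ++ T.toList ↔ i ∈ S ∪ T := fun i => by simp
  have h1 : ∀ i ∈ S ∪ T, (S.toList ++ T.toList).idxOf i < S.card + T.card ∧
      (S.toList ++ T.toList)[(S.toList ++ T.toList).idxOf i]? = some i := fun i hi =>
    ⟨hlen ▸ List.idxOf_lt_length_of_mem ((hmem i).2 hi), List.getElem?_idxOf ((hmem i).2 hi)⟩
  have h3 : ∀ f : ℕ → ℝ, ∑ k ∈ range (S.card + T.card), f k =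
      ∑ i ∈ S ∪ T, f ((S.toList ++ T.toList).idxOf i) := fun f => by
    symm
    refine Finset.sum_nbij (fun i => (S.toList ++ T.toList).idxOf i) ?_ ?_ ?_ fun _ _ => rfl
    · intro i hi
      exact Finset.mem_range.2 (h1 i hi).1
    · intro i hi j hj hij
      have e1 := (h1 i hi).2
      have e2 := (h1 j hj).2
      simp only at hij
      rw [hij, e2] at e1
      exact (Option.some.inj e1).symm
    · intro k hk
      have hk' : k < (S.toList ++ T.toList).length := by
        rw [hlen]; exact Finset.mem_range.1 hk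
      refine ⟨(S.toList ++ T.toList)[k], (hmem _).1 (List.getElem_mem hk'), ?_⟩
      exact hnd.idxOf_getElem k hk'
  refine ⟨fun k => (S.toList ++ T.toList)[k]?, fun i => (S.toList ++ T.toList).idxOf i, h1,
    fun f => ?_, h3, fun f => ?_⟩
  · rw [h3]
    exact Finset.sum_congr rfl fun i hi => congrArg f (h1 i hi).2
  · have e : Ico S.card (S.card + T.card) = (range (S.card + T.card)).filter fun k => S.card ≤ k := by
      ext k; simp only [mem_Ico, mem_filter, mem_range]; omega
    rw [e, Finset.sum_filter, h3, Finset.sum_union hd]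
    have z : ∑ i ∈ S, (if S.card ≤ (S.toList ++ T.toList).idxOf i then
        f (S.toList ++ T.toList)[(S.toList ++ T.toList).idxOf i]? else 0) = 0 := by
      refine Finset.sum_eq_zero fun i hi => if_neg ?_
      have hi' : i ∈ S.toList := Finset.mem_toList.2 hi
      rw [List.idxOf_append_of_mem hi']
      have := List.idxOf_lt_length_of_mem hi'
      rw [Finset.length_toList] at this
      omega
    rw [z, zero_add]
    refine Finset.sum_congr rfl fun i hi => ?_
    have hi' : i ∉ S.toList := fun h => Finset.disjoint_left.1 hd (Finset.mem_toList.1 h) hi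
    rw [if_pos]
    · exact congrArg f (h1 i (Finset.mem_union_right _ hi)).2
    rw [List.idxOf_append_of_notMem hi', Finset.length_toList]
    omega

theorem two_sided [Fintype ι] {X : Type} [TopologicalSpace X] {c : Num} (hc : c.Ok) (role : ι → Role)
    {A B : X → ℝ} {V : X → ℝ → ℝ} {ρ : ι → X → ℝ} (hA : Continuous A) (hB : Continuous B)
    (hV : Continuous fun p : X × ℝ => V p.1 p.2) (hρ : ∀ i, Continuous (ρ i))
    (len : ∀ x, c.c0 ≤ B x - A x ∧ B x - A x ≤ 1) (V01 : ∀ x t, c.v0 ≤ V x t ∧ V x t ≤ c.v1)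
    (lip : ∀ x t t', |V x t - V x t'| ≤ c.K * |t - t'|) (size : ∀ i x, 0 ≤ ρ i x ∧ ρ i x ≤ c.r)
    (slack : ∀ x, mass c.d (fun i => ρ i x) (univ.filter fun i => role i ≠ .ob) < ∫ t in A x..B x, V x t)
    (fin : ∀ x, ∀ p, p = Role.lf ∨ p = Role.rf →
      2 * c.κ * c.r ≤ mass c.d (fun i => ρ i x) (univ.filter fun i => role i = p) ∧
        (univ.filter fun i => role i = p ∧ 0 < ρ i x).card ≤ c.cF)
    (bulk : ∀ x, c.μ ≤ mass c.d (fun i => ρ i x) (univ.filter fun i => role i = .rb ∨ role i = .rf) ∧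
      mass c.d (fun i => ρ i x) (univ.filter fun i => role i = .rb ∨ role i = .rf) + c.μ / 2 ≤
        c.v0 * c.c0 / 8)
    {ε : ℝ} (hε : 0 < ε) :
    ∃ a h : ι → X → ℝ → ℝ, (∀ i, role i ≠ .ob → Tents A B (ρ i) (a i) (h i)) ∧
      ∀ x t, A x ≤ t → t ≤ B x →
        ∑ i ∈ univ.filter fun i => role i ≠ .ob, h i x t ^ c.d ≤ V x t + ε := by
  classical
  set S1 : Finset ι := univ.filter fun i => role i = .lo with hS1
  set T1 : Finset ι := univ.filter fun i => role i = .lf with hT1
  set S2 : Finset ι := univ.filter fun i => role i = .rb with hS2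
  set T2 : Finset ι := univ.filter fun i => role i = .rf with hT2
  have d1 : Disjoint S1 T1 := Finset.disjoint_left.2 fun i h1 h2 => by
    simp only [hS1, hT1, mem_filter, mem_univ, true_and] at h1 h2
    rw [h1] at h2; cases h2
  have d2 : Disjoint S2 T2 := Finset.disjoint_left.2 fun i h1 h2 => by
    simp only [hS2, hT2, mem_filter, mem_univ, true_and] at h1 h2
    rw [h1] at h2; cases h2
  have m1 : ∀ i, i ∈ S1 ∪ T1 ↔ role i = .lo ∨ role i = .lf := fun i => by simp [hS1, hT1]
  have m2 : ∀ i, i ∈ S2 ∪ T2 ↔ role i = .rb ∨ role i = .rf := fun i => by simp [hS2, hT2]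
  have d12 : Disjoint (S1 ∪ T1) (S2 ∪ T2) := Finset.disjoint_left.2 fun i h1 h2 => by
    rcases (m1 i).1 h1 with h | h <;> rcases (m2 i).1 h2 with h' | h' <;> rw [h] at h' <;> cases h'
  have eU : (univ.filter fun i => role i ≠ .ob) = (S1 ∪ T1) ∪ (S2 ∪ T2) := by
    ext i
    rw [mem_union, m1, m2, mem_filter]
    cases role i <;> simp
  have eR : (univ.filter fun i => role i = .rb ∨ role i = .rf) = S2 ∪ T2 := by
    ext i
    rw [m2, mem_filter]; simp
  obtain ⟨e1, i1, a1, b1, c1, f1⟩ := enum_two S1 T1 d1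
  obtain ⟨e2, i2, a2, b2, c2, f2⟩ := enum_two S2 T2 d2
  let q : Qs := ⟨S1.card, S1.card + T1.card, S2.card, S2.card + T2.card⟩
  let v : X → Var := fun x => ⟨A x, B x, V x, fun k => (e1 k).elim 0 fun i => ρ i x,
    fun k => (e2 k).elim 0 fun i => ρ i x⟩
  have sz : ∀ (o : Option ι) x, 0 ≤ (o.elim 0 fun i => ρ i x) ∧ (o.elim 0 fun i => ρ i x) ≤ c.r := by
    intro o x
    cases o with
    | none => exact ⟨le_rfl, hc.hr.le⟩
    | some i => exact size i x
  have ct : ∀ o : Option ι, Continuous fun x => (o.elim 0 fun i => ρ i x : ℝ) := by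
    intro o
    cases o with
    | none => exact continuous_const
    | some i => exact hρ i
  have mL : ∀ x, mass c.d (v x).ρL (range q.NL) = mass c.d (fun i => ρ i x) (S1 ∪ T1) := fun x =>
    b1 fun o => (o.elim 0 fun i => ρ i x) ^ (c.d + 1) / (c.d + 1)
  have mR : ∀ x, mass c.d (v x).ρR (range q.NR) = mass c.d (fun i => ρ i x) (S2 ∪ T2) := fun x =>
    b2 fun o => (o.elim 0 fun i => ρ i x) ^ (c.d + 1) / (c.d + 1)
  have mL' : ∀ x, mass c.d (v x).ρL (Ico q.nL q.NL) = mass c.d (fun i => ρ i x) T1 := fun x =>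
    f1 fun o => (o.elim 0 fun i => ρ i x) ^ (c.d + 1) / (c.d + 1)
  have mR' : ∀ x, mass c.d (v x).ρR (Ico q.nR q.NR) = mass c.d (fun i => ρ i x) T2 := fun x =>
    f2 fun o => (o.elim 0 fun i => ρ i x) ^ (c.d + 1) / (c.d + 1)
  have cnt : ∀ (e : ℕ → Option ι) (s : Finset ℕ) (p : Role) (x : X),
      (∀ f : Option ι → ℝ, ∑ k ∈ s, f (e k) = ∑ i ∈ univ.filter fun i => role i = p, f (some i)) →
      (s.filter fun k => 0 < (e k).elim 0 fun i => ρ i x).card =
        (univ.filter fun i => role i = p ∧ 0 < ρ i x).card := by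
    intro e s p x hf
    have h := hf fun o => if 0 < (o.elim 0 fun i => ρ i x) then 1 else 0
    have h2 : ∑ i ∈ univ.filter fun i => role i = p, (if 0 < ρ i x then (1 : ℝ) else 0) =
        ((univ.filter fun i => role i = p ∧ 0 < ρ i x).card : ℝ) := by
      rw [Finset.sum_boole, Finset.filter_filter]
    have h3 : ∑ k ∈ s, (if 0 < ((e k).elim 0 fun i => ρ i x) then (1 : ℝ) else 0) =
        ((s.filter fun k => 0 < (e k).elim 0 fun i => ρ i x).card : ℝ) := by
      rw [Finset.sum_boole]
    exact Nat.cast_injective (R := ℝ) (h3.symm.trans (h.trans h2))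
  have ok : ∀ x, (v x).Ok c q := fun x =>
    { num := hc
      qL := Nat.le_add_right _ _
      qR := Nat.le_add_right _ _
      len0 := (len x).1
      len1 := (len x).2
      cont := hV.comp (Continuous.prodMk_right x)
      V0 := fun t => (V01 x t).1
      V1 := fun t => (V01 x t).2
      lip := lip x
      sL := fun k => sz (e1 k) x
      sR := fun k => sz (e2 k) x
      slack := by
        have h := slack x
        rw [eU] at h
        rw [mL, mR]
        refine lt_of_eq_of_lt ?_ h
        exact (Finset.sum_union d12).symm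
      finL := by rw [mL']; exact (fin x _ (Or.inl rfl)).1
      finR := by rw [mR']; exact (fin x _ (Or.inr rfl)).1
      cntL := (cnt e1 _ _ x f1).trans_le (fin x _ (Or.inl rfl)).2
      cntR := (cnt e2 _ _ x f2).trans_le (fin x _ (Or.inr rfl)).2
      bulk0 := by rw [mR, ← eR]; exact (bulk x).1
      bulk1 := by rw [mR, ← eR]; exact (bulk x).2 }
  have vc : VCont v := ⟨hA, hB, hV, fun k => ct (e1 k), fun k => ct (e2 k)⟩
  obtain ⟨aL, hL, aR, hR, tL, tR, tot⟩ := loop_seq hc ok vc hε
  refine ⟨fun i => if i ∈ S1 ∪ T1 then aL (i1 i) else aR (i2 i),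
    fun i => if i ∈ S1 ∪ T1 then hL (i1 i) else hR (i2 i), fun i hi => ?_, fun x t h0 h1 => ?_⟩
  · have hi' : i ∈ (S1 ∪ T1) ∪ (S2 ∪ T2) := by
      rw [← eU]; exact mem_filter.2 ⟨mem_univ _, hi⟩
    by_cases h : i ∈ S1 ∪ T1
    · simp only [if_pos h]
      have t1 := tL (i1 i) (a1 i h).1
      have er : (fun x => (v x).ρL (i1 i)) = ρ i := by
        funext x
        show ((e1 (i1 i)).elim 0 fun j => ρ j x) = ρ i x
        rw [(a1 i h).2]; rfl
      rw [er] at t1
      exact t1
    · simp only [if_neg h]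
      have h' : i ∈ S2 ∪ T2 := (mem_union.1 hi').resolve_left h
      have t1 := tR (i2 i) (a2 i h').1
      have er : (fun x => (v x).ρR (i2 i)) = ρ i := by
        funext x
        show ((e2 (i2 i)).elim 0 fun j => ρ j x) = ρ i x
        rw [(a2 i h').2]; rfl
      rw [er] at t1
      exact t1
  · have h := tot x t h0 h1
    rw [eU, Finset.sum_union d12]
    refine le_of_eq_of_le ?_ h
    have eL := c1 fun k => hL k x t ^ c.d
    have eR' := c2 fun k => hR k x t ^ c.d
    refine congrArg₂ (· + ·) (Eq.trans ?_ eL.symm) (Eq.trans ?_ eR'.symm)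
    · exact Finset.sum_congr rfl fun i hi => by simp only [if_pos hi]
    · exact Finset.sum_congr rfl fun i hi => by
        simp only [if_neg (Finset.disjoint_right.1 d12 hi)]

end Vale.Agent.P209
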