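import Vale.Agent.P209.Hit

/-! One tent. Let `e s = tA s + s`, `sd t = hit 0 e t`.

`tA_lip`: `hit_lip` and `y ^ d - x ^ d ≤ d r ^ (d - 1) (y - x)` for `0 ≤ x ≤ y ≤ r` (`abs_pow_sub_pow_le`).
So `e` is continuous and satisfies `Grow 0 w (1 / 2) e` for every `w`; `sd` is monotone and `2`-Lipschitz.
`tD_full`: not yet peaked means `t < tA 0 = e 0`, so `sd t = 0`. `tD_decay`: peaked means `e 0 ≤ t`, so
`e (sd t) = t` (`hit_eq`), and `e (s + x) ≤ e s + x` gives `sd t + Δ ≤ sd (t + Δ)`; the height `y ≤ r` becomes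
at most `max (y - Δ) 0 ≤ y (1 - Δ / r)`, and `(1 - Δ / r) ^ d ≤ 1 - Δ / r`.
`tH_costar`: `sd t < s`, and `t ≤ e (sd t) ≤ e s`. -/

namespace Vale.Agent.P209

variable {d : ℕ} {r A ρ s s' t t' Δ : ℝ} {W W' : ℝ → ℝ}

theorem Tent_cl (h : 0 ≤ ρ) (s : ℝ) : 0 ≤ cl ρ s ∧ cl ρ s ≤ ρ :=
  ⟨le_max_left _ _, max_le h (min_le_right _ _)⟩

theorem Tent_cl_eq (h0 : 0 ≤ s) (h1 : s ≤ ρ) : cl ρ s = s := by
  unfold cl
  rw [min_eq_left h1, max_eq_right h0]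

theorem Tent_cl_lip (ρ : ℝ) (hs : s ≤ s') : cl ρ s ≤ cl ρ s' ∧ cl ρ s' - cl ρ s ≤ s' - s := by
  unfold cl
  refine ⟨max_le_max le_rfl (min_le_min hs le_rfl), ?_⟩
  rcases le_total s ρ with h1 | h1 <;> rcases le_total s' ρ with h2 | h2 <;>
    simp only [min_eq_left, min_eq_right, h1, h2, max_def] <;> split_ifs <;> linarith

theorem Tent_pow {x y : ℝ} (h0 : 0 ≤ x) (h1 : x ≤ y) (h2 : y ≤ r) (d : ℕ) :
    x ^ d ≤ y ^ d ∧ y ^ d - x ^ d ≤ d * r ^ (d - 1) * (y - x) := by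
  refine ⟨pow_le_pow_left₀ h0 h1 d, (le_abs_self _).trans ((abs_pow_sub_pow_le y x d).trans ?_)⟩
  rw [abs_of_nonneg (sub_nonneg.2 h1), abs_of_nonneg h0, abs_of_nonneg (h0.trans h1),
    max_eq_left h1]
  have h3 := pow_le_pow_left₀ (h0.trans h1) h2 (d - 1)
  have h4 : 0 ≤ (y - x) * d := mul_nonneg (sub_nonneg.2 h1) (Nat.cast_nonneg d)
  calc (y - x) * d * y ^ (d - 1) ≤ (y - x) * d * r ^ (d - 1) := mul_le_mul_of_nonneg_left h3 h4
    _ = d * r ^ (d - 1) * (y - x) := by ring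

theorem TOk.Tent_l (h : TOk d r A ρ W) : 0 < 2 * (d : ℝ) * r ^ (d - 1) := by
  have h1 : (0 : ℝ) < d := by exact_mod_cast h.hd
  have h2 := h.hr
  positivity

theorem TOk.Tent_u (h : TOk d r A ρ W) (s : ℝ) : (ρ - cl ρ s) ^ d ≤ ρ ^ d :=
  pow_le_pow_left₀ (sub_nonneg.2 (Tent_cl h.h0 s).2) (sub_le_self _ (Tent_cl h.h0 s).1) d

theorem TOk.Tent_u' (h : TOk d r A ρ W) (s : ℝ) : (ρ - cl ρ s) ^ d ≤ r ^ d :=
  (h.Tent_u s).trans (pow_le_pow_left₀ h.h0 h.h1 d)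

theorem TOk.Tent_iff (h : TOk d r A ρ W) (ht : A ≤ t) (s : ℝ) :
    tA d A ρ W s ≤ t ↔ (ρ - cl ρ s) ^ d ≤ W t :=
  hit_le_iff h.cont h.grow h.Tent_l (h.Tent_u' s) ht

theorem TOk.tA_ge (h : TOk d r A ρ W) (s : ℝ) : A ≤ tA d A ρ W s := by
  exact hit_ge h.grow h.Tent_l (h.Tent_u' s)

theorem TOk.tA_lip (h : TOk d r A ρ W) (hs : s ≤ s') :
    tA d A ρ W s' ≤ tA d A ρ W s ∧ tA d A ρ W s ≤ tA d A ρ W s' + (cl ρ s' - cl ρ s) / 2 := by
  obtain ⟨h1, -⟩ := Tent_cl_lip ρ hs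
  obtain ⟨h2, h3⟩ := Tent_pow (r := r) (sub_nonneg.2 (Tent_cl h.h0 s').2) (sub_le_sub_left h1 ρ)
    ((sub_le_self _ (Tent_cl h.h0 s).1).trans h.h1) d
  obtain ⟨h4, h5⟩ := hit_lip h.cont h.grow h.Tent_l h2 (h.Tent_u' s)
  refine ⟨h4, h5.trans (add_le_add le_rfl ?_)⟩
  rw [div_le_iff₀ h.Tent_l]
  refine h3.trans (le_of_eq ?_)
  ring

theorem TOk.grow_e (h : TOk d r A ρ W) (w : ℝ) : Grow 0 w (1 / 2) fun s => tA d A ρ W s + s := by
  intro s s' _ hs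
  have h1 := (h.tA_lip hs).2
  have h2 := (Tent_cl_lip ρ hs).2
  refine (min_le_right _ _).trans ?_
  linarith

theorem TOk.Tent_ec (h : TOk d r A ρ W) : Continuous fun s => tA d A ρ W s + s := by
  refine Continuous.add ?_ continuous_id
  have h1 : Continuous fun s => (ρ - cl ρ s) ^ d := by
    unfold cl
    fun_prop
  exact continuous_hit (X := ℝ) (A := fun _ => A) (w := fun _ => r ^ d) (F := fun _ => W) h.Tent_l
    continuous_const h1 (h.cont.comp continuous_snd) (fun _ => h.grow) h.Tent_u'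

theorem TOk.Tent_s0 (h : TOk d r A ρ W) (t : ℝ) : 0 ≤ hit 0 (fun s => tA d A ρ W s + s) t :=
  hit_ge (h.grow_e t) (by norm_num) le_rfl

theorem TOk.Tent_siff (h : TOk d r A ρ W) (hs : 0 ≤ s) (t : ℝ) :
    hit 0 (fun s => tA d A ρ W s + s) t ≤ s ↔ t ≤ tA d A ρ W s + s :=
  hit_le_iff h.Tent_ec (h.grow_e t) (by norm_num) le_rfl hs

theorem TOk.Tent_m (h : TOk d r A ρ W) (t : ℝ) :
    0 ≤ ρ - min (hit 0 (fun s => tA d A ρ W s + s) t) ρ ∧
      ρ - min (hit 0 (fun s => tA d A ρ W s + s) t) ρ ≤ ρ :=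
  ⟨sub_nonneg.2 (min_le_right _ _), sub_le_self _ (le_min (h.Tent_s0 t) h.h0)⟩

theorem TOk.tD_mem (h : TOk d r A ρ W) (t : ℝ) : 0 ≤ tD d A ρ W t ∧ tD d A ρ W t ≤ ρ ^ d := by
  exact ⟨pow_nonneg (h.Tent_m t).1 d, pow_le_pow_left₀ (h.Tent_m t).1 (h.Tent_m t).2 d⟩

theorem TOk.tD_lip (h : TOk d r A ρ W) (ht : t ≤ t') :
    tD d A ρ W t' ≤ tD d A ρ W t ∧
      tD d A ρ W t ≤ tD d A ρ W t' + 2 * d * r ^ (d - 1) * (t' - t) := by
  obtain ⟨h1, h2⟩ := hit_lip h.Tent_ec (h.grow_e t') (by norm_num) ht le_rfl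
  unfold tD
  have k1 := h.Tent_m t
  have k2 := h.Tent_m t'
  generalize hit 0 (fun s => tA d A ρ W s + s) t = x at h1 h2 k1 ⊢
  generalize hit 0 (fun s => tA d A ρ W s + s) t' = y at h1 h2 k2 ⊢
  have h3 : min y ρ - min x ρ ≤ 2 * (t' - t) := by
    simp only [min_def]
    split_ifs <;> linarith
  obtain ⟨h4, h5⟩ := Tent_pow (r := r) k2.1 (sub_le_sub_left (min_le_min h1 le_rfl) ρ)
    (k1.2.trans h.h1) d
  refine ⟨h4, ?_⟩
  have h6 : 0 ≤ (d : ℝ) * r ^ (d - 1) := by linarith [h.Tent_l]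
  have h7 := mul_le_mul_of_nonneg_left h3 h6
  linarith

theorem TOk.tD_cont (h : TOk d r A ρ W) : Continuous (tD d A ρ W) := by
  have h1 : Continuous fun t => hit 0 (fun s => tA d A ρ W s + s) t :=
    continuous_hit (X := ℝ) (A := fun _ => 0) (u := fun t => t) (w := fun t => t)
      (F := fun _ s => tA d A ρ W s + s) (l := 1 / 2) (by norm_num) continuous_const continuous_id
      (h.Tent_ec.comp continuous_snd) h.grow_e fun _ => le_rfl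
  exact (continuous_const.sub (h1.min continuous_const)).pow d

theorem TOk.tD_full (h : TOk d r A ρ W) (ht : A ≤ t) (hW : W t < ρ ^ d) : tD d A ρ W t = ρ ^ d := by
  have h1 : ¬tA d A ρ W 0 ≤ t := by
    rw [h.Tent_iff ht, Tent_cl_eq le_rfl h.h0, sub_zero]
    exact not_le.2 hW
  have h2 := (h.Tent_siff le_rfl t).2 (by linarith [not_le.1 h1])
  unfold tD
  rw [le_antisymm h2 (h.Tent_s0 t), min_eq_left h.h0, sub_zero]

theorem TOk.tA_le (h : TOk d r A ρ W) (ht : A ≤ t) (hW : ρ ^ d ≤ W t) (s : ℝ) : tA d A ρ W s ≤ t := by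
  exact (h.Tent_iff ht s).2 ((h.Tent_u s).trans hW)

theorem TOk.tD_decay (h : TOk d r A ρ W) (ht : A ≤ t) (hW : ρ ^ d ≤ W t) (h0 : 0 ≤ Δ) (h1 : Δ ≤ r) :
    tD d A ρ W (t + Δ) ≤ tD d A ρ W t * (1 - Δ / r) := by
  have h2 : tA d A ρ W 0 + 0 ≤ t := by linarith [h.tA_le ht hW 0]
  have h3 := hit_eq h.Tent_ec (h.grow_e t) (by norm_num) le_rfl h2
  have h4 := hit_eq h.Tent_ec (h.grow_e (t + Δ)) (by norm_num) le_rfl
    (h2.trans (le_add_of_nonneg_right h0))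
  have h5 := (hit_lip h.Tent_ec (h.grow_e (t + Δ)) (by norm_num) (le_add_of_nonneg_right h0)
    le_rfl).1
  have h6 := (h.tA_lip h5).1
  unfold tD
  have k1 := h.Tent_m t
  have k2 := h.Tent_m (t + Δ)
  generalize hit 0 (fun s => tA d A ρ W s + s) t = x at h3 h5 h6 k1 ⊢
  generalize hit 0 (fun s => tA d A ρ W s + s) (t + Δ) = y at h4 h5 h6 k2 ⊢
  have h7 : x + Δ ≤ y := by linarith
  have hq0 : 0 ≤ Δ / r := div_nonneg h0 h.hr.le
  have hq1 : Δ / r ≤ 1 := (div_le_one h.hr).2 h1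
  have h8 : ρ - min y ρ ≤ (ρ - min x ρ) * (1 - Δ / r) := by
    rcases le_total ρ y with h9 | h9
    · rw [min_eq_right h9, sub_self]
      exact mul_nonneg k1.1 (sub_nonneg.2 hq1)
    · rw [min_eq_left (h5.trans h9)] at k1 ⊢
      rw [min_eq_left h9]
      have h10 := mul_le_mul_of_nonneg_right (k1.2.trans h.h1) hq0
      rw [mul_div_cancel₀ _ h.hr.ne'] at h10
      linarith
  refine (pow_le_pow_left₀ k2.1 h8 d).trans ?_
  rw [mul_pow]
  exact mul_le_mul_of_nonneg_left (pow_le_of_le_one (sub_nonneg.2 hq1) (sub_le_self _ hq0)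
    (Nat.one_le_iff_ne_zero.1 h.hd)) (pow_nonneg k1.1 d)

theorem TOk.tD_zero (h : TOk d r A ρ W) (ht : A ≤ t) (hW : ρ ^ d ≤ W t) (ht' : t + r ≤ t') :
    tD d A ρ W t' = 0 := by
  have h1 := h.tD_decay ht hW h.hr.le le_rfl
  rw [div_self h.hr.ne', sub_self, mul_zero] at h1
  exact le_antisymm ((h.tD_lip ht').1.trans h1) (h.tD_mem t').1

theorem TOk.tH_star (h : TOk d r A ρ W) (h0 : 0 ≤ s) (h1 : s ≤ ρ) (ha : tA d A ρ W s ≤ t)
    (hb : t ≤ tA d A ρ W s + s) : (ρ - s) ^ d ≤ tH d A ρ W t := by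
  have h2 := (h.Tent_iff ((h.tA_ge s).trans ha) s).1 ha
  rw [Tent_cl_eq h0 h1] at h2
  have h3 := (h.Tent_siff h0 t).2 hb
  exact le_min (h2.trans (le_max_left _ _)) (pow_le_pow_left₀ (sub_nonneg.2 h1)
    (sub_le_sub_left ((min_le_left _ _).trans h3) ρ) d)

theorem TOk.tH_costar (h : TOk d r A ρ W) (h0 : 0 ≤ s) (h1 : s ≤ ρ) (ht : A ≤ t)
    (hH : (ρ - s) ^ d < tH d A ρ W t) : tA d A ρ W s ≤ t ∧ t ≤ tA d A ρ W s + s := by
  obtain ⟨h2, h3⟩ := lt_min_iff.1 hH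
  have h4 : (ρ - s) ^ d ≤ W t :=
    (lt_max_iff.1 h2).elim le_of_lt fun h5 => absurd h5 (not_lt.2 (pow_nonneg (sub_nonneg.2 h1) d))
  have h5 := lt_of_pow_lt_pow_left₀ d (h.Tent_m t).1 h3
  have h6 : min (hit 0 (fun s => tA d A ρ W s + s) t) ρ < s := by linarith
  refine ⟨(h.Tent_iff ht s).2 (by rw [Tent_cl_eq h0 h1]; exact h4), (h.Tent_siff h0 t).1 ?_⟩
  exact (min_lt_iff.1 h6).elim le_of_lt fun h7 => absurd h7 (not_lt.2 h1)

theorem TOk.tD_mono (h : TOk d r A ρ W) (h' : TOk d r A ρ W') (hW : ∀ t, A ≤ t → W' t ≤ W t) (t : ℝ) :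
    tD d A ρ W t ≤ tD d A ρ W' t := by
  have h1 : ∀ s, tA d A ρ W s ≤ tA d A ρ W' s := fun s =>
    hit_anti h'.grow h'.Tent_l (h'.Tent_u' s) hW
  have h2 : hit 0 (fun s => tA d A ρ W' s + s) t ≤ hit 0 (fun s => tA d A ρ W s + s) t :=
    hit_anti (h.grow_e t) (by norm_num) le_rfl fun s _ => add_le_add (h1 s) le_rfl
  exact pow_le_pow_left₀ (h.Tent_m t).1 (sub_le_sub_left (min_le_min h2 le_rfl) ρ) d

theorem tent_cont {X : Type} [TopologicalSpace X] {A ρ : X → ℝ} {W : X → ℝ → ℝ}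
    (h : ∀ x, TOk d r (A x) (ρ x) (W x)) (hA : Continuous A) (hρ : Continuous ρ)
    (hW : Continuous fun p : X × ℝ => W p.1 p.2) :
    (Continuous fun p : X × ℝ => tA d (A p.1) (ρ p.1) (W p.1) p.2) ∧
      Continuous fun p : X × ℝ => tD d (A p.1) (ρ p.1) (W p.1) p.2 := by
  have hq : Continuous fun q : (X × ℝ) × ℝ => (q.1.1, q.2) := by fun_prop
  have h1 : Continuous fun p : X × ℝ => tA d (A p.1) (ρ p.1) (W p.1) p.2 := by
    have hu : Continuous fun p : X × ℝ => (ρ p.1 - cl (ρ p.1) p.2) ^ d := by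
      unfold cl
      fun_prop
    exact continuous_iff_continuousAt.2 fun p => (continuous_hit (X := X × ℝ)
      (A := fun p => A p.1) (w := fun _ => r ^ d) (F := fun p => W p.1) (h p.1).Tent_l
      (hA.comp continuous_fst) hu (hW.comp hq) (fun p => (h p.1).grow)
      fun p => (h p.1).Tent_u' p.2).continuousAt
  have h2 : Continuous fun p : X × ℝ =>
      hit 0 (fun s => tA d (A p.1) (ρ p.1) (W p.1) s + s) p.2 :=
    continuous_hit (X := X × ℝ) (A := fun _ => 0) (u := fun p => p.2) (w := fun p => p.2)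
      (F := fun p s => tA d (A p.1) (ρ p.1) (W p.1) s + s) (l := 1 / 2) (by norm_num)
      continuous_const continuous_snd ((h1.comp hq).add continuous_snd)
      (fun p => (h p.1).grow_e p.2) fun _ => le_rfl
  exact ⟨h1, ((hρ.comp continuous_fst).sub (h2.min (hρ.comp continuous_fst))).pow d⟩

end Vale.Agent.P209
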