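import Vale.Agent.P209.Polar
import Vale.Agent.P209.Shear

/-! The Traynor trick.

Let `G p = polar (fun j => -I * p j)`; for `p j = ξ + i η` the action is `η` and the angle is `-ξ`.
Multiplication by `-I` is symplectic (`sy_affine`), so `G` is `Sy` on `Strip n`, injective there
(`polar_eq`, an integer in `(-1, 1)` is zero), and its image contains every point whose coordinates
avoid the ray `[0, ∞)` (use `Complex.arg` of `-w`). `sy_of_pair` with `H = id` gives the inverse `Ginv`.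
`U = {z | ∀ j, ‖z j‖ < Rb}` with `Rb = √(|ρ| / π) + 1`, `T = Ginv ∘ ψ` with `ψ` from `shear`;
`(T z j).im = π ‖ψ z j‖ ^ 2 ≤ π (‖z j‖ + ε') ^ 2` by `mom_polar`. `μ` exists since the ball is compact
(`isCompact_ball`) and `T` is continuous on it. -/

namespace Vale.Agent.P209

open scoped ContDiff
open Set

theorem Tray_lt {n : ℕ} {ρ : ℝ} {z : E n} (hz : z ∈ ball n ρ) (j : Fin n) :
    ‖z j‖ < √(|ρ| / Real.pi) + 1 := by
  have h1 : ‖z j‖ ^ 2 ≤ ∑ j, ‖z j‖ ^ 2 :=
    Finset.single_le_sum (f := fun j => ‖z j‖ ^ 2) (fun _ _ => by positivity) (Finset.mem_univ j)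
  have h2 : Real.pi * ∑ j, ‖z j‖ ^ 2 ≤ ρ := hz
  have h3 : ‖z j‖ ^ 2 ≤ |ρ| / Real.pi := by
    rw [le_div_iff₀ Real.pi_pos]
    have := mul_le_mul_of_nonneg_left h1 Real.pi_pos.le
    linarith [le_abs_self ρ]
  linarith [Real.le_sqrt_of_sq_le h3]

theorem isCompact_ball (n : ℕ) (ρ : ℝ) : IsCompact (ball n ρ) := by
  refine Metric.isCompact_of_isClosed_isBounded (isClosed_le (by fun_prop) continuous_const) ?_
  refine (Metric.isBounded_closedBall (x := (0 : E n)) (r := √(|ρ| / Real.pi) + 1)).subset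
    fun z hz => ?_
  rw [mem_closedBall_zero_iff, pi_norm_le_iff_of_nonneg (by positivity)]
  exact fun j => (Tray_lt hz j).le

/-- Action angle coordinates on the strip. -/
noncomputable def TrayG {n : ℕ} (p : E n) : E n := polar fun j => -Complex.I * p j

theorem Tray_pos {n : ℕ} {p : E n} (hp : p ∈ Strip n) : (fun j => -Complex.I * p j) ∈ Pos n :=
  fun j => by simpa using (hp j).2.2

theorem Tray_sy (n : ℕ) : Sy (Strip n) (TrayG (n := n)) := by
  have h := sy_affine (n := n) ((-Complex.I) • ContinuousLinearMap.id ℝ (E n)) 0 fun v w => by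
    refine Finset.sum_congr rfl fun j _ => ?_
    simp
    ring
  have e : (fun z : E n => ((-Complex.I) • ContinuousLinearMap.id ℝ (E n)) z + 0)
      = fun z j => -Complex.I * z j := by
    funext z j
    simp
  rw [e] at h
  exact (h.mono isOpen_strip (subset_univ _)).comp sy_polar fun p hp => Tray_pos hp

theorem Tray_inj (n : ℕ) : InjOn (TrayG (n := n)) (Strip n) := by
  intro p hp q hq h
  obtain ⟨h1, h2⟩ := polar_eq (Tray_pos hp) (Tray_pos hq) h
  funext j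
  obtain ⟨k, hk⟩ := h2 j
  have h3 := congrFun h1 j
  simp only [reP, neg_mul, Complex.neg_re, Complex.neg_im, Complex.I_mul_re, Complex.I_mul_im,
    neg_neg] at h3 hk
  have h4 : (k : ℝ) < 1 := by linarith [(hp j).1, (hq j).2.1]
  have h5 : (-1 : ℝ) < k := by linarith [(hq j).1, (hp j).2.1]
  have h6 : k < 1 := by exact_mod_cast h4
  have h7 : -1 < k := by exact_mod_cast h5
  obtain rfl : k = 0 := by omega
  exact Complex.ext (by simp only [Int.cast_zero] at hk; linarith) h3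

theorem Tray_one {w : ℂ} (h : w.im ≠ 0 ∨ w.re < 0) : ∃ p : ℂ, (0 < p.re ∧ p.re < 1 ∧ 0 < p.im) ∧
    (√((-Complex.I * p).re / Real.pi) : ℂ) *
      Complex.exp (2 * Real.pi * Complex.I * ((-Complex.I * p).im : ℂ)) = w := by
  have hw : w ≠ 0 := by
    rintro rfl
    simp at h
  have h1 : (-w).arg < Real.pi := by
    rw [Complex.arg_lt_pi_iff]
    rcases h with h | h
    · exact Or.inr (by simpa using h)
    · exact Or.inl (by simpa using h.le)
  have h2 := Complex.neg_pi_lt_arg (-w)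
  have hp := Real.pi_pos
  have h3 := Complex.norm_mul_exp_arg_mul_I (-w)
  refine ⟨⟨(Real.pi - (-w).arg) / (2 * Real.pi), Real.pi * ‖w‖ ^ 2⟩,
    ⟨div_pos (by linarith) (by linarith), (div_lt_one (by linarith)).2 (by linarith),
      mul_pos hp (pow_pos (norm_pos_iff.2 hw) 2)⟩, ?_⟩
  simp only [neg_mul, Complex.neg_re, Complex.neg_im, Complex.I_mul_re, Complex.I_mul_im, neg_neg]
  rw [mul_div_cancel_left₀ _ hp.ne', Real.sqrt_sq (norm_nonneg _)]
  have h4 : (Real.pi : ℂ) ≠ 0 := Complex.ofReal_ne_zero.2 hp.ne'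
  have e : 2 * (Real.pi : ℂ) * Complex.I * ((-((Real.pi - (-w).arg) / (2 * Real.pi)) : ℝ) : ℂ)
      = (-w).arg * Complex.I - Real.pi * Complex.I := by
    push_cast
    field_simp
    ring
  rw [e, Complex.exp_sub, Complex.exp_pi_mul_I, div_neg, div_one, mul_neg, ← norm_neg w, h3, neg_neg]

theorem traynor (n : ℕ) (ρ : ℝ) {ε : ℝ} (hε : 0 < ε) :
    ∃ (U : Set (E n)) (T : E n → E n) (μ : ℝ), 0 < μ ∧ ball n ρ ⊆ U ∧ Sy U T ∧ InjOn T U ∧
      MapsTo T U (Strip n) ∧ ∀ z ∈ ball n ρ, ∑ j, (T z j).im ≤ ρ + ε ∧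
        ∀ j, μ ≤ (T z j).re ∧ (T z j).re ≤ 1 - μ := by
  obtain ⟨Rb, hR0, hR⟩ : ∃ Rb : ℝ, 0 < Rb ∧ ∀ z ∈ ball n ρ, ∀ j, ‖z j‖ < Rb :=
    ⟨_, by positivity, fun z hz j => Tray_lt hz j⟩
  have hp := Real.pi_pos
  obtain ⟨δ, d0, d1, d2⟩ : ∃ δ : ℝ, 0 < δ ∧ δ ≤ 1 ∧ n * (Real.pi * (2 * Rb + 1)) * δ ≤ ε := by
    have h0 : 0 ≤ n * (Real.pi * (2 * Rb + 1)) := by positivity
    refine ⟨min 1 (ε / (n * (Real.pi * (2 * Rb + 1)) + 1)), by positivity, min_le_left _ _, ?_⟩
    have h1 := min_le_right 1 (ε / (n * (Real.pi * (2 * Rb + 1)) + 1))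
    have h2 : 0 < min 1 (ε / (n * (Real.pi * (2 * Rb + 1)) + 1)) := by positivity
    rw [le_div_iff₀ (by positivity)] at h1
    linarith
  obtain ⟨ψ, s1, s2, s3, s4⟩ := shear n Rb d0
  have hG := Tray_sy n
  obtain ⟨f, f1, f2⟩ := sy_of_pair (H := id) isOpen_strip hG.smooth contDiffOn_id (Tray_inj n)
    (fun p hp => hG.inj_fderiv hp) fun p hp v w => by
      rw [hG.symp p hp, fderiv_id]
      rfl
  have hU : IsOpen {z : E n | ∀ j, ‖z j‖ < Rb} := by
    rw [ofPred_forall]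
    exact isOpen_iInter_of_finite fun j => isOpen_lt (by fun_prop) continuous_const
  have key : ∀ z ∈ {z : E n | ∀ j, ‖z j‖ < Rb}, (f ∘ ψ) z ∈ Strip n ∧ TrayG ((f ∘ ψ) z) = ψ z := by
    intro z hz
    choose p h1 h2 using fun j => Tray_one (s3 z j (hz j))
    have h3 : TrayG p = ψ z := funext h2
    have h4 : (f ∘ ψ) z = p := by
      rw [Function.comp_apply, ← h3]
      exact f2 p h1
    rw [h4]
    exact ⟨h1, h3⟩
  have hT : Sy {z : E n | ∀ j, ‖z j‖ < Rb} (f ∘ ψ) :=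
    (s1.mono hU (subset_univ _)).comp f1 fun z hz => ⟨_, key z hz⟩
  have hc : ContinuousOn (f ∘ ψ) (ball n ρ) := hT.smooth.continuousOn.mono hR
  have hm : ∀ j, ∃ m : ℝ, 0 < m ∧ ∀ z ∈ ball n ρ,
      m ≤ min ((f ∘ ψ) z j).re (1 - ((f ∘ ψ) z j).re) := fun j => by
    have c1 : ContinuousOn (fun z => ((f ∘ ψ) z j).re) (ball n ρ) :=
      Complex.continuous_re.comp_continuousOn (continuousOn_pi.1 hc j)
    refine (isCompact_ball n ρ).exists_forall_le' (c1.inf (continuousOn_const.sub c1))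
      fun z hz => ?_
    have := (key z (hR z hz)).1 j
    exact lt_min this.1 (sub_pos.2 this.2.1)
  choose m m0 m1 using hm
  have hev : ∀ᶠ μ in nhdsWithin (0 : ℝ) (Ioi 0), ∀ j, μ ≤ m j :=
    Filter.eventually_all.2 fun j => (eventually_le_nhds (m0 j)).filter_mono nhdsWithin_le_nhds
  obtain ⟨μ, u1, u2⟩ := (hev.and self_mem_nhdsWithin).exists
  refine ⟨_, f ∘ ψ, μ, u2, hR, hT, fun z hz z' hz' e => s2 ?_, fun z hz => (key z hz).1,
    fun z hz => ⟨?_, fun j => ?_⟩⟩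
  · rw [← (key z hz).2, ← (key z' hz').2, e]
  · obtain ⟨k1, k2⟩ := key z (hR z hz)
    have h1 : ∀ j, ((f ∘ ψ) z j).im ≤ Real.pi * ‖z j‖ ^ 2 + Real.pi * (2 * Rb + 1) * δ := fun j => by
      have a1 := congrFun (mom_polar (Tray_pos k1)) j
      have a2 : Real.pi * ‖ψ z j‖ ^ 2 = ((f ∘ ψ) z j).im := by
        rw [← k2]
        refine a1.trans ?_
        simp [reP]
      have a3 : ‖ψ z j‖ ^ 2 ≤ (‖z j‖ + δ) ^ 2 := pow_le_pow_left₀ (norm_nonneg _) (s4 z j) 2
      have a4 : (2 * ‖z j‖ + δ) * δ ≤ (2 * Rb + 1) * δ :=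
        mul_le_mul_of_nonneg_right (by linarith [hR z hz j]) d0.le
      have a5 : ‖ψ z j‖ ^ 2 ≤ ‖z j‖ ^ 2 + (2 * Rb + 1) * δ := by linarith
      have a6 := mul_le_mul_of_nonneg_left a5 hp.le
      linarith
    have h2 := Finset.sum_le_sum fun j (_ : j ∈ Finset.univ) => h1 j
    rw [Finset.sum_add_distrib, ← Finset.mul_sum, Finset.sum_const, Finset.card_univ,
      Fintype.card_fin, nsmul_eq_mul] at h2
    have h3 : Real.pi * ∑ j, ‖z j‖ ^ 2 ≤ ρ := hz
    linarith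
  · have := (u1 j).trans (m1 j z hz)
    exact ⟨this.trans (min_le_left _ _), by linarith [this.trans (min_le_right _ _)]⟩

end Vale.Agent.P209
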