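import Vale.Agent.P209.VolPS
import Vale.Agent.P209.Cyc

/-! The pieces cover the simplex.

Let `T = ∑ c`, `D = {y | ∀ j, 0 ≤ bary T y j}`, and `(L m, b m)` from `cyc_chart` with `ε = 0`. Each `y ∈ D` is
`L m x + b m` with `x ∈ PS (cs c m)` for the `m` of `cover` (`L m` is onto; telescoping gives
`pv x l = cs (bary T y) m l`). Also `L 0 x + b 0 ∈ D` for `x ∈ PS (fun _ => T)`. The maps `x ↦ L x + b` keep volumes
(`Measure.addHaar_image_linearMap`, `measure_vadd` or translation invariance). So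
`T ^ n / n! = vol (PS const) ≤ vol D ≤ ∑ m, vol (PS (cs c m))` (`volume_PS`, `gon_const`). -/

namespace Vale.Agent.P209

open Finset

theorem VI_pv {n : ℕ} (x : Fin n → ℝ) (l : Fin n) : pv x (l + 1) = x l := by
  unfold pv
  rw [dif_pos ⟨Nat.succ_pos _, l.2⟩]
  rfl

theorem VI_bary {n : ℕ} (T : ℝ) (y : Fin n → ℝ) : ∑ j, bary T y j = T := by
  simp [bary, Fin.sum_univ_succ]

theorem VI_tel {n : ℕ} {w : Fin (n + 1) → ℝ} {m : Fin (n + 1)} {x : Fin n → ℝ}
    (h : ∀ l, l < n → w (ix n (m + 1 + l)) = pv x (l + 1) - pv x l + 0) (l : ℕ) (hl : l ≤ n) :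
    cs w m l = pv x l := by
  induction l with
  | zero => simp [cs, pv]
  | succ l ih =>
    have h1 := ih (by omega)
    unfold cs at h1 ⊢
    rw [sum_range_succ, h1, h l (by omega)]
    ring

theorem VI_vol {n : ℕ} (L : (Fin n → ℝ) →ₗ[ℝ] (Fin n → ℝ)) (h : |LinearMap.det L| = 1)
    (b : Fin n → ℝ) (S : Set (Fin n → ℝ)) :
    MeasureTheory.volume ((fun x => L x + b) '' S) = MeasureTheory.volume S := by
  rw [← Set.image_image (fun y => y + b) L, Set.image_add_right,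
    MeasureTheory.measure_preimage_add_right, MeasureTheory.Measure.addHaar_image_linearMap, h,
    ENNReal.ofReal_one, one_mul]

theorem VI_mono {n : ℕ} {c : Fin (n + 1) → ℝ} (h0 : ∀ j, 0 ≤ c j) (m : Fin (n + 1)) :
    Monotone (cs c m) := monotone_nat_of_le_succ fun l => by
  unfold cs
  rw [sum_range_succ]
  exact le_add_of_nonneg_right (h0 _)

theorem VI_pos {n : ℕ} {T : ℝ} (hT : 0 ≤ T) {w : Fin (n + 1) → ℝ} (hw : ∑ j, w j = T)
    {x : Fin n → ℝ} (hx : x ∈ PS n fun _ => T)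
    (h : ∀ l, l < n → w (ix n ((0 : Fin (n + 1)) + 1 + l)) = pv x (l + 1) - pv x l + 0)
    (j : Fin (n + 1)) : 0 ≤ w j := by
  refine Fin.cases ?_ (fun l => ?_) j
  · have h1 := sum_ix w ((0 : Fin (n + 1)) + 1)
    have h2 := VI_tel h n le_rfl
    have h3 : ix n ((0 : Fin (n + 1)) + 1 + n) = 0 := by
      apply Fin.ext
      simp [ix, add_comm 1 n]
    unfold cs at h2
    rw [sum_range_succ, h2, h3, hw] at h1
    have h4 : pv x n ≤ T := by
      unfold pv
      split_ifs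
      · exact (hx _).2
      · exact hT
    linarith
  · have h3 : ix n ((0 : Fin (n + 1)) + 1 + l) = l.succ := by
      apply Fin.ext
      simp [ix, add_comm 1 (l : ℕ), Nat.mod_eq_of_lt l.2]
    rw [← h3, h l l.2, VI_pv]
    linarith [(hx l).1]

theorem vol_cover {n : ℕ} {c : Fin (n + 1) → ℝ} (h0 : ∀ j, 0 ≤ c j) :
    (∑ j, c j) ^ n ≤ ∑ m, (n.factorial : ℝ) * gon (cs c m) n 0 0 := by
  have hT : 0 ≤ ∑ j, c j := sum_nonneg fun j _ => h0 j
  choose L hb _ hd hc using cyc_chart (n := n)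
  choose b hb' using fun m => hc m (∑ j, c j) 0
  have h1 : ∀ m, 0 ≤ cs c m 1 := fun m => sum_nonneg fun j _ => h0 _
  have sub : (fun x => L 0 x + b 0) '' PS n (fun _ => ∑ j, c j) ⊆
      ⋃ m, (fun x => L m x + b m) '' PS n (cs c m) := by
    rintro _ ⟨x, hx, rfl⟩
    have h2 := VI_pos hT (VI_bary _ _) hx (hb' 0 x)
    obtain ⟨m, hm⟩ := cover (c := c) (VI_bary (∑ j, c j) (L 0 x + b 0))
    obtain ⟨z, hz⟩ := (hb m).2 (L 0 x + b 0 - b m)
    have e : L m z + b m = L 0 x + b 0 := by rw [hz, sub_add_cancel]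
    have h3 := hb' m z
    rw [e] at h3
    refine Set.mem_iUnion.2 ⟨m, z, fun l => ⟨?_, ?_⟩, e⟩
    · have h4 := h2 (ix n (m + 1 + l))
      rw [h3 l l.2, VI_pv] at h4
      linarith
    · rw [← VI_pv z l, ← VI_tel h3 (l + 1) l.2]
      exact hm _ l.2
  have h5 := (MeasureTheory.measure_mono (μ := MeasureTheory.volume) sub).trans
    (MeasureTheory.measure_iUnion_fintype_le _ _)
  have h6 : ∀ m, 0 ≤ gon (cs c m) n 0 0 := fun m => gon_nonneg (VI_mono h0 m) n 0 (h1 m)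
  rw [VI_vol _ (hd 0), volume_PS n monotone_const hT, gon_const,
    sum_congr rfl fun m _ => (VI_vol _ (hd m) _ _).trans (volume_PS n (VI_mono h0 m) (h1 m)),
    ← ENNReal.ofReal_sum_of_nonneg fun m _ => h6 m,
    ENNReal.ofReal_le_ofReal_iff (sum_nonneg fun m _ => h6 m), sub_zero,
    div_le_iff₀ (Nat.cast_pos.2 n.factorial_pos)] at h5
  rw [← mul_sum, mul_comm]
  exact h5

end Vale.Agent.P209
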