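import Vale.Agent.P209.Gon

/-! The volume of a Pitman-Stanley polytope.

Induction on `k` for the sets `{y : Fin k → ℝ | t ≤ y 0 ≤ y 1 ≤ ..., y l ≤ C (j + l + 1)}` with general `j`, `t ≤ C (j + 1)`:
split off the first coordinate (`MeasureTheory.volume_preserving_piFinSuccAbove` at `0`, or
`measurePreserving_piFinSuccAbove`, `Measure.prod_apply`), the slice over `u ∈ [t, C (j + 1)]` is the set for
`k - 1`, `j + 1`, `u`; then `lintegral` of `ofReal` of a continuous nonnegative function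
(`ofReal_integral_eq_lintegral_ofReal`, `intervalIntegral.integral_of_le`). -/

namespace Vale.Agent.P209

open MeasureTheory

/-- Pairs `(t, y)` with `t ≤ y 0 ≤ y 1 ≤ ...` and `y l ≤ C (j + l + 1)`. -/
def volPS_set (C : ℕ → ℝ) (k j : ℕ) : Set (ℝ × (Fin k → ℝ)) :=
  {p | ∀ l : Fin k, (Fin.cons p.1 p.2 : Fin (k + 1) → ℝ) l.castSucc ≤ p.2 l ∧ p.2 l ≤ C (j + l + 1)}

theorem volPS_closed (C : ℕ → ℝ) (k j : ℕ) : IsClosed (volPS_set C k j) := by
  have h : ∀ l : Fin (k + 1),
      Continuous fun p : ℝ × (Fin k → ℝ) => (Fin.cons p.1 p.2 : Fin (k + 1) → ℝ) l := fun l => by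
    refine Fin.cases ?_ (fun i => ?_) l
    · simp only [Fin.cons_zero]
      exact continuous_fst
    · simp only [Fin.cons_succ]
      exact (continuous_apply i).comp continuous_snd
  simp only [volPS_set, Set.ofPred_forall]
  exact isClosed_iInter fun l =>
    (isClosed_le (h _) ((continuous_apply l).comp continuous_snd)).inter
      (isClosed_le ((continuous_apply l).comp continuous_snd) continuous_const)

theorem volPS_succ (C : ℕ → ℝ) (k j : ℕ) (t : ℝ) (y : Fin (k + 1) → ℝ) :
    (t, y) ∈ volPS_set C (k + 1) j ↔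
      y 0 ∈ Set.Icc t (C (j + 1)) ∧ (y 0, Fin.tail y) ∈ volPS_set C k (j + 1) := by
  simp only [volPS_set, Set.mem_ofPred_eq, Fin.forall_fin_succ, Fin.castSucc_zero, Fin.cons_zero,
    Fin.cons_self_tail, Fin.val_zero, add_zero, Set.mem_Icc, Fin.val_succ]
  refine and_congr Iff.rfl (forall_congr' fun l => ?_)
  rw [← Fin.succ_castSucc, Fin.cons_succ, show j + (l + 1) + 1 = j + 1 + l + 1 by ring]
  exact Iff.rfl

theorem volPS_vol {C : ℕ → ℝ} (hC : Monotone C) (k : ℕ) : ∀ (j : ℕ) (t : ℝ), t ≤ C (j + 1) →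
    volume (Prod.mk t ⁻¹' volPS_set C k j) = ENNReal.ofReal (gon C k j t) := by
  induction k with
  | zero =>
    intro j t _
    have e : Prod.mk t ⁻¹' volPS_set C 0 j = Set.univ :=
      Set.eq_univ_of_forall fun y l => l.elim0
    rw [e, gon, ENNReal.ofReal_one, volume_pi, Measure.pi_univ]
    simp
  | succ k ih =>
    intro j t ht
    let A : Set (ℝ × (Fin k → ℝ)) :=
      Prod.fst ⁻¹' Set.Icc t (C (j + 1)) ∩ volPS_set C k (j + 1)
    have hA : MeasurableSet A :=
      (measurable_fst measurableSet_Icc).inter (volPS_closed C k (j + 1)).measurableSet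
    have e : Prod.mk t ⁻¹' volPS_set C (k + 1) j =
        MeasurableEquiv.piFinSuccAbove (fun _ : Fin (k + 1) => ℝ) 0 ⁻¹' A :=
      Set.ext fun y => volPS_succ C k j t y
    have h1 : ∀ u : ℝ, volume (Prod.mk u ⁻¹' A) = (Set.Icc t (C (j + 1))).indicator
        (fun u => ENNReal.ofReal (gon C k (j + 1) u)) u := fun u => by
      by_cases hu : u ∈ Set.Icc t (C (j + 1))
      · rw [Set.indicator_of_mem hu, ← ih (j + 1) u (hu.2.trans (hC (Nat.le_succ _)))]
        exact congrArg _ (Set.ext fun y => ⟨fun h => h.2, fun h => ⟨hu, h⟩⟩)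
      · have e2 : Prod.mk u ⁻¹' A = ∅ := Set.eq_empty_of_forall_notMem fun y h => hu h.1
        rw [Set.indicator_of_notMem hu, e2, measure_empty]
    rw [e, (volume_preserving_piFinSuccAbove (fun _ : Fin (k + 1) => ℝ) 0).measure_preimage_equiv,
      Measure.volume_eq_prod, Measure.prod_apply hA, lintegral_congr h1,
      lintegral_indicator measurableSet_Icc, gon, intervalIntegral.integral_of_le ht,
      ← integral_Icc_eq_integral_Ioc]
    refine (ofReal_integral_eq_lintegral_ofReal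
      (gon_cont C k (j + 1)).continuousOn.integrableOn_Icc ?_).symm
    exact (ae_restrict_iff' measurableSet_Icc).2 (Filter.Eventually.of_forall fun u hu =>
      gon_nonneg hC k (j + 1) (hu.2.trans (hC (Nat.le_succ _))))

theorem volPS_eq (n : ℕ) (C : ℕ → ℝ) : PS n C = Prod.mk 0 ⁻¹' volPS_set C n 0 := by
  have h : ∀ (x : Fin n → ℝ) (l : Fin (n + 1)),
      (Fin.cons 0 x : Fin (n + 1) → ℝ) l = pv x l := fun x l => by
    refine Fin.cases ?_ (fun i => ?_) l
    · simp [pv]
    · rw [Fin.cons_succ, Fin.val_succ, pv, dif_pos ⟨Nat.succ_pos _, i.2⟩]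
      rfl
  ext x
  simp only [PS, volPS_set, Set.mem_ofPred_eq, Set.mem_preimage, h, Fin.val_castSucc, zero_add]

theorem isClosed_PS (n : ℕ) (C : ℕ → ℝ) : IsClosed (PS n C) := by
  rw [volPS_eq]
  exact (volPS_closed C n 0).preimage (Continuous.prodMk_right 0)

theorem volume_PS (n : ℕ) {C : ℕ → ℝ} (hC : Monotone C) (h0 : 0 ≤ C 1) :
    volume (PS n C) = ENNReal.ofReal (gon C n 0 0) := by
  rw [volPS_eq]
  exact volPS_vol hC n 0 0 h0

end Vale.Agent.P209
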